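import Vale.Agent.P092.CL.ExG

/-!
P092, Team P, stages 2 and 3 (helper805), [CL-EX]: the concrete picture over any admissible source
group `E`: `HalfStmt` from the geometry, the gauges, the overlap, the growth of the root groups, the
gap of the two walls, and the analytic input of the two walls.
-/

set_option linter.all false

open scoped InnerProductSpace ENNReal
open Filter Topology ContinuousLinearMap MeasureTheory TopologicalSpace

namespace Vale.Agent.P092.CL

open Vale.Agent.P092.SR Vale.Agent.P092.H160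
open Vale.Agent.P092.RC (KK pic lam₁ lam₂ XX Om)
open Vale.Agent.P092.H933 (LeviGap)
open Vale.Agent.P092.H805.Row (mpE)
open Vale.Agent.P092.H805.RowN (Bd Bf msE)

section stmts

variable {S P M V₁ V₂ : Type} [Group S] [MeasurableSpace V₁] [MeasurableSpace V₂]
  [TopologicalSpace S] [MulAction S P] [TopologicalSpace P] [CompactSpace P]
  [ContinuousConstSMul S P] [MulAction S M] [TopologicalSpace M] [CompactSpace M]
  [ContinuousConstSMul S M] [NormedAddCommGroup V₁] [NormedAddCommGroup V₂]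

/-- **[CL-WAL]** the analytic input of the two walls, for every lattice of `E`; `q` is any lift. -/
def WalStmt (L : Lt S P M V₁ V₂) (T : Gau S P M) {E : Type} [Group E] [TopologicalSpace E]
    [IsTopologicalGroup E] [LocallyCompactSpace E] [SecondCountableTopology E] [T2Space E]
    (ι : S →* E) : Prop :=
  ∀ [MeasurableSpace E] [BorelSpace E] {Γ : Subgroup E} [DiscreteTopology Γ] [Countable Γ]
    [MeasurableSpace (E ⧸ Γ)] [BorelSpace (E ⧸ Γ)] {ν : Measure (E ⧸ Γ)}
    [IsProbabilityMeasure ν] (hν : ∀ g : E, ν.map (fun x => g • x) = ν)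
    {Λ : Type} [Group Λ] [Countable Λ] {α : Γ →* (Ell2 Λ →L[ℂ] Ell2 Λ)} (hα : Frame α)
    (_ : ∀ g : Λ, g ≠ 1 → Set.Infinite {y : Λ | ∃ h, y = h * g * h⁻¹})
    (q : Γ → S), (∀ γ, ι (q γ) = γ) → L.PH q → (∀ C : ℝ, {γ | L.nm (q γ) ≤ C}.Finite) →
    Wal (mpE ν hα) (pic hν hα) (Bd ν hα) (msE hν hα) T q (Om ν Λ) (ι L.b1) ∧
    Wal (mpE ν hα) (pic hν hα) (Bd ν hα) (msE hν hα) T q (Om ν Λ) (ι L.b2)

variable [ProperSpace V₁] [ProperSpace V₂] [BorelSpace V₁] [BorelSpace V₂]
  {L : Lt S P M V₁ V₂} {E : Type} [Group E] [TopologicalSpace E]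
  [IsTopologicalGroup E] [LocallyCompactSpace E] [SecondCountableTopology E] [T2Space E]
  {ι : S →* E}

/-- **[CL-EX], one leg.** -/
theorem halfStmt_of (hG : Geo L) {T : Gau S P M} (hT : GauOk L T) (hO : OvlStmt L T)
    (h : Adm L ι) (f1 : IsFiniteMeasureOnCompacts L.μ₁) (f2 : IsFiniteMeasureOnCompacts L.μ₂)
    (hs : H71.CLO.SprL L) (g1 : LeviGap L.b1) (g2 : LeviGap L.b2) (hW : WalStmt L T ι) :
    HalfStmt L ι := by
  intro _ _ Γ _ _ _ _ ν _ hν hΓ hicc Λ _ _ hΛ α hα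
  haveI := hG.tg
  have hq : ∀ γ : Γ, ι (Function.surjInv h.sur (γ : E)) = γ := fun γ =>
    Function.surjInv_eq h.sur _
  obtain ⟨hW1, hW2⟩ := hW hν hα hΛ (fun γ => Function.surjInv h.sur (γ : E)) hq (ph_lift h hq)
    (fin_lift hG h hq)
  exact ⟨hyperfilter ℕ, _, fun γ => Function.surjInv h.sur (γ : E),
    leg₁ hν hα hG hT hO h f1 f2 hs Nat.hyperfilter_le_atTop hΛ
      (H684.Psp.leviGap_proper ι h.cι h.sur g1)
      (H684.Psp.leviGap_proper ι h.cι h.sur g2) hq hW1 hW2, inj_lift hG h hq hicc⟩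

/-- **[CL-EX].** -/
theorem exStmt_of (hG : Geo L) {T : Gau S P M} (hT : GauOk L T) (hO : OvlStmt L T)
    (h : Adm L ι) (f1 : IsFiniteMeasureOnCompacts L.μ₁) (f2 : IsFiniteMeasureOnCompacts L.μ₂)
    (hs : H71.CLO.SprL L) (g1 : LeviGap L.b1) (g2 : LeviGap L.b2) (hW : WalStmt L T ι) :
    ExStmt L ι := exStmt_of_half (halfStmt_of hG hT hO h f1 f2 hs g1 g2 hW)

end stmts

end Vale.Agent.P092.CL
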