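import Vale.Agent.P092.CL.Tw
import Vale.Agent.P092.SD.Flip

/-!
P092, TEAM P, stages 2 and 3 (helper53): the concrete picture over a source group `E` in the
letters `CL`; the second leg is the flip of the first one.
-/

set_option linter.all false

open scoped InnerProductSpace ENNReal ZeroAtInfty
open Filter Topology ContinuousLinearMap MeasureTheory TopologicalSpace

namespace Vale.Agent.P092.CL

open Vale.Agent.P092.SR Vale.Agent.P092.H160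
open Vale.Agent.P092.RC (KK pic lam₁ lam₂ XX Om)

section stmts

variable {S P M V₁ V₂ : Type} [Group S] [MeasurableSpace V₁] [MeasurableSpace V₂]
  [TopologicalSpace S] [MulAction S P] [TopologicalSpace P] [CompactSpace P]
  [ContinuousConstSMul S P] [MulAction S M] [TopologicalSpace M] [CompactSpace M]
  [ContinuousConstSMul S M] [NormedAddCommGroup V₁] [NormedAddCommGroup V₂]

/-- **[CL-EX]** the concrete picture over a source group `E`: both legs -/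
def ExStmt (L : Lt S P M V₁ V₂) {E : Type} [Group E] [TopologicalSpace E]
    [IsTopologicalGroup E] [LocallyCompactSpace E] [SecondCountableTopology E] [T2Space E]
    (ι : S →* E) : Prop :=
  ∀ [MeasurableSpace E] [BorelSpace E] {Γ : Subgroup E} [DiscreteTopology Γ] [Countable Γ]
    [MeasurableSpace (E ⧸ Γ)] [BorelSpace (E ⧸ Γ)] {ν : Measure (E ⧸ Γ)}
    [IsProbabilityMeasure ν] (hν : ∀ g : E, ν.map (fun x => g • x) = ν)
    (_ : H515.St.IsLattice Γ) (_ : ∀ g : Γ, g ≠ 1 → Set.Infinite {y : Γ | ∃ h, y = h * g * h⁻¹})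
    {Λ : Type} [Group Λ] [Countable Λ]
    (_ : ∀ g : Λ, g ≠ 1 → Set.Infinite {y : Λ | ∃ h, y = h * g * h⁻¹})
    {α : Γ →* (Ell2 Λ →L[ℂ] Ell2 Λ)} (hα : Frame α),
    ∃ (𝒰 : Ultrafilter ℕ) (m₁ m₂ : Set Γ → (KK ν Λ →L[ℂ] KK ν Λ)) (q₁ q₂ : Γ → S),
      HasLeg L 𝒰 ι (pic hν hα) (lam₁ ν α) (XX ν Λ ∪ Set.range (lam₂ ν α)) (Om ν Λ) m₁ q₁ ∧
      HasLeg L 𝒰 ι (pic hν hα) (lam₂ ν α) (XX ν Λ ∪ Set.range (lam₁ ν α)) (Om ν Λ) m₂ q₂ ∧
      (∀ γ, q₁ γ ∈ L.Z → γ = 1) ∧ (∀ γ, q₂ γ ∈ L.Z → γ = 1)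

/-- [CL-EX] for the first leg. -/
def HalfStmt (L : Lt S P M V₁ V₂) {E : Type} [Group E] [TopologicalSpace E]
    [IsTopologicalGroup E] [LocallyCompactSpace E] [SecondCountableTopology E] [T2Space E]
    (ι : S →* E) : Prop :=
  ∀ [MeasurableSpace E] [BorelSpace E] {Γ : Subgroup E} [DiscreteTopology Γ] [Countable Γ]
    [MeasurableSpace (E ⧸ Γ)] [BorelSpace (E ⧸ Γ)] {ν : Measure (E ⧸ Γ)}
    [IsProbabilityMeasure ν] (hν : ∀ g : E, ν.map (fun x => g • x) = ν)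
    (_ : H515.St.IsLattice Γ) (_ : ∀ g : Γ, g ≠ 1 → Set.Infinite {y : Γ | ∃ h, y = h * g * h⁻¹})
    {Λ : Type} [Group Λ] [Countable Λ]
    (_ : ∀ g : Λ, g ≠ 1 → Set.Infinite {y : Λ | ∃ h, y = h * g * h⁻¹})
    {α : Γ →* (Ell2 Λ →L[ℂ] Ell2 Λ)} (hα : Frame α),
    ∃ (𝒰 : Ultrafilter ℕ) (m : Set Γ → (KK ν Λ →L[ℂ] KK ν Λ)) (q : Γ → S),
      HasLeg L 𝒰 ι (pic hν hα) (lam₁ ν α) (XX ν Λ ∪ Set.range (lam₂ ν α)) (Om ν Λ) m q ∧
      (∀ γ, q γ ∈ L.Z → γ = 1)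

theorem exStmt_of_half {L : Lt S P M V₁ V₂} {E : Type} [Group E] [TopologicalSpace E]
    [IsTopologicalGroup E] [LocallyCompactSpace E] [SecondCountableTopology E] [T2Space E]
    {ι : S →* E} (h : HalfStmt L ι) : ExStmt L ι := by
  intro _ _ Γ _ _ _ _ ν _ hν hΓ hicc Λ _ _ hΛ α hα
  obtain ⟨𝒰, m, q, h1, h2⟩ := h hν hΓ hicc hΛ hα
  exact ⟨𝒰, m, _, q, q, h1, Tw.tw_hasLeg (SD.tw_flK hν hα) h1, h2, h2⟩

end stmts

end Vale.Agent.P092.CL
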