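import Vale.Agent.P092.SN.Defs
import Vale.Agent.P092.H962.C.Amp
import Vale.Agent.P092.H796.Conc
import Vale.Agent.P092.H514.NoInvRP
import Vale.Agent.P092.SP.UL

/-!
P092, TEAM P, stages 2 and 3: interface file (architect helper142). Everything here is abstract:
`S` the classical group, `P` its isotropic points, `M` its maximal isotropic subspaces (lines if
the Witt index is `2`), `L : Lt S P M V₁ V₂` the letters (walls `b1`, `b2`, root groups `u1`, `u2`,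
sizes, near-wall sets).  `Geo L` lists the geometry which the analysis uses.

* SOURCE: a group `E`, `ι : S →* E` surjective, kernel in `L.Z`.
* TARGET: `q : Γ → S`, a homomorphism modulo `L.Z`.
-/

set_option linter.all false

open scoped InnerProductSpace ENNReal
open Filter Topology ContinuousLinearMap MeasureTheory TopologicalSpace

namespace Vale.Agent.P092.CL

open Vale.Agent.P092.SD (Ms UC)
open Vale.Agent.P092.RC (Cm TRN Moore)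
open Vale.Agent.P092.H790.CTA (ORBG SIZEG)
open Vale.Agent.P092.H232 (Nin)
open Vale.Agent.P092.SP (UL)

/-! ### Letters -/

/-- The letters of a classical group `S` with points `P` and maximal subspaces `M`. -/
structure Lt (S P M V₁ V₂ : Type) [Group S] [MeasurableSpace V₁] [MeasurableSpace V₂] where
  /-- incidence -/
  In : P → M → Prop
  /-- base point -/
  p0 : P
  /-- base maximal subspace -/
  m0 : M
  /-- the wall element of the points (fixes `p0`, attracting) -/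
  b1 : S
  /-- the wall element of the maximal subspaces (fixes `m0`) -/
  b2 : S
  /-- the root group `e₁ + e₂` (expanded by `b1` and by `b2`) -/
  u1 : V₁ → S
  /-- the root group `2 e₂` (long; expanded by `b2`, it fixes `p0` and the opposite point) -/
  u2 : V₂ → S
  μ₁ : Measure V₁
  μ₂ : Measure V₂
  /-- the size -/
  nm : S → ℝ
  /-- `NA1 R T A` : near the wall of points (all gaps but the first at most `R`), the attracting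
  point in `A` up to an error `1/T` -/
  NA1 : ℝ → ℝ → Set P → Set S
  /-- `NA2 R T A` : near the wall of maximal subspaces, the attracting one in `A` up to `1/T` -/
  NA2 : ℝ → ℝ → Set M → Set S
  /-- the scalars in `S` -/
  Z : Subgroup S

variable {S P M V₁ V₂ : Type} [Group S] [MeasurableSpace V₁] [MeasurableSpace V₂]

namespace Lt

/-- near-wall sets in `Γ` -/
def na1 (L : Lt S P M V₁ V₂) {Γ : Type} (q : Γ → S) (R T : ℝ) (A : Set P) : Set Γ :=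
  {γ | q γ ∈ L.NA1 R T A}

/-- near-wall sets in `Γ` -/
def na2 (L : Lt S P M V₁ V₂) {Γ : Type} (q : Γ → S) (R T : ℝ) (A : Set M) : Set Γ :=
  {γ | q γ ∈ L.NA2 R T A}

/-- homomorphisms modulo scalars -/
def PH (L : Lt S P M V₁ V₂) {Γ : Type} [Group Γ] (q : Γ → S) : Prop :=
  ∀ γ γ', ∃ z ∈ L.Z, q (γ * γ') = z * (q γ * q γ')

/-- uniform discreteness -/
def UD (L : Lt S P M V₁ V₂) {Γ : Type} (q : Γ → S) : Prop :=
  ∀ C : ℝ, ∃ N : ℕ, ∀ T : Finset Γ, (∀ γ ∈ T, ∀ γ' ∈ T, L.nm (q γ' * (q γ)⁻¹) ≤ C) → T.card ≤ N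

/-- opposite points: not in a common maximal subspace -/
def opp1 (L : Lt S P M V₁ V₂) (x y : P) : Prop := ∀ l, L.In x l → ¬ L.In y l

/-- disjoint (= opposite) maximal subspaces -/
def opp2 (L : Lt S P M V₁ V₂) (l l' : M) : Prop := ∀ x, L.In x l → ¬ L.In x l'

end Lt

/-- translation of functions: `act g f = f ∘ g⁻¹` -/
noncomputable def act {Y : Type} [TopologicalSpace Y] [MulAction S Y] [ContinuousConstSMul S Y]
    (g : S) (f : C(Y, ℂ)) : C(Y, ℂ) :=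
  ⟨fun y => f (g⁻¹ • y), f.continuous.comp (continuous_const_smul g⁻¹)⟩

/-! ### Geometry -/

/-- The geometry used by the analysis. -/
structure Geo [TopologicalSpace S] [MulAction S P] [TopologicalSpace P] [CompactSpace P]
    [ContinuousConstSMul S P] [MulAction S M] [TopologicalSpace M] [CompactSpace M]
    [ContinuousConstSMul S M] [NormedAddCommGroup V₁] [NormedAddCommGroup V₂]
    (L : Lt S P M V₁ V₂) : Prop where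
  tg : IsTopologicalGroup S
  t2S : T2Space S
  scS : SecondCountableTopology S
  t2P : T2Space P
  scP : SecondCountableTopology P
  t2M : T2Space M
  scM : SecondCountableTopology M
  csP : ContinuousSMul S P
  csM : ContinuousSMul S M
  inc : L.In L.p0 L.m0
  in_smul : ∀ (g : S) (x : P) (l : M), L.In (g • x) (g • l) ↔ L.In x l
  in_cl : IsClosed {p : P × M | L.In p.1 p.2}
  flag : ∀ (x : P) (l : M), L.In x l → ∃ g : S, g • L.p0 = x ∧ g • L.m0 = l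
  ex1 : ∀ x : P, ∃ l : M, L.In x l
  ex2 : ∀ l : M, ∃ x : P, L.In x l
  /-- a point and a maximal subspace: a conjugate of `b1`, `u1` at the point fixes the subspace -/
  fix1 : ∀ (x : P) (l : M), ∃ g : S, g • L.p0 = x ∧ (g * L.b1 * g⁻¹) • l = l ∧
    ∀ s, (g * L.u1 s * g⁻¹) • l = l
  /-- a conjugate of `b2`, `u2` at the maximal subspace fixes the point -/
  fix2 : ∀ (x : P) (l : M), ∃ g : S, g • L.m0 = l ∧ (g * L.b2 * g⁻¹) • x = x ∧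
    ∀ s, (g * L.u2 s * g⁻¹) • x = x
  u1c : Continuous L.u1
  u10 : L.u1 0 = 1
  u1p : ∀ s, L.u1 s • L.p0 = L.p0
  u1m : ∀ s, L.u1 s • L.m0 = L.m0
  u2c : Continuous L.u2
  u20 : L.u2 0 = 1
  u2p : ∀ s, L.u2 s • L.p0 = L.p0
  u2m : ∀ s, L.u2 s • L.m0 = L.m0
  b1p : L.b1 • L.p0 = L.p0
  b1m : L.b1 • L.m0 = L.m0
  b2p : L.b2 • L.p0 = L.p0
  b2m : L.b2 • L.m0 = L.m0
  /-- both walls contract the root group `u1` -/
  con1 : ∀ s, Tendsto (fun N : ℕ => (L.b1 ^ N)⁻¹ * L.u1 s * L.b1 ^ N) atTop (𝓝 1)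
  con2 : ∀ s, Tendsto (fun N : ℕ => (L.b2 ^ N)⁻¹ * L.u1 s * L.b2 ^ N) atTop (𝓝 1)
  /-- the stabiliser of the base point: Levi part times contracted part -/
  st1 : ∀ g : S, g • L.p0 = L.p0 → ∃ v n : S, g = v * n ∧ v * L.b1 = L.b1 * v ∧
    Tendsto (fun N : ℕ => (L.b1 ^ N)⁻¹ * n * L.b1 ^ N) atTop (𝓝 1)
  st2 : ∀ g : S, g • L.m0 = L.m0 → ∃ v n : S, g = v * n ∧ v * L.b2 = L.b2 * v ∧
    Tendsto (fun N : ℕ => (L.b2 ^ N)⁻¹ * n * L.b2 ^ N) atTop (𝓝 1)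
  gen1 : ∀ x y : P, x ≠ y → Subgroup.closure ({g : S | g • x = x} ∪ {g : S | g • y = y}) = ⊤
  gen2 : ∀ x y : M, x ≠ y → Subgroup.closure ({g : S | g • x = x} ∪ {g : S | g • y = y}) = ⊤
  unb1 : ∀ (x y : P) (C : ℝ), ∃ g : S, g • x = x ∧ g • y = y ∧ C ≤ L.nm g
  unb2 : ∀ (x y : M) (C : ℝ), ∃ g : S, g • x = x ∧ g • y = y ∧ C ≤ L.nm g
  unbu : ∀ (g : S) (C : ℝ), ∃ s, C ≤ L.nm (g * L.u1 s * g⁻¹)
  /-- size -/
  nm_pos : ∀ g, 0 < L.nm g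
  nm_mul : ∃ C : ℝ, 0 < C ∧ ∀ g h, L.nm (g * h) ≤ C * (L.nm g * L.nm h)
  nm_inv : ∃ C : ℝ, 0 < C ∧ ∀ g, L.nm g⁻¹ ≤ C * L.nm g
  nm_c : Continuous L.nm
  nm_cpt : ∀ C : ℝ, IsCompact {g : S | L.nm g ≤ C}
  nm_b1 : Tendsto (fun N : ℕ => L.nm (L.b1 ^ N)) atTop atTop
  nm_b2 : Tendsto (fun N : ℕ => L.nm (L.b2 ^ N)) atTop atTop
  /-- scalars -/
  z_comm : ∀ z ∈ L.Z, ∀ g, z * g = g * z
  z_P : ∀ z ∈ L.Z, ∀ x : P, z • x = x
  z_M : ∀ z ∈ L.Z, ∀ x : M, z • x = x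
  z_nm : ∀ z ∈ L.Z, ∀ g, L.nm (z * g) = L.nm g
  z_NA1 : ∀ z ∈ L.Z, ∀ (g : S) (R T : ℝ) (A : Set P), z * g ∈ L.NA1 R T A ↔ g ∈ L.NA1 R T A
  z_NA2 : ∀ z ∈ L.Z, ∀ (g : S) (R T : ℝ) (A : Set M), z * g ∈ L.NA2 R T A ↔ g ∈ L.NA2 R T A
  /-- an element which fixes all points is a scalar -/
  z_of : ∀ g : S, (∀ x : P, g • x = x) → g ∈ L.Z
  /-- proximality of subgroups of finite covolume -/
  prox1 : ∀ Γ : Subgroup S, H514.NI.Covol Γ → ∀ (z : P) (D : Set P), IsCompact D →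
    (∀ y ∈ D, L.opp1 y z) → ∀ U : Set P, IsOpen U → U.Nonempty → ∃ γ ∈ Γ, ∀ y ∈ D, γ • y ∈ U
  prox2 : ∀ Γ : Subgroup S, H514.NI.Covol Γ → ∀ (z : M) (D : Set M), IsCompact D →
    (∀ y ∈ D, L.opp2 y z) → ∀ U : Set M, IsOpen U → U.Nonempty → ∃ γ ∈ Γ, ∀ y ∈ D, γ • y ∈ U
  /-- no invariant states -/
  nis1 : ∀ Γ : Subgroup S, H514.NI.Covol Γ → ∀ φ : C(P, ℂ) →ₗ[ℂ] ℂ,
    (∀ f, 0 ≤ (φ (star f * f)).re) → φ 1 = 1 →
    (∀ γ ∈ Γ, ∀ f f' : C(P, ℂ), (∀ x, f' (γ • x) = f x) → φ f' = φ f) → False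
  nis2 : ∀ Γ : Subgroup S, H514.NI.Covol Γ → ∀ φ : C(M, ℂ) →ₗ[ℂ] ℂ,
    (∀ f, 0 ≤ (φ (star f * f)).re) → φ 1 = 1 →
    (∀ γ ∈ Γ, ∀ f f' : C(M, ℂ), (∀ x, f' (γ • x) = f x) → φ f' = φ f) → False

/-! ### The source group -/

/-- admissible source groups -/
structure Adm (L : Lt S P M V₁ V₂) [TopologicalSpace S] {E : Type} [Group E] [TopologicalSpace E]
    (ι : S →* E) : Prop where
  tg : IsTopologicalGroup E
  cι : Continuous ι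
  sur : Function.Surjective ι
  ker : ∀ g, ι g = 1 → g ∈ L.Z
  /-- properness -/
  coc : ∀ b : ℕ → S, Tendsto (fun n => L.nm (b n)) atTop atTop →
    Tendsto (fun n => ι (b n)) atTop (cocompact E)
  /-- Howe-Moore: unbounded sets -/
  moore : ∀ T : Set S, (∀ C : ℝ, ∃ g ∈ T, C ≤ L.nm g) → Moore (ι '' T)

/-! ### One leg -/

section pic

variable {E Γ K : Type} [Group E] [TopologicalSpace E] [Group Γ] [NormedAddCommGroup K]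
  [InnerProductSpace ℂ K] [CompleteSpace K]

/-- the growth lemma for the wall element `b` and the root group `n` -/
def ORB {V : Type} [MeasurableSpace V] [NormedAddCommGroup V] (μ : Measure V) (ι : S →* E)
    (π : E →* (K →L[ℂ] K)) (lam : Γ →* (K →L[ℂ] K)) (W : Set (K →L[ℂ] K)) (Ω : K) (b : S)
    (n : V → S) : Prop :=
  ∃ ρ : ℝ, 0 < ρ ∧ ρ < 1 ∧ ORBG μ (ι b) (fun s => ι (n s)) ρ π lam W Ω

variable {X Y : Type} [MulAction S X] [TopologicalSpace Y] [CompactSpace Y] [MulAction S Y]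
  [ContinuousConstSMul S Y]

/-- One family of unital completely positive limits (times a mass `p`): source type `X` with wall
element `b` fixing `v0`, target type `Y` with the near-wall sets `NA`. -/
structure UFam (𝒰 : Ultrafilter ℕ) (b : S) (v0 : X) (ι : S →* E) (π : E →* (K →L[ℂ] K))
    (lam : Γ →* (K →L[ℂ] K)) (W : Set (K →L[ℂ] K)) (m : Set Γ → (K →L[ℂ] K)) (q : Γ → S)
    (NA : ℝ → ℝ → Set Y → Set Γ) (U : X → (C(Y, ℂ) →ₗ[ℂ] (K →L[ℂ] K))) (p : ℝ) : Prop where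
  ul : ∀ v, UL (U v) p
  cm : ∀ v f, Cm W (U v f)
  cov : ∀ γ v f, lam γ * U v f * lam γ⁻¹ = U v (act (q γ) f)
  pcov : ∀ g v f, π (ι g) * U v f * π (ι g)⁻¹ = U (g • v) f
  /-- domination by the limits of the cut-offs -/
  dom : ∀ (g : S) (u : C(Y, ℂ)) (A : Set Y), IsOpen A → tsupport u ⊆ A → ∀ ζ : K,
    ∀ ε > 0, ∃ R : ℝ, ∀ T > 0, ∀ᶠ t : ℕ in (𝒰 : Filter ℕ),
      ‖U (g • v0) u ζ‖ ≤ ‖u‖ * ‖m (NA R T A) (π (ι (g * b ^ t * g⁻¹))⁻¹ ζ)‖ + ε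
  /-- two different places agree nowhere -/
  agr : p ≠ 0 → ∀ v v', v ≠ v' → ∀ ξ, (∀ f, U v f ξ = U v' f ξ) → ξ = 0

/-- The same for *-homomorphisms. -/
structure HFam (𝒰 : Ultrafilter ℕ) (b : S) (v0 : X) (ι : S →* E) (π : E →* (K →L[ℂ] K))
    (lam : Γ →* (K →L[ℂ] K)) (W : Set (K →L[ℂ] K)) (m : Set Γ → (K →L[ℂ] K)) (q : Γ → S)
    (NA : ℝ → ℝ → Set Y → Set Γ) (F : X → (C(Y, ℂ) →⋆ₐ[ℂ] (K →L[ℂ] K))) : Prop where
  cm : ∀ v f, Cm W (F v f)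
  cov : ∀ γ v f, lam γ * F v f * lam γ⁻¹ = F v (act (q γ) f)
  pcov : ∀ g v f, π (ι g) * F v f * π (ι g)⁻¹ = F (g • v) f
  dom : ∀ (g : S) (u : C(Y, ℂ)) (A : Set Y), IsOpen A → tsupport u ⊆ A → ∀ ζ : K,
    ∀ ε > 0, ∃ R : ℝ, ∀ T > 0, ∀ᶠ t : ℕ in (𝒰 : Filter ℕ),
      ‖F (g • v0) u ζ‖ ≤ ‖u‖ * ‖m (NA R T A) (π (ι (g * b ^ t * g⁻¹))⁻¹ ζ)‖ + ε
  agr : ∀ v v', v ≠ v' → ∀ ξ, (∀ f, F v f ξ = F v' f ξ) → ξ = 0

variable [TopologicalSpace S] [MulAction S P] [TopologicalSpace P] [CompactSpace P]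
  [ContinuousConstSMul S P] [MulAction S M] [TopologicalSpace M] [CompactSpace M]
  [ContinuousConstSMul S M] [NormedAddCommGroup V₁] [NormedAddCommGroup V₂]

/-- The base record: picture, projections, lattice, growth, sizes, no invariant states. -/
structure PB (L : Lt S P M V₁ V₂) (𝒰 : Ultrafilter ℕ) (ι : S →* E)
    (π : E →* (K →L[ℂ] K)) (lam : Γ →* (K →L[ℂ] K)) (W : Set (K →L[ℂ] K)) (Ω : K)
    (m : Set Γ → (K →L[ℂ] K)) (q : Γ → S) : Prop where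
  adm : Adm L ι
  h𝒰 : (𝒰 : Filter ℕ) ≤ atTop
  pic : RC.PicX π lam W Ω
  ms : Ms lam W Ω m
  uc : UC π W Ω m
  ph : L.PH q
  fin : ∀ C : ℝ, {γ | L.nm (q γ) ≤ C}.Finite
  ud : L.UD q
  orb1 : ORB L.μ₁ ι π lam W Ω L.b1 L.u1
  orb2 : ORB L.μ₂ ι π lam W Ω L.b2 L.u2
  orb2' : ORB L.μ₁ ι π lam W Ω L.b2 L.u1
  size1 : SIZEG (ι L.b1) π Ω m fun γ => L.nm (q γ)
  size2 : SIZEG (ι L.b2) π Ω m fun γ => L.nm (q γ)
  prox1 : ∀ (z : P) (D : Set P), IsCompact D → (∀ y ∈ D, L.opp1 y z) →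
    ∀ U : Set P, IsOpen U → U.Nonempty → ∃ γ, ∀ y ∈ D, q γ • y ∈ U
  prox2 : ∀ (z : M) (D : Set M), IsCompact D → (∀ y ∈ D, L.opp2 y z) →
    ∀ U : Set M, IsOpen U → U.Nonempty → ∃ γ, ∀ y ∈ D, q γ • y ∈ U
  nis1 : ∀ φ : C(P, ℂ) →ₗ[ℂ] ℂ, (∀ f, 0 ≤ (φ (star f * f)).re) → φ 1 = 1 →
    (∀ γ, ∀ f f' : C(P, ℂ), (∀ x, f' (q γ • x) = f x) → φ f' = φ f) → False
  nis2 : ∀ φ : C(M, ℂ) →ₗ[ℂ] ℂ, (∀ f, 0 ≤ (φ (star f * f)).re) → φ 1 = 1 →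
    (∀ γ, ∀ f f' : C(M, ℂ), (∀ x, f' (q γ • x) = f x) → φ f' = φ f) → False

/-- One leg: everything the analysis delivers. `Uij` : source type `i`, target type `j`
(`1` = points, `2` = maximal subspaces). -/
structure LegP (L : Lt S P M V₁ V₂) (𝒰 : Ultrafilter ℕ) (ι : S →* E)
    (π : E →* (K →L[ℂ] K)) (lam : Γ →* (K →L[ℂ] K)) (W : Set (K →L[ℂ] K)) (Ω : K)
    (m : Set Γ → (K →L[ℂ] K)) (q : Γ → S)
    (U11 : P → (C(P, ℂ) →ₗ[ℂ] (K →L[ℂ] K))) (p11 : ℝ)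
    (U12 : P → (C(M, ℂ) →ₗ[ℂ] (K →L[ℂ] K))) (p12 : ℝ)
    (U21 : M → (C(P, ℂ) →ₗ[ℂ] (K →L[ℂ] K))) (p21 : ℝ)
    (U22 : M → (C(M, ℂ) →ₗ[ℂ] (K →L[ℂ] K))) (p22 : ℝ) : Prop where
  base : PB L 𝒰 ι π lam W Ω m q
  u11 : UFam 𝒰 L.b1 L.p0 ι π lam W m q (L.na1 q) U11 p11
  u12 : UFam 𝒰 L.b1 L.p0 ι π lam W m q (L.na2 q) U12 p12
  u21 : UFam 𝒰 L.b2 L.m0 ι π lam W m q (L.na1 q) U21 p21
  u22 : UFam 𝒰 L.b2 L.m0 ι π lam W m q (L.na2 q) U22 p22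
  s1 : p11 + p12 = 1
  s2 : p21 + p22 = 1
  /-- (I1) for an incident pair, straight types -/
  i11 : ∀ c l, L.In c l → ∀ f g, Nin L.In f g → U11 c f * U22 l g = 0
  /-- (I1) for an incident pair, flipped types -/
  i12 : ∀ c l, L.In c l → ∀ f g, Nin L.In f g → U21 l f * U12 c g = 0

/-- the data of one leg -/
def HasLeg (L : Lt S P M V₁ V₂) (𝒰 : Ultrafilter ℕ) (ι : S →* E)
    (π : E →* (K →L[ℂ] K)) (lam : Γ →* (K →L[ℂ] K)) (W : Set (K →L[ℂ] K)) (Ω : K)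
    (m : Set Γ → (K →L[ℂ] K)) (q : Γ → S) : Prop :=
  ∃ (U11 : P → (C(P, ℂ) →ₗ[ℂ] (K →L[ℂ] K))) (p11 : ℝ)
    (U12 : P → (C(M, ℂ) →ₗ[ℂ] (K →L[ℂ] K))) (p12 : ℝ)
    (U21 : M → (C(P, ℂ) →ₗ[ℂ] (K →L[ℂ] K))) (p21 : ℝ)
    (U22 : M → (C(M, ℂ) →ₗ[ℂ] (K →L[ℂ] K))) (p22 : ℝ),
    LegP L 𝒰 ι π lam W Ω m q U11 p11 U12 p12 U21 p21 U22 p22

/-- One leg after purity and (0): *-homomorphisms `Ec c : C(Y₁)`, `F l : C(Y₂)`; the calculi of an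
incident pair commute and are exactly incident for `IT`. Straight: `Y₁ = P`, `Y₂ = M`,
`IT = L.In`; flipped: `Y₁ = M`, `Y₂ = P`, `IT = flip L.In`. -/
structure LegC {Y₁ Y₂ : Type} [TopologicalSpace Y₁] [CompactSpace Y₁] [MulAction S Y₁]
    [ContinuousConstSMul S Y₁] [TopologicalSpace Y₂] [CompactSpace Y₂] [MulAction S Y₂]
    [ContinuousConstSMul S Y₂] (IT : Y₁ → Y₂ → Prop) (L : Lt S P M V₁ V₂)
    (𝒰 : Ultrafilter ℕ) (ι : S →* E) (π : E →* (K →L[ℂ] K)) (lam : Γ →* (K →L[ℂ] K))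
    (W : Set (K →L[ℂ] K)) (Ω : K) (m : Set Γ → (K →L[ℂ] K)) (q : Γ → S)
    (NA₁ : ℝ → ℝ → Set Y₁ → Set Γ) (NA₂ : ℝ → ℝ → Set Y₂ → Set Γ)
    (Ec : P → (C(Y₁, ℂ) →⋆ₐ[ℂ] (K →L[ℂ] K))) (F : M → (C(Y₂, ℂ) →⋆ₐ[ℂ] (K →L[ℂ] K))) : Prop where
  base : PB L 𝒰 ι π lam W Ω m q
  e : HFam 𝒰 L.b1 L.p0 ι π lam W m q NA₁ Ec
  f : HFam 𝒰 L.b2 L.m0 ι π lam W m q NA₂ F
  pl : ∀ c l, L.In c l → H796.PL IT (Ec c) (F l)

/-- straight leg -/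
abbrev LegS (L : Lt S P M V₁ V₂) (𝒰 : Ultrafilter ℕ) (ι : S →* E)
    (π : E →* (K →L[ℂ] K)) (lam : Γ →* (K →L[ℂ] K)) (W : Set (K →L[ℂ] K)) (Ω : K)
    (m : Set Γ → (K →L[ℂ] K)) (q : Γ → S) (Ec : P → (C(P, ℂ) →⋆ₐ[ℂ] (K →L[ℂ] K)))
    (F : M → (C(M, ℂ) →⋆ₐ[ℂ] (K →L[ℂ] K))) : Prop :=
  LegC L.In L 𝒰 ι π lam W Ω m q (L.na1 q) (L.na2 q) Ec F

/-- flipped leg -/
abbrev LegF (L : Lt S P M V₁ V₂) (𝒰 : Ultrafilter ℕ) (ι : S →* E)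
    (π : E →* (K →L[ℂ] K)) (lam : Γ →* (K →L[ℂ] K)) (W : Set (K →L[ℂ] K)) (Ω : K)
    (m : Set Γ → (K →L[ℂ] K)) (q : Γ → S) (Ec : P → (C(M, ℂ) →⋆ₐ[ℂ] (K →L[ℂ] K)))
    (F : M → (C(P, ℂ) →⋆ₐ[ℂ] (K →L[ℂ] K))) : Prop :=
  LegC (flip L.In) L 𝒰 ι π lam W Ω m q (L.na2 q) (L.na1 q) Ec F

/-- all calculi commute -/
structure Com {Y₁ Y₂ : Type} [TopologicalSpace Y₁] [TopologicalSpace Y₂]
    (Ec : P → (C(Y₁, ℂ) →⋆ₐ[ℂ] (K →L[ℂ] K))) (F : M → (C(Y₂, ℂ) →⋆ₐ[ℂ] (K →L[ℂ] K))) : Prop where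
  ee : ∀ c c' f g, Commute (Ec c f) (Ec c' g)
  ff : ∀ l l' f g, Commute (F l f) (F l' g)
  ef : ∀ c l f g, Commute (Ec c f) (F l g)

/-- The output of the blocks: a straight leg, all calculi commute. -/
structure LegComm (L : Lt S P M V₁ V₂) (𝒰 : Ultrafilter ℕ) (ι : S →* E)
    (π : E →* (K →L[ℂ] K)) (lam : Γ →* (K →L[ℂ] K)) (W : Set (K →L[ℂ] K)) (Ω : K)
    (m : Set Γ → (K →L[ℂ] K)) (q : Γ → S) (Ec : P → (C(P, ℂ) →⋆ₐ[ℂ] (K →L[ℂ] K)))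
    (F : M → (C(M, ℂ) →⋆ₐ[ℂ] (K →L[ℂ] K))) : Prop where
  leg : LegS L 𝒰 ι π lam W Ω m q Ec F
  com : Com Ec F

end pic

end Vale.Agent.P092.CL
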