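import Vale.Agent.P092.CL.Quad
import Vale.Agent.P092.CL.Flip
import Vale.Agent.P092.H416.CLlet
import Vale.Agent.P092.H325.ClXc
import Vale.Agent.P092.SN.Main

/-!
P092, TEAM P, stages 2 and 3 (helper142): the second half of the joints (`ClsStmt`, `ExStmt`; the
cross leg is helper325's `xcL`) and the assembly `coreE_of`.
-/

set_option linter.all false

open scoped InnerProductSpace ENNReal LinearAlgebra.Projectivization ZeroAtInfty
open Filter Topology ContinuousLinearMap MeasureTheory TopologicalSpace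

namespace Vale.Agent.P092.CL

open Vale.Agent.P092.RC (Cm TRN Moore GG PG YY)
open Vale.Agent.P092.H35 (sp)
open Vale.Agent.P092.H303 (FormGroup)
open Vale.Agent.P092.H370.Po
open Vale.Agent.P092.H714.Cl (hf Frm)
open Vale.Agent.P092.H416.CL (pt rho EP)
open Vale.Agent.P092.H325.SX (ClsF)
open Vale.Agent.P092.H325.CL (Sc Nmc ph_rho fin_rho xcL)
open Vale.Agent.P092.SN (TVE CoreE CY)

section stmts

variable {n : Type} [Fintype n] [DecidableEq n] {k : Type} [NontriviallyNormedField k]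
  [ProperSpace k] {σ : k →+* k} [Fact (Continuous σ)] {J : Matrix n n k} {N : ℕ}
  {M V₁ V₂ : Type} [MeasurableSpace V₁] [MeasurableSpace V₂] [NormedAddCommGroup V₁]
  [NormedAddCommGroup V₂] [TopologicalSpace M] [CompactSpace M] [MulAction (FormGroup σ J) M]
  [ContinuousConstSMul (FormGroup σ J) M]

/-- **[CL-CLS]** (helper416, 714, 375) -/
def ClsStmt (e : n ≃ Fin (N + 1)) (L : Lt (FormGroup σ J) (SGr σ J 1) M V₁ V₂) : Prop :=
  ∀ {E Γ K : Type} [Group E] [TopologicalSpace E] [Group Γ] [NormedAddCommGroup K]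
    [InnerProductSpace ℂ K] [CompleteSpace K] (𝒰 : Ultrafilter ℕ) (ι : FormGroup σ J →* E)
    (π : E →* (K →L[ℂ] K)) (lam : Γ →* (K →L[ℂ] K)) (W : Set (K →L[ℂ] K)) (Ω : K)
    (m : Set Γ → (K →L[ℂ] K)) (q : Γ → FormGroup σ J)
    (Ec : SGr σ J 1 → (C(SGr σ J 1, ℂ) →⋆ₐ[ℂ] (K →L[ℂ] K)))
    (F : M → (C(M, ℂ) →⋆ₐ[ℂ] (K →L[ℂ] K))), LegComm L 𝒰 ι π lam W Ω m q Ec F →
    ∃ (τ : k →+* k) (Q : C₀(PG k (N + 1), ℂ) →⋆ₙₐ[ℂ] (K →L[ℂ] K)),
      ClsF (pt e) (rho e σ J) ι π lam W (fun γ => rho e σ J (q γ)) (EP e Ec) τ Q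

end stmts

section main

variable {n : Type} [Fintype n] [DecidableEq n] {k : Type} [NontriviallyNormedField k]
  [ProperSpace k] {σ : k →+* k} [Fact (Continuous σ)] {ε : k} {J : Matrix n n k} {N r : ℕ}
  {M V₁ V₂ : Type} [MeasurableSpace V₁] [MeasurableSpace V₂] [NormedAddCommGroup V₁]
  [NormedAddCommGroup V₂] [TopologicalSpace M] [CompactSpace M] [MulAction (FormGroup σ J) M]
  [ContinuousConstSMul (FormGroup σ J) M] {L : Lt (FormGroup σ J) (SGr σ J 1) M V₁ V₂}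

/-- an element which acts trivially on the projective space is a scalar of the record -/
theorem z_of_sp (e : n ≃ Fin (N + 1)) (hG : Geo L) {g : FormGroup σ J}
    (h : sp k (N + 1) (rho e σ J g) = 1) : g ∈ L.Z := by
  refine hG.z_of g fun x => ?_
  refine H416.CL.pt_inj e ?_
  rw [H416.CL.pt_smul]
  change sp k (N + 1) (rho e σ J g) • pt e x = pt e x
  rw [h, one_smul]

theorem cleg_of {E Γ K : Type} [Group E] [TopologicalSpace E] [Group Γ] [NormedAddCommGroup K]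
    [InnerProductSpace ℂ K] [CompleteSpace K] {ι : FormGroup σ J →* E} {π : E →* (K →L[ℂ] K)}
    {lam : Γ →* (K →L[ℂ] K)} {W : Set (K →L[ℂ] K)} {q : Γ → GG k N}
    {Ec : SGr σ J 1 → (CY k N →⋆ₐ[ℂ] (K →L[ℂ] K))} {τ : k →+* k}
    {Q : C₀(PG k (N + 1), ℂ) →⋆ₙₐ[ℂ] (K →L[ℂ] K)} (e : n ≃ Fin (N + 1))
    (h : ClsF (pt e) (rho e σ J) ι π lam W q Ec τ Q) (hs : Function.Surjective ι) (hq : SN.PH q)
    (hi : ∀ γ, sp k (N + 1) (q γ) = 1 → γ = 1)
    (hd : ∀ C : ℝ, {γ : Γ | SN.nm (q γ) ≤ C}.Finite) :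
    H264.Cl.CLeg π lam W (SN.qP q hq) Q where
  nd := h.nd
  cm := h.cm
  cov γ ψ ψ' hψ := h.cov γ ψ ψ' hψ
  pcov x ψ := by
    obtain ⟨g, rfl⟩ := hs x
    refine ⟨⟨⟨fun y => ψ (y * sp k (N + 1) (Matrix.SpecialLinearGroup.map τ (rho e σ J g))),
      by fun_prop⟩, ?_⟩, h.pcov g ψ _ fun y => rfl⟩
    exact ψ.zero_at_infty'.comp (Homeomorph.mulRight _).isClosedEmbedding.tendsto_cocompact
  inj := (injective_iff_map_eq_one _).2 fun γ hγ => hi γ hγ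
  disc C hC := by
    have h1 := H35.sp_proper (Nat.succ_ne_zero N) hC hC.isClosed
    obtain ⟨R, hR⟩ := (h1.image (f := fun g : GG k N => SN.nm g) (by
      have h2 : Continuous fun g : GG k N => g.1 := continuous_subtype_val
      exact H35.nmx_cont.comp h2)).bddAbove
    exact (hd R).subset fun γ hγ => hR ⟨q γ, hγ, rfl⟩

theorem nc_E {S P M' V₁' V₂' : Type} [Group S] [MeasurableSpace V₁'] [MeasurableSpace V₂']
    [TopologicalSpace S] [MulAction S P] [TopologicalSpace P] [CompactSpace P]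
    [ContinuousConstSMul S P] [MulAction S M'] [TopologicalSpace M'] [CompactSpace M']
    [ContinuousConstSMul S M'] [NormedAddCommGroup V₁'] [NormedAddCommGroup V₂']
    {L' : Lt S P M' V₁' V₂'} (hG : Geo L') {E : Type} [Group E] [TopologicalSpace E] {ι : S →* E}
    (hA : Adm L' ι) : NoncompactSpace E := by
  rw [← Filter.cocompact_neBot_iff]
  exact (hA.coc _ hG.nm_b1).neBot

open Vale.Agent.P092.SR Vale.Agent.P092.H160 in
open Vale.Agent.P092.RC (KK pic lam₁ lam₂ XX Om) in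
/-- **Assembly.** -/
theorem coreE_of {E : Type} [Group E] [TopologicalSpace E] [IsTopologicalGroup E]
    [LocallyCompactSpace E] [SecondCountableTopology E] [T2Space E] {ι : FormGroup σ J →* E}
    (e : n ≃ Fin (N + 1)) (hF : Frm σ ε J) (hW : WI σ J r) (hr : 2 ≤ r) (hG : Geo L)
    (hA : Adm L ι) (hZ : Sc e L) (hN : Nmc e L) (hOne : OneStmt L) (hCls : ClsStmt e L)
    (hEx : ExStmt L ι) : CoreE E := by
  haveI : NoncompactSpace E := nc_E hG hA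
  intro Γ hΓ hicc Λ _ _ hΛ α hα
  letI : MeasurableSpace E := borel _
  haveI : BorelSpace E := ⟨rfl⟩
  haveI hd : DiscreteTopology Γ := hΓ.disc
  haveI hc : Countable Γ := H790.countable_of_discrete (E := E) Γ
  letI : MeasurableSpace (E ⧸ Γ) := borel _
  haveI : BorelSpace (E ⧸ Γ) := ⟨rfl⟩
  obtain ⟨ν, hP', hν⟩ := H515.IsLattice.exists_prob (Λ := Γ) ⟨hΓ.disc, hΓ.covol⟩
  have tv1 : TVE (pic hν hα) (lam₁ ν α) (XX ν Λ ∪ Set.range (lam₂ ν α)) (Om ν Λ) := by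
    rintro Y ⟨hY, hY1⟩ h
    exact H103.tv_gen hν hα (fun A hA => hY _ (Or.inl ⟨A, hA, rfl⟩)) hY1
      (fun g => hY _ (Or.inr ⟨g, rfl⟩)) h
  obtain ⟨𝒰, m₁, m₂, q₁, q₂, l1, l2, i1, i2⟩ := hEx (Γ := Γ) hν hΓ hicc hΛ hα
  obtain ⟨E₁, F₁, c1⟩ := hOne 𝒰 ι _ _ _ _ m₁ q₁ l1
  obtain ⟨E₂, F₂, c2⟩ := hOne 𝒰 ι _ _ _ _ m₂ q₂ l2
  obtain ⟨σ₁, Q₁, hQ1⟩ := hCls 𝒰 ι _ _ _ _ m₁ q₁ E₁ F₁ c1
  obtain ⟨σ₂, Q₂, hQ2⟩ := hCls 𝒰 ι _ _ _ _ m₂ q₂ E₂ F₂ c2
  have hX := xcL e hF hW hr hZ hN c1.leg.base c2.leg.base tv1 hQ1 hQ2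
  exact H264.Cl.mono_of_legs hν hα
    (cleg_of e hQ1 hA.sur (ph_rho hZ c1.leg.base.ph) (fun γ h => i1 γ (z_of_sp e hG h))
      (fin_rho hN c1.leg.base.fin))
    (cleg_of e hQ2 hA.sur (ph_rho hZ c2.leg.base.ph) (fun γ h => i2 γ (z_of_sp e hG h))
      (fin_rho hN c2.leg.base.fin)) hX

end main

end Vale.Agent.P092.CL
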