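import Vale.Agent.P092.CL.Defs
import Vale.Agent.P092.H370.Po4
import Vale.Agent.P092.H714.Cl6

/-!
P092, TEAM P, stages 2 and 3: the concrete letters (architect helper142). `S = FormGroup σ J`,
`J = hyp (s + 2) ε J₀` on `Idx (s + 2) ι` (Witt index at least `s + 2 ≥ 2`), `P = SGr σ J 1`,
`M = SGr σ J (s + 2)` with helper370's action `g • X = X g⁻¹` (rows). `ta g = (g⁻¹)ᵀ` is the matrix
which moves the vectors of `X` (as columns) to the vectors of `g • X`.
-/

set_option linter.all false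

open scoped Matrix
open Matrix Module Set MeasureTheory

namespace Vale.Agent.P092.CL

open Vale.Agent.P092.H303 (FormGroup Idx hyp torF torF_mem root2 root2_mem hypAt_l hypAt_r)
open Vale.Agent.P092.H714.Cl
open Vale.Agent.P092.H370.Po (SGr Inc Sing)

section mat

variable {k : Type} [NontriviallyNormedField k] {n : Type} [Fintype n] [DecidableEq n]

/-- the matrix of `g` on columns -/
def ta (g : SpecialLinearGroup n k) : Matrix n n k := (g⁻¹).1ᵀ

/-- the maximum of the norms of the entries -/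
noncomputable def nmM (A : Matrix n n k) : ℝ := ‖(fun i j => A i j : n → n → k)‖

/-- near the wall of points: all `2 × 2` minors are at most `R` times the norm -/
def NW1 (R : ℝ) (A : Matrix n n k) : Prop :=
  ∀ i i' j j', ‖A i j * A i' j' - A i' j * A i j'‖ ≤ R * nmM A

/-- near the wall of `r`-spaces: some `r`-space is expanded by the norm divided by `R` -/
def NWr (r : ℕ) (R : ℝ) (A : Matrix n n k) : Prop :=
  ∃ V : Submodule k (n → k), finrank k V = r ∧ ∀ v ∈ V, nmM A * ‖v‖ ≤ R * ‖A *ᵥ v‖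

/-- an attracting `j`-space of `A` is in `B`, up to an error `1 / T` -/
def AttS {σ : k →+* k} {J : Matrix n n k} {j : ℕ} (T : ℝ) (B : Set (SGr σ J j))
    (A : Matrix n n k) : Prop :=
  ∃ X ∈ B, ∃ D : Matrix n n k, (∀ v, D *ᵥ v ∈ X.S) ∧ ∀ i i', ‖A i i' - D i i'‖ ≤ nmM A / T

/-- the scalars in `SL` -/
def scal (k n : Type) [NontriviallyNormedField k] [Fintype n] [DecidableEq n] :
    Subgroup (SpecialLinearGroup n k) where
  carrier := {g | ∃ c : k, g.1 = c • 1}
  one_mem' := ⟨1, by rw [one_smul]; rfl⟩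
  mul_mem' := by
    rintro g h ⟨c, hc⟩ ⟨d, hd⟩
    refine ⟨c * d, ?_⟩
    change g.1 * h.1 = _
    rw [hc, hd, smul_mul_assoc, Matrix.one_mul, smul_smul]
  inv_mem' := by
    rintro g ⟨c, hc⟩
    refine ⟨c⁻¹, ?_⟩
    by_cases hc0 : c = 0
    · have h1 : g.1 = 0 := by rw [hc, hc0, zero_smul]
      have h2 : (g⁻¹).1 * g.1 = 1 := congrArg Subtype.val (inv_mul_cancel g)
      have h3 : (1 : Matrix n n k) = 0 := by rw [← h2, h1, Matrix.mul_zero]
      have h4 : (g⁻¹).1 = (g⁻¹).1 * 1 := (Matrix.mul_one _).symm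
      rw [h4, h3, Matrix.mul_zero, smul_zero]
    · have h2 : (g⁻¹).1 * g.1 = 1 := congrArg Subtype.val (inv_mul_cancel g)
      rw [hc, mul_smul_comm, Matrix.mul_one] at h2
      rw [← h2, smul_smul, inv_mul_cancel₀ hc0, one_smul]

/-- the parameters of the long root groups -/
def V2 (σ : k →+* k) (ε : k) : AddSubgroup k where
  carrier := {c | c + ε * σ c = 0}
  zero_mem' := by
    change (0 : k) + ε * σ 0 = 0
    rw [map_zero, mul_zero, add_zero]
  add_mem' := by
    intro a b ha hb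
    have ha' : a + ε * σ a = 0 := ha
    have hb' : b + ε * σ b = 0 := hb
    change a + b + ε * σ (a + b) = 0
    rw [map_add, mul_add, add_add_add_comm, ha', hb', add_zero]
  neg_mem' := by
    intro a ha
    have ha' : a + ε * σ a = 0 := ha
    change -a + ε * σ (-a) = 0
    rw [map_neg, mul_neg, ← neg_add, ha', neg_zero]

end mat

section letters

variable {k : Type} [NontriviallyNormedField k] {ι : Type} [Fintype ι] [DecidableEq ι]
  {s : ℕ} {σ : k →+* k} {ε : k} {J₀ : Matrix ι ι k}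

/-- the vector `e_i` -/
abbrev ep (k ι : Type) [NontriviallyNormedField k] [DecidableEq ι] {s : ℕ} (i : Fin (s + 2)) :
    Idx (s + 2) ι → k := Pi.single (Sum.inl (Sum.inl i)) 1

/-- the vector `e_(-i)` -/
abbrev em (k ι : Type) [NontriviallyNormedField k] [DecidableEq ι] {s : ℕ} (i : Fin (s + 2)) :
    Idx (s + 2) ι → k := Pi.single (Sum.inl (Sum.inr i)) 1

theorem hf_ep (i j : Fin (s + 2)) : hf σ (hyp (s + 2) ε J₀) (ep k ι i) (ep k ι j) = 0 := by
  rw [hf_hyp]
  simp [hf]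

theorem hf_span {x y : Idx (s + 2) ι → k} {I : Set (Fin (s + 2))}
    (hx : x ∈ Submodule.span k (ep k ι '' I)) (hy : y ∈ Submodule.span k (ep k ι '' I)) :
    hf σ (hyp (s + 2) ε J₀) x y = 0 := by
  induction hx using Submodule.span_induction with
  | mem x hx =>
    obtain ⟨i, -, rfl⟩ := hx
    induction hy using Submodule.span_induction with
    | mem y hy =>
      obtain ⟨j, -, rfl⟩ := hy
      exact hf_ep i j
    | zero => exact hf_zero_right _ _ _
    | add a b _ _ ha hb => rw [hf_add_right, ha, hb, add_zero]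
    | smul c a _ ha => rw [hf_smul_right, ha, mul_zero]
  | zero => exact hf_zero_left _ _ _
  | add a b _ _ ha hb => rw [hf_add_left, ha, hb, add_zero]
  | smul c a _ ha => rw [hf_smul_left, ha, mul_zero]

theorem ep_li : LinearIndependent k (ep k ι : Fin (s + 2) → Idx (s + 2) ι → k) := by
  have h := (Pi.basisFun k (Idx (s + 2) ι)).linearIndependent
  have h2 := h.comp (fun i : Fin (s + 2) => Sum.inl (Sum.inl i)) fun i j hij =>
    Sum.inl_injective (Sum.inl_injective hij)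
  convert h2 using 1
  funext i
  simp [Pi.basisFun_apply]

/-- the base point `⟨e_0⟩` -/
noncomputable def p0 : SGr σ (hyp (s + 2) ε J₀) 1 :=
  SGr.mk' (Submodule.span k (ep k ι '' {0}))
    (fun x hx y hy => hf_span hx hy) (by
      rw [image_singleton]
      exact finrank_span_singleton (ep_li.ne_zero 0))

/-- the base maximal space `⟨e_0, …, e_(s+1)⟩` -/
noncomputable def m0 : SGr σ (hyp (s + 2) ε J₀) (s + 2) :=
  SGr.mk' (Submodule.span k (ep k ι '' univ))
    (fun x hx y hy => hf_span hx hy) (by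
      rw [image_univ, finrank_span_eq_card ep_li, Fintype.card_fin])

/-- the wall element of the points: `w` on `e_0`, `w⁻¹` on `e_(-0)` -/
noncomputable def b1 {w : k} (hw : w ≠ 0) (hσ : σ w = w) : FormGroup σ (hyp (s + 2) ε J₀) :=
  ⟨torF (s + 2) ι hw (Pi.single 0 1), torF_mem _ _ _ hw hσ _⟩

/-- the wall element of the maximal spaces: `w` on all `e_i`, `w⁻¹` on all `e_(-i)` -/
noncomputable def b2 {w : k} (hw : w ≠ 0) (hσ : σ w = w) : FormGroup σ (hyp (s + 2) ε J₀) :=
  ⟨torF (s + 2) ι hw fun _ => 1, torF_mem _ _ _ hw hσ _⟩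

/-- the root group `e_(-0) ↦ e_(-0) + t e_1`, `e_(-1) ↦ e_(-1) - ε σ(t) e_0` -/
def u1 (hF : Frm σ ε (hyp (s + 2) ε J₀)) (t : k) : FormGroup σ (hyp (s + 2) ε J₀) :=
  ⟨root2 (a := Sum.inl (Sum.inr 0)) (b := Sum.inl (Sum.inl 1)) (c := Sum.inl (Sum.inr 1))
      (d := Sum.inl (Sum.inl 0)) (by simp) (by simp) t (-(ε * σ t)), by
    refine root2_mem (hypAt_r _ _ _ 0) (hypAt_l _ _ _ 0) (hypAt_l _ _ _ 1) (hypAt_r _ _ _ 1)
      (by simp) (by simp) (by simp) (by simp) ?_ ?_
    · rw [map_neg, map_mul, hF.seps, hF.inv, mul_one, mul_neg, ← mul_assoc, hF.eps, one_mul,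
        add_neg_cancel]
    · rw [mul_one, neg_add_cancel]⟩

/-- the long root group of `e_1` -/
noncomputable def u2 (hF : Frm σ ε (hyp (s + 2) ε J₀)) (c : V2 σ ε) :
    FormGroup σ (hyp (s + 2) ε J₀) :=
  ⟨tv σ (hyp (s + 2) ε J₀) (ep k ι 1) c.1, tv_mem hF (hf_ep 1 1) c.2⟩

/-- **The letters.** -/
noncomputable def lt [MeasurableSpace k] (hF : Frm σ ε (hyp (s + 2) ε J₀)) {w : k} (hw : w ≠ 0)
    (hσ : σ w = w) (μ₁ : Measure k) (μ₂ : Measure (V2 σ ε)) :
    Lt (FormGroup σ (hyp (s + 2) ε J₀)) (SGr σ (hyp (s + 2) ε J₀) 1)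
      (SGr σ (hyp (s + 2) ε J₀) (s + 2)) k (V2 σ ε) where
  In x l := Inc x l
  p0 := p0
  m0 := m0
  b1 := b1 hw hσ
  b2 := b2 hw hσ
  u1 := u1 hF
  u2 := u2 hF
  μ₁ := μ₁
  μ₂ := μ₂
  nm g := nmM (ta g.1)
  NA1 R T B := {g | NW1 R (ta g.1) ∧ AttS T B (ta g.1)}
  NA2 R T B := {g | NWr (s + 2) R (ta g.1) ∧ AttS T B (ta g.1)}
  Z := (scal k (Idx (s + 2) ι)).subgroupOf _

end letters

end Vale.Agent.P092.CL
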