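import Vale.Agent.P092.CL.Defs
import Vale.Agent.P092.H486.EngJ

/-!
P092, TEAM P, stages 2 and 3 (helper805), [CL-EX]: the interface of the assembly. `Gau` the gauges of
the target, `GauOk` what the engine uses, `OvlStmt` the bounded overlap of the cones, `Wal` the
analytic input of one wall, `LegQ` the record `LegP` without the base.
-/

set_option linter.all false

open scoped InnerProductSpace ENNReal
open Filter Topology ContinuousLinearMap MeasureTheory TopologicalSpace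

namespace Vale.Agent.P092.CL

open Vale.Agent.P092.H232 (Nin)
open Vale.Agent.P092.H859.CL (st BB FF pw Esc Slow Leg)
open Vale.Agent.P092.H486.Eng (Ovl)

/-- The gauges: `G1` the gap of the points, `H1` all the other gaps; `G2` the gap of the maximal
subspaces, `H2` all the other gaps; the attracting point and the attracting maximal subspace. -/
structure Gau (S P M : Type) where
  G1 : S → ℝ
  H1 : S → ℝ
  G2 : S → ℝ
  H2 : S → ℝ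
  bp : S → P
  bm : S → M

variable {S P M V₁ V₂ : Type} [Group S] [MeasurableSpace V₁] [MeasurableSpace V₂]

/-- The geometry of the gauges. -/
structure GauOk [MulAction S P] [TopologicalSpace P] [MulAction S M] [TopologicalSpace M]
    (L : Lt S P M V₁ V₂) (T : Gau S P M) : Prop where
  /-- elements with bounded gauges are bounded -/
  fin1 : ∀ r, ∃ C, ∀ g, T.G1 g ≤ r → T.H1 g ≤ r → L.nm g ≤ C
  fin2 : ∀ r, ∃ C, ∀ g, T.G2 g ≤ r → T.H2 g ≤ r → L.nm g ≤ C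
  fin12 : ∀ r, ∃ C, ∀ g, T.H1 g ≤ r → T.H2 g ≤ r → L.nm g ≤ C
  /-- translations -/
  gap1 : ∀ s u : S, ∃ C, ∀ z ∈ L.Z, ∀ x, |T.G1 (z * (s * x * u)) - T.G1 x| ≤ C ∧
    |T.H1 (z * (s * x * u)) - T.H1 x| ≤ C
  gap2 : ∀ s u : S, ∃ C, ∀ z ∈ L.Z, ∀ x, |T.G2 (z * (s * x * u)) - T.G2 x| ≤ C ∧
    |T.H2 (z * (s * x * u)) - T.H2 x| ≤ C
  /-- the attracting object of a translate -/
  stab1 : ∀ (s u : S) (f : C(P, ℝ)) (ε : ℝ), 0 < ε → ∀ r, ∃ R, ∀ z ∈ L.Z, ∀ x, R ≤ T.G1 x →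
    T.H1 x ≤ r → |f (T.bp (z * (s * x * u))) - f (s • T.bp x)| ≤ ε
  stab2 : ∀ (s u : S) (f : C(M, ℝ)) (ε : ℝ), 0 < ε → ∀ r, ∃ R, ∀ z ∈ L.Z, ∀ x, R ≤ T.G2 x →
    T.H2 x ≤ r → |f (T.bm (z * (s * x * u))) - f (s • T.bm x)| ≤ ε
  /-- the cones and the near-wall sets -/
  dom1 : ∀ r, ∃ R : ℝ, ∀ t > 0, ∃ t' : ℝ, ∀ (A : Set P) (g : S), T.H1 g ≤ T.G1 g → T.bp g ∈ A →
    g ∈ L.NA1 R t A ∨ (T.G1 g ≤ t' ∧ T.H1 g ≤ t') ∨ (r < T.G1 g ∧ r < T.H1 g)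
  dom2 : ∀ r, ∃ R : ℝ, ∀ t > 0, ∃ t' : ℝ, ∀ (A : Set M) (g : S), T.H2 g ≤ T.G2 g → T.bm g ∈ A →
    g ∈ L.NA2 R t A ∨ (T.G2 g ≤ t' ∧ T.H2 g ≤ t') ∨ (r < T.G2 g ∧ r < T.H2 g)

/-- Bounded overlap of the cones over a set of points and a set of maximal subspaces which are
nowhere incident. -/
def OvlStmt [TopologicalSpace P] [TopologicalSpace M] (L : Lt S P M V₁ V₂) (T : Gau S P M) : Prop :=
  ∀ {Γ : Type} [Group Γ] (q : Γ → S), L.PH q → L.UD q → ∀ (A : Set P) (B : Set M), IsClosed A →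
    IsClosed B → (∀ x ∈ A, ∀ l ∈ B, ¬ L.In x l) →
    Ovl (fun γ => T.G1 (q γ)) (fun γ => T.H1 (q γ)) (fun γ => T.bp (q γ)) (fun γ => T.G2 (q γ))
      (fun γ => T.H2 (q γ)) (fun γ => T.bm (q γ)) A B

section pic

variable {E Γ K : Type} [Group E] [Group Γ] [NormedAddCommGroup K] [InnerProductSpace ℂ K]
  [CompleteSpace K]

/-- The analytic input of the wall `b` of the source: no regular mass for both systems of gauges, and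
(`ty`) the middle types carry no mass; `v0` is a unit vector. -/
structure Wal (mp : (Γ → ℝ) → (K →L[ℂ] K)) (π : E →* (K →L[ℂ] K)) (Bd : Set K)
    (ms : E → Set Γ → ℝ) (T : Gau S P M) (q : Γ → S) (v0 : K) (b : E) : Prop where
  s1 : H859.CL.SysF mp (fun g => π g) Bd ms (Subgroup.zpowers b) (fun γ => T.G1 (q γ))
    fun γ => T.H1 (q γ)
  s2 : H859.CL.SysF mp (fun g => π g) Bd ms (Subgroup.zpowers b) (fun γ => T.G2 (q γ))
    fun γ => T.H2 (q γ)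
  esc : Esc (st mp) (fun g => π g) Bd (Subgroup.zpowers b) (pw b⁻¹)
  ty : ∀ ε > 0, ∃ R : ℝ, ∀ᶠ N : ℕ in atTop,
    ‖st mp {γ | R < T.H1 (q γ) ∧ R < T.H2 (q γ)} (π (b ^ N)⁻¹ v0)‖ ≤ ε

variable [TopologicalSpace S] [MulAction S P] [TopologicalSpace P] [CompactSpace P]
  [ContinuousConstSMul S P] [MulAction S M] [TopologicalSpace M] [CompactSpace M]
  [ContinuousConstSMul S M] [NormedAddCommGroup V₁] [NormedAddCommGroup V₂] [TopologicalSpace E]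

/-- `LegP` without the base record -/
structure LegQ (L : Lt S P M V₁ V₂) (𝒰 : Ultrafilter ℕ) (ι : S →* E)
    (π : E →* (K →L[ℂ] K)) (lam : Γ →* (K →L[ℂ] K)) (W : Set (K →L[ℂ] K))
    (m : Set Γ → (K →L[ℂ] K)) (q : Γ → S)
    (U11 : P → (C(P, ℂ) →ₗ[ℂ] (K →L[ℂ] K))) (p11 : ℝ)
    (U12 : P → (C(M, ℂ) →ₗ[ℂ] (K →L[ℂ] K))) (p12 : ℝ)
    (U21 : M → (C(P, ℂ) →ₗ[ℂ] (K →L[ℂ] K))) (p21 : ℝ)
    (U22 : M → (C(M, ℂ) →ₗ[ℂ] (K →L[ℂ] K))) (p22 : ℝ) : Prop where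
  u11 : UFam 𝒰 L.b1 L.p0 ι π lam W m q (L.na1 q) U11 p11
  u12 : UFam 𝒰 L.b1 L.p0 ι π lam W m q (L.na2 q) U12 p12
  u21 : UFam 𝒰 L.b2 L.m0 ι π lam W m q (L.na1 q) U21 p21
  u22 : UFam 𝒰 L.b2 L.m0 ι π lam W m q (L.na2 q) U22 p22
  s1 : p11 + p12 = 1
  s2 : p21 + p22 = 1
  i11 : ∀ c l, L.In c l → ∀ f g, Nin L.In f g → U11 c f * U22 l g = 0
  i12 : ∀ c l, L.In c l → ∀ f g, Nin L.In f g → U21 l f * U12 c g = 0

theorem LegQ.leg {L : Lt S P M V₁ V₂} {𝒰 : Ultrafilter ℕ} {ι : S →* E} {π : E →* (K →L[ℂ] K)}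
    {lam : Γ →* (K →L[ℂ] K)} {W : Set (K →L[ℂ] K)} {m : Set Γ → (K →L[ℂ] K)} {q : Γ → S}
    {U11 : P → (C(P, ℂ) →ₗ[ℂ] (K →L[ℂ] K))} {p11 : ℝ}
    {U12 : P → (C(M, ℂ) →ₗ[ℂ] (K →L[ℂ] K))} {p12 : ℝ}
    {U21 : M → (C(P, ℂ) →ₗ[ℂ] (K →L[ℂ] K))} {p21 : ℝ}
    {U22 : M → (C(M, ℂ) →ₗ[ℂ] (K →L[ℂ] K))} {p22 : ℝ}
    (h : LegQ L 𝒰 ι π lam W m q U11 p11 U12 p12 U21 p21 U22 p22) {Ω : K}
    (hb : PB L 𝒰 ι π lam W Ω m q) :
    LegP L 𝒰 ι π lam W Ω m q U11 p11 U12 p12 U21 p21 U22 p22 where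
  base := hb
  u11 := h.u11
  u12 := h.u12
  u21 := h.u21
  u22 := h.u22
  s1 := h.s1
  s2 := h.s2
  i11 := h.i11
  i12 := h.i12

end pic

end Vale.Agent.P092.CL
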