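import Vale.Agent.P092.CL.Defs
import Vale.Agent.P092.SP.Com
import Vale.Agent.P092.H631.P0Leg
import Vale.Agent.P092.H631.P3Geo

/-!
P092, TEAM P, stage 3 (helper142): Witt index `2`, ultrametric. The joints of one leg and the
assembly `one_td : OneStmt L` (a leg is straight and all its calculi commute).
-/

set_option linter.all false

open scoped InnerProductSpace ENNReal
open Filter Topology ContinuousLinearMap MeasureTheory TopologicalSpace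

namespace Vale.Agent.P092.CL

open Vale.Agent.P092.RC (Cm TRN Moore)
open Vale.Agent.P092.SP (GQ gq_com pl_flip)

variable {S P M V₁ V₂ : Type} [Group S] [MeasurableSpace V₁] [MeasurableSpace V₂]
  [TopologicalSpace S] [MulAction S P] [TopologicalSpace P] [CompactSpace P]
  [ContinuousConstSMul S P] [MulAction S M] [TopologicalSpace M] [CompactSpace M]
  [ContinuousConstSMul S M] [NormedAddCommGroup V₁] [NormedAddCommGroup V₂]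

section keys

variable {K : Type} [NormedAddCommGroup K] [InnerProductSpace ℂ K] [CompleteSpace K]

/-- The first key: a point `c` and a maximal space `l` which are not incident. -/
def Key1 (L : Lt S P M V₁ V₂) {Y₁ Y₂ : Type} [TopologicalSpace Y₁] [TopologicalSpace Y₂]
    (IT : Y₁ → Y₂ → Prop) (Ec : P → (C(Y₁, ℂ) →⋆ₐ[ℂ] (K →L[ℂ] K)))
    (F : M → (C(Y₂, ℂ) →⋆ₐ[ℂ] (K →L[ℂ] K))) : Prop :=
  ∀ c l, ¬ L.In c l → ∀ (u : C(Y₁, ℂ)) (g : C(Y₂, ℂ)) (h : C(Y₁, ℂ)), H796.Opp IT u h →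
    Ec c u * F l g * Ec c h = 0

/-- The second key. -/
def Key2 (L : Lt S P M V₁ V₂) {Y₁ Y₂ : Type} [TopologicalSpace Y₁] [TopologicalSpace Y₂]
    (IT : Y₁ → Y₂ → Prop) (Ec : P → (C(Y₁, ℂ) →⋆ₐ[ℂ] (K →L[ℂ] K)))
    (F : M → (C(Y₂, ℂ) →⋆ₐ[ℂ] (K →L[ℂ] K))) : Prop :=
  ∀ c l, ¬ L.In c l → ∀ (u : C(Y₂, ℂ)) (g : C(Y₁, ℂ)) (h : C(Y₂, ℂ)), H796.Opp (flip IT) u h →
    F l u * Ec c g * F l h = 0

end keys

section stmts

variable (L : Lt S P M V₁ V₂)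

/-- **[CL-1]** from one leg to a straight leg in which everything commutes -/
def OneStmt : Prop :=
  ∀ {E Γ K : Type} [Group E] [TopologicalSpace E] [Group Γ] [NormedAddCommGroup K]
    [InnerProductSpace ℂ K] [CompleteSpace K] (𝒰 : Ultrafilter ℕ) (ι : S →* E)
    (π : E →* (K →L[ℂ] K)) (lam : Γ →* (K →L[ℂ] K)) (W : Set (K →L[ℂ] K)) (Ω : K)
    (m : Set Γ → (K →L[ℂ] K)) (q : Γ → S), HasLeg L 𝒰 ι π lam W Ω m q →
    ∃ (Ec : P → (C(P, ℂ) →⋆ₐ[ℂ] (K →L[ℂ] K))) (F : M → (C(M, ℂ) →⋆ₐ[ℂ] (K →L[ℂ] K))),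
      LegComm L 𝒰 ι π lam W Ω m q Ec F

/-- **[CL-PUR]** purity and permutation of the types -/
def PurStmt : Prop :=
  ∀ {E Γ K : Type} [Group E] [TopologicalSpace E] [Group Γ] [NormedAddCommGroup K]
    [InnerProductSpace ℂ K] [CompleteSpace K] (𝒰 : Ultrafilter ℕ) (ι : S →* E)
    (π : E →* (K →L[ℂ] K)) (lam : Γ →* (K →L[ℂ] K)) (W : Set (K →L[ℂ] K)) (Ω : K)
    (m : Set Γ → (K →L[ℂ] K)) (q : Γ → S)
    (U11 : P → (C(P, ℂ) →ₗ[ℂ] (K →L[ℂ] K))) (p11 : ℝ)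
    (U12 : P → (C(M, ℂ) →ₗ[ℂ] (K →L[ℂ] K))) (p12 : ℝ)
    (U21 : M → (C(P, ℂ) →ₗ[ℂ] (K →L[ℂ] K))) (p21 : ℝ)
    (U22 : M → (C(M, ℂ) →ₗ[ℂ] (K →L[ℂ] K))) (p22 : ℝ),
    LegP L 𝒰 ι π lam W Ω m q U11 p11 U12 p12 U21 p21 U22 p22 →
    (p11 = 1 ∧ p22 = 1) ∨ (p12 = 1 ∧ p21 = 1)

/-- **[CL-K1]** straight types -/
def Key1Stmt : Prop :=
  ∀ {E Γ K : Type} [Group E] [TopologicalSpace E] [Group Γ] [NormedAddCommGroup K]
    [InnerProductSpace ℂ K] [CompleteSpace K] (𝒰 : Ultrafilter ℕ) (ι : S →* E)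
    (π : E →* (K →L[ℂ] K)) (lam : Γ →* (K →L[ℂ] K)) (W : Set (K →L[ℂ] K)) (Ω : K)
    (m : Set Γ → (K →L[ℂ] K)) (q : Γ → S) (Ec : P → (C(P, ℂ) →⋆ₐ[ℂ] (K →L[ℂ] K)))
    (F : M → (C(M, ℂ) →⋆ₐ[ℂ] (K →L[ℂ] K))), LegS L 𝒰 ι π lam W Ω m q Ec F →
    Key1 L L.In Ec F

/-- **[CL-K1]** flipped types -/
def Key1Stmt' : Prop :=
  ∀ {E Γ K : Type} [Group E] [TopologicalSpace E] [Group Γ] [NormedAddCommGroup K]
    [InnerProductSpace ℂ K] [CompleteSpace K] (𝒰 : Ultrafilter ℕ) (ι : S →* E)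
    (π : E →* (K →L[ℂ] K)) (lam : Γ →* (K →L[ℂ] K)) (W : Set (K →L[ℂ] K)) (Ω : K)
    (m : Set Γ → (K →L[ℂ] K)) (q : Γ → S) (Ec : P → (C(M, ℂ) →⋆ₐ[ℂ] (K →L[ℂ] K)))
    (F : M → (C(P, ℂ) →⋆ₐ[ℂ] (K →L[ℂ] K))), LegF L 𝒰 ι π lam W Ω m q Ec F →
    Key1 L (flip L.In) Ec F

/-- **[CL-K2]** straight types -/
def Key2Stmt : Prop :=
  ∀ {E Γ K : Type} [Group E] [TopologicalSpace E] [Group Γ] [NormedAddCommGroup K]
    [InnerProductSpace ℂ K] [CompleteSpace K] (𝒰 : Ultrafilter ℕ) (ι : S →* E)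
    (π : E →* (K →L[ℂ] K)) (lam : Γ →* (K →L[ℂ] K)) (W : Set (K →L[ℂ] K)) (Ω : K)
    (m : Set Γ → (K →L[ℂ] K)) (q : Γ → S) (Ec : P → (C(P, ℂ) →⋆ₐ[ℂ] (K →L[ℂ] K)))
    (F : M → (C(M, ℂ) →⋆ₐ[ℂ] (K →L[ℂ] K))), LegS L 𝒰 ι π lam W Ω m q Ec F →
    Key2 L L.In Ec F

/-- **[CL-K2]** flipped types -/
def Key2Stmt' : Prop :=
  ∀ {E Γ K : Type} [Group E] [TopologicalSpace E] [Group Γ] [NormedAddCommGroup K]
    [InnerProductSpace ℂ K] [CompleteSpace K] (𝒰 : Ultrafilter ℕ) (ι : S →* E)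
    (π : E →* (K →L[ℂ] K)) (lam : Γ →* (K →L[ℂ] K)) (W : Set (K →L[ℂ] K)) (Ω : K)
    (m : Set Γ → (K →L[ℂ] K)) (q : Γ → S) (Ec : P → (C(M, ℂ) →⋆ₐ[ℂ] (K →L[ℂ] K)))
    (F : M → (C(P, ℂ) →⋆ₐ[ℂ] (K →L[ℂ] K))), LegF L 𝒰 ι π lam W Ω m q Ec F →
    Key2 L (flip L.In) Ec F

/-- **[CL-FLIP]** no flipped leg in which everything commutes -/
def FlipStmt : Prop :=
  ∀ {K : Type} [NormedAddCommGroup K] [InnerProductSpace ℂ K] [CompleteSpace K] [Nontrivial K]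
    (Ec : P → (C(M, ℂ) →⋆ₐ[ℂ] (K →L[ℂ] K))) (F : M → (C(P, ℂ) →⋆ₐ[ℂ] (K →L[ℂ] K))),
    (∀ c l, L.In c l → H796.PL (flip L.In) (Ec c) (F l)) →
    (∀ v v', v ≠ v' → ∀ ξ, (∀ f, Ec v f ξ = Ec v' f ξ) → ξ = 0) →
    (∀ v v', v ≠ v' → ∀ ξ, (∀ f, F v f ξ = F v' f ξ) → ξ = 0) → Com Ec F → False

end stmts

section zero

variable {L : Lt S P M V₁ V₂} {E Γ K : Type} [Group E] [TopologicalSpace E] [Group Γ]
  [NormedAddCommGroup K] [InnerProductSpace ℂ K] [CompleteSpace K] {𝒰 : Ultrafilter ℕ}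
  {ι : S →* E} {π : E →* (K →L[ℂ] K)} {lam : Γ →* (K →L[ℂ] K)} {W : Set (K →L[ℂ] K)} {Ω : K}
  {m : Set Γ → (K →L[ℂ] K)} {q : Γ → S}
  {U11 : P → (C(P, ℂ) →ₗ[ℂ] (K →L[ℂ] K))} {p11 : ℝ}
  {U12 : P → (C(M, ℂ) →ₗ[ℂ] (K →L[ℂ] K))} {p12 : ℝ}
  {U21 : M → (C(P, ℂ) →ₗ[ℂ] (K →L[ℂ] K))} {p21 : ℝ}
  {U22 : M → (C(M, ℂ) →ₗ[ℂ] (K →L[ℂ] K))} {p22 : ℝ}

/-- a multiplicative family -/
theorem UFam.hfam {X Y : Type} [MulAction S X] [TopologicalSpace Y] [CompactSpace Y]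
    [MulAction S Y] [ContinuousConstSMul S Y] {b : S} {v0 : X} {NA : ℝ → ℝ → Set Y → Set Γ}
    {U : X → (C(Y, ℂ) →ₗ[ℂ] (K →L[ℂ] K))} {p : ℝ}
    (h : UFam 𝒰 b v0 ι π lam W m q NA U p) (hp : p ≠ 0)
    {F : X → (C(Y, ℂ) →⋆ₐ[ℂ] (K →L[ℂ] K))} (hF : ∀ v f, F v f = U v f) :
    HFam 𝒰 b v0 ι π lam W m q NA F where
  cm v f := by rw [hF]; exact h.cm v f
  cov γ v f := by rw [hF, hF]; exact h.cov γ v f
  pcov g v f := by rw [hF, hF]; exact h.pcov g v f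
  dom g u A hA hu ζ ε hε := by
    obtain ⟨R, hR⟩ := h.dom g u A hA hu ζ ε hε
    refine ⟨R, fun T hT => ?_⟩
    filter_upwards [hR T hT] with t ht
    rw [hF]
    exact ht
  agr v v' hv ξ hξ := h.agr hp v v' hv ξ fun f => by rw [← hF, ← hF]; exact hξ f

variable [T2Space P] [T2Space M] [TotallyDisconnectedSpace P] [TotallyDisconnectedSpace M]

/-- [0], straight types -/
theorem zero_td (hQ : GQ L.In) (hI : IsClosed {p : P × M | L.In p.1 p.2})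
    (h : LegP L 𝒰 ι π lam W Ω m q U11 p11 U12 p12 U21 p21 U22 p22) (h1 : p11 = 1)
    (h2 : p22 = 1) : ∃ (Ec : P → (C(P, ℂ) →⋆ₐ[ℂ] (K →L[ℂ] K)))
      (F : M → (C(M, ℂ) →⋆ₐ[ℂ] (K →L[ℂ] K))), (∀ c f, Ec c f = U11 c f) ∧
      (∀ l f, F l f = U22 l f) ∧ LegS L 𝒰 ι π lam W Ω m q Ec F := by
  subst h1 h2
  obtain ⟨Ec, F, h3, h4, h5⟩ := H631.P3.pl_td (I := L.In) (J := L.In) hI (fun x x' hx z z' => hQ.uniq x x' z z' hx) h.u11.ul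
    h.u22.ul h.i11 (fun c => by
      obtain ⟨l, l', hne, h1, h2⟩ := hQ.ln2 c
      exact ⟨l, l', h1, h2, hne⟩) (fun l => by
      obtain ⟨c, c', hne, h1, h2⟩ := hQ.pt2 l
      exact ⟨c, c', h1, h2, hne⟩) (h.u11.agr one_ne_zero) (h.u22.agr one_ne_zero)
  exact ⟨Ec, F, h3, h4, h.base, h.u11.hfam one_ne_zero h3, h.u22.hfam one_ne_zero h4, h5⟩

/-- [0], flipped types -/
theorem zero_td' (hQ : GQ L.In) (hI : IsClosed {p : P × M | L.In p.1 p.2})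
    (h : LegP L 𝒰 ι π lam W Ω m q U11 p11 U12 p12 U21 p21 U22 p22) (h1 : p12 = 1)
    (h2 : p21 = 1) : ∃ (Ec : P → (C(M, ℂ) →⋆ₐ[ℂ] (K →L[ℂ] K)))
      (F : M → (C(P, ℂ) →⋆ₐ[ℂ] (K →L[ℂ] K))), (∀ c f, Ec c f = U12 c f) ∧
      (∀ l f, F l f = U21 l f) ∧ LegF L 𝒰 ι π lam W Ω m q Ec F := by
  subst h1 h2
  have hI' : IsClosed {p : M × P | flip L.In p.1 p.2} :=
    hI.preimage (f := fun q : M × P => (q.2, q.1)) (by fun_prop)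
  obtain ⟨Ec, F, h3, h4, h5⟩ := H631.P3.pl_td (I := L.In) (J := flip L.In) hI'
    (fun x x' hx z z' => hQ.dual.uniq x x' z z' hx)
    h.u12.ul h.u21.ul (fun c l hcl g f hn => H631.P0.i1_symm (H631.P0.ul_of_sp (h.u21.ul l))
      (H631.P0.ul_of_sp (h.u12.ul c)) (h.i12 c l hcl) f g (fun x hx z hz => hn z hz x hx))
    (fun c => by
      obtain ⟨l, l', hne, h1, h2⟩ := hQ.ln2 c
      exact ⟨l, l', h1, h2, hne⟩) (fun l => by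
      obtain ⟨c, c', hne, h1, h2⟩ := hQ.pt2 l
      exact ⟨c, c', h1, h2, hne⟩) (h.u12.agr one_ne_zero) (h.u21.agr one_ne_zero)
  exact ⟨Ec, F, h3, h4, h.base, h.u12.hfam one_ne_zero h3, h.u21.hfam one_ne_zero h4, h5⟩

end zero

section main

variable {L : Lt S P M V₁ V₂} [T2Space P] [T2Space M] [TotallyDisconnectedSpace P]
  [TotallyDisconnectedSpace M]

/-- the middle letter is free -/
theorem syn_gq {Y₁ Y₂ K : Type} [TopologicalSpace Y₁] [CompactSpace Y₁] [T2Space Y₁]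
    [TotallyDisconnectedSpace Y₁] [TopologicalSpace Y₂] [CompactSpace Y₂] [T2Space Y₂]
    [TotallyDisconnectedSpace Y₂] [NormedAddCommGroup K] [InnerProductSpace ℂ K]
    [CompleteSpace K] {IT : Y₁ → Y₂ → Prop} (T : GQ IT)
    (hI : IsClosed {p : Y₁ × Y₂ | IT p.1 p.2}) {b : C(Y₁, ℂ) →⋆ₐ[ℂ] (K →L[ℂ] K)}
    {l : C(Y₂, ℂ) →⋆ₐ[ℂ] (K →L[ℂ] K)} (h : H796.PL IT b l) : H677.Syn b l ∧ H677.Syn l b := by
  have hI' : IsClosed {p : Y₂ × Y₁ | flip IT p.1 p.2} :=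
    hI.preimage (f := fun q : Y₂ × Y₁ => (q.2, q.1)) (by fun_prop)
  have h' := pl_flip h
  refine ⟨H677.syn_td hI (fun y y' n n' hn h1 h2 h3 h4 => ?_) b l h.com h.inc,
    H677.syn_td hI' (fun y y' n n' hn h1 h2 h3 h4 => ?_) l b h'.com h'.inc⟩
  · exact T.uniq' hn h1 h3 h2 h4
  · exact T.uniq n n' y y' hn h1 h2 h3 h4

/-- **The first half of Team P, stage 3**: Witt index `2`, ultrametric. -/
theorem one_td (hQ : GQ L.In) (hI : IsClosed {p : P × M | L.In p.1 p.2}) (hP : PurStmt L)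
    (h1 : Key1Stmt L) (h1' : Key1Stmt' L) (h2 : Key2Stmt L) (h2' : Key2Stmt' L)
    (hF : FlipStmt L) : OneStmt L := by
  intro E Γ K _ _ _ _ _ _ 𝒰 ι π lam W Ω m q h
  obtain ⟨U11, p11, U12, p12, U21, p21, U22, p22, h⟩ := h
  have hI' : IsClosed {p : M × P | flip L.In p.1 p.2} :=
    hI.preimage (f := fun q : M × P => (q.2, q.1)) (by fun_prop)
  rcases hP 𝒰 ι π lam W Ω m q U11 p11 U12 p12 U21 p21 U22 p22 h with ⟨e1, e2⟩ | ⟨e1, e2⟩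
  · obtain ⟨Ec, F, -, -, hl⟩ := zero_td hQ hI h e1 e2
    obtain ⟨a1, a2, a3⟩ := gq_com hQ hQ hI hl.pl hl.e.agr hl.f.agr
      (fun c l hc => (syn_gq hQ hI (hl.pl c l hc)).1)
      (fun c l hc => (syn_gq hQ hI (hl.pl c l hc)).2)
      (h1 𝒰 ι π lam W Ω m q Ec F hl) (h2 𝒰 ι π lam W Ω m q Ec F hl)
    exact ⟨Ec, F, hl, a1, a2, a3⟩
  · obtain ⟨Ec, F, -, -, hl⟩ := zero_td' hQ hI h e1 e2
    have hn : Nontrivial K := ⟨Ω, 0, fun h0 => by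
      have := h.base.pic.nΩ
      rw [h0, norm_zero] at this
      exact zero_ne_one this⟩
    obtain ⟨a1, a2, a3⟩ := gq_com hQ hQ.dual hI' hl.pl hl.e.agr hl.f.agr
      (fun c l hc => (syn_gq hQ.dual hI' (hl.pl c l hc)).1)
      (fun c l hc => (syn_gq hQ.dual hI' (hl.pl c l hc)).2)
      (h1' 𝒰 ι π lam W Ω m q Ec F hl) (h2' 𝒰 ι π lam W Ω m q Ec F hl)
    exact (hF Ec F hl.pl hl.e.agr hl.f.agr ⟨a1, a2, a3⟩).elim

end main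

end Vale.Agent.P092.CL
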