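import Vale.Agent.P092.CL.GeoF
import Vale.Agent.P092.CL.Main
import Vale.Agent.P092.CL.Ex
import Vale.Agent.P092.H325.ClXl
import Vale.Agent.P092.H99.CL.KeyQ
import Vale.Agent.P092.H306.G.PurC
import Vale.Agent.P092.H416.CLas
import Vale.Agent.P092.H820.P3FlipW
import Vale.Agent.P092.H923.PJ9

/-!
P092, TEAM P, stages 2 and 3 (helper53): the last assembly at `t = 1` for the letters `CL.lt`
(symplectic and unitary groups of Witt index `s + 2 ≥ 2`).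
-/

set_option linter.all false

open scoped InnerProductSpace ENNReal
open Filter Topology MeasureTheory TopologicalSpace Matrix

namespace Vale.Agent.P092.CL

open Vale.Agent.P092.H303 (FormGroup Idx hyp)
open Vale.Agent.P092.H714.Cl
open Vale.Agent.P092.H370.Po (SGr Inc Sing WI)
open Vale.Agent.P092.H370.Fo (Wf)
open Vale.Agent.P092.SP (GQ)
open Vale.Agent.P092.SN (CoreE)
open Vale.Agent.P092.H933 (LeviGap)
open Vale.Agent.P092.H99.CL (Count1Stmt Count2Stmt)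

section asm

variable {k : Type} [NontriviallyNormedField k] [ProperSpace k] [MeasurableSpace k]
  {ι : Type} [Fintype ι] [DecidableEq ι] {s : ℕ} {σ : k →+* k} [Fact (Continuous σ)] {ε : k}
  {J₀ : Matrix ι ι k} {w : k}

section gq

omit [ProperSpace k] [MeasurableSpace k] [Fact (Continuous σ)] in
/-- the quadrangle of a form of Witt index two -/
theorem gq_frm {n : Type} [Fintype n] [DecidableEq n] {J : Matrix n n k} (hF : Frm σ ε J)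
    (hW : WI σ J 2) : GQ (Inc : SGr σ J 1 → SGr σ J 2 → Prop) where
  uniq x x' y y' h h1 h2 h3 h4 := H370.Fo.inc_unique h h1 h2 h3 h4
  tri x x' z n m m' hn h1 h2 h3 h4 h5 h6 :=
    H370.Fo.no_tri (hF.wf hW) x x' z n m m' hn h1 h2 h3 h4 h5 h6
  foot x l h := H370.Fo.exists_foot_line (hF.wf hW) x l
  pt2 l := H370.Fo.exists_two_pt l
  ln2 x := H370.Fo.exists_two_ln (hF.wf hW) x

end gq

/-- **[CL-FLIP]** for the letters `lt`, Witt index two -/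
theorem flip_lt (hF : Frm σ ε (hyp (0 + 2) ε J₀)) (hW : WI σ (hyp (0 + 2) ε J₀) (0 + 2))
    (hne : (2 : k) ≠ 0 ∨ 4 < Fintype.card (Idx (0 + 2) ι) ∨ ∃ x, σ x ≠ x) (hw : w ≠ 0)
    (hσ : σ w = w) (μ₁ : Measure k) (μ₂ : Measure (V2 σ ε)) :
    FlipStmt (lt hF hw hσ μ₁ μ₂) := by
  intro K _ _ _ _ Ec F hpl he hf hc
  exact H820.P3.no_flip' (H820.P3.WF.of_frm hF hW) (H820.P3.hne_of hF hne) (β := Ec) (ν := F)
    hc.ee hc.ff hc.ef
    (fun c l hcl f g hn => (hpl c l hcl).inc f g fun y hy x hx hin => hn y hy x hx hin)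
    (fun c c' l hne _ _ => he c c' hne) (fun l l' c hne _ _ => hf l l' hne)

variable [BorelSpace k] (hσn : ∀ x, ‖σ x‖ = ‖x‖) (hw : w ≠ 0) (hσ : σ w = w) (hw1 : ‖w‖ < 1)
  (μ₁ : Measure k) (μ₂ : Measure (V2 σ ε)) [μ₁.IsAddHaarMeasure] [μ₂.IsAddHaarMeasure]

include hσn hw1

/-- **[CL-1], Witt index two**, from the two counts -/
theorem one_lt2 [IsUltrametricDist k] (hF : Frm σ ε (hyp (0 + 2) ε J₀))
    (hW : WI σ (hyp (0 + 2) ε J₀) (0 + 2))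
    (hne : (2 : k) ≠ 0 ∨ 4 < Fintype.card (Idx (0 + 2) ι) ∨ ∃ x, σ x ≠ x)
    (h1 : Count1Stmt (lt hF hw hσ μ₁ μ₂)) (h2 : Count2Stmt (lt hF hw hσ μ₁ μ₂)) :
    OneStmt (lt hF hw hσ μ₁ μ₂) := by
  have hG := geo hF hW hσn hw hσ hw1 μ₁ μ₂
  haveI := H71.CLG.v2_proper (ε := ε) hσn
  haveI := hG.t2P
  haveI := hG.t2M
  haveI : IsFiniteMeasureOnCompacts (lt hF hw hσ μ₁ μ₂).μ₁ :=
    inferInstanceAs (IsFiniteMeasureOnCompacts μ₁)
  haveI : (lt hF hw hσ μ₁ μ₂).μ₁.IsOpenPosMeasure := inferInstanceAs μ₁.IsOpenPosMeasure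
  haveI : IsFiniteMeasureOnCompacts (lt hF hw hσ μ₁ μ₂).μ₂ :=
    inferInstanceAs (IsFiniteMeasureOnCompacts μ₂)
  haveI : (lt hF hw hσ μ₁ μ₂).μ₂.IsOpenPosMeasure := inferInstanceAs μ₂.IsOpenPosMeasure
  have hP : PurStmt (lt hF hw hσ μ₁ μ₂) := H306.G.purStmt_cl hF hW hw hσ hσn μ₁ μ₂ hG
  have hFl : FlipStmt (lt hF hw hσ μ₁ μ₂) := flip_lt hF hW hne hw hσ μ₁ μ₂
  have hQ : GQ (lt hF hw hσ μ₁ μ₂).In := gq_frm hF hW
  have h8 : FlipStmt (lt hF hw hσ μ₁ μ₂) → OneStmt (lt hF hw hσ μ₁ μ₂) :=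
    H99.CL.one_of_counts hG hQ hP h1 h2
  apply h8
  exact hFl

variable {E : Type} [Group E] [TopologicalSpace E] [IsTopologicalGroup E]
  [LocallyCompactSpace E] [SecondCountableTopology E] [T2Space E]
  {i : FormGroup σ (hyp (s + 2) ε J₀) →* E}

/-- **[CL-EX]** for the letters `lt` -/
theorem exStmt_lt (hF : Frm σ ε (hyp (s + 2) ε J₀)) (hW : WI σ (hyp (s + 2) ε J₀) (s + 2))
    (hA : Adm (lt hF hw hσ μ₁ μ₂) i)
    {T : Gau (FormGroup σ (hyp (s + 2) ε J₀)) (SGr σ (hyp (s + 2) ε J₀) 1)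
      (SGr σ (hyp (s + 2) ε J₀) (s + 2))} (hT : GauOk (lt hF hw hσ μ₁ μ₂) T)
    (g1 : LeviGap (lt hF hw hσ μ₁ μ₂).b1) (g2 : LeviGap (lt hF hw hσ μ₁ μ₂).b2)
    (hWl : WalStmt (lt hF hw hσ μ₁ μ₂) T i) : ExStmt (lt hF hw hσ μ₁ μ₂) i := by
  haveI := H71.CLG.v2_proper (ε := ε) hσn
  have hG := geo hF hW hσn hw hσ hw1 μ₁ μ₂
  have hO : OvlStmt (lt hF hw hσ μ₁ μ₂) T := H923.CLI.ovlStmt hT hσn hW
  have f1 : IsFiniteMeasureOnCompacts (lt hF hw hσ μ₁ μ₂).μ₁ :=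
    inferInstanceAs (IsFiniteMeasureOnCompacts μ₁)
  have f2 : IsFiniteMeasureOnCompacts (lt hF hw hσ μ₁ μ₂).μ₂ :=
    inferInstanceAs (IsFiniteMeasureOnCompacts μ₂)
  have hS := H71.CLG.sprL hF hσn hw hσ hw1 μ₁ μ₂
  have h8 : WalStmt (lt hF hw hσ μ₁ μ₂) T i → ExStmt (lt hF hw hσ μ₁ μ₂) i :=
    exStmt_of hG hT hO hA f1 f2 hS g1 g2
  apply h8
  exact hWl

/-- **The core**: symplectic and unitary groups of Witt index at least two, `t = 1`. -/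
theorem coreE_lt (hF : Frm σ ε (hyp (s + 2) ε J₀)) (hW : WI σ (hyp (s + 2) ε J₀) (s + 2))
    (hA : Adm (lt hF hw hσ μ₁ μ₂) i) (hOne : OneStmt (lt hF hw hσ μ₁ μ₂))
    (hEx : ExStmt (lt hF hw hσ μ₁ μ₂) i) : CoreE E := by
  have hG := geo hF hW hσn hw hσ hw1 μ₁ μ₂
  obtain ⟨N, hN⟩ : ∃ N, Fintype.card (Idx (s + 2) ι) = N + 1 :=
    Nat.exists_eq_succ_of_ne_zero (Fintype.card_ne_zero (α := Idx (s + 2) ι))
  have e : Idx (s + 2) ι ≃ Fin (N + 1) := Fintype.equivFinOfCardEq hN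
  have hCls : ClsStmt e (lt hF hw hσ μ₁ μ₂) := by
    intro E' Γ K _ _ _ _ _ _ 𝒰 ι π lam W Ω m q Ec F h
    exact H416.CLG.clsCL hG rfl e hF hW (Nat.le_add_left 2 s) h
  exact coreE_of e hF hW (Nat.le_add_left 2 s) hG hA (H325.CL.sc_lt e hF hw hσ μ₁ μ₂)
    (H325.CL.nmc_lt e hF hw hσ μ₁ μ₂) hOne hCls hEx

end asm

end Vale.Agent.P092.CL
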