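import Vale.Agent.P092.CL.Asm
import Vale.Agent.P092.H71.P.CLGap2
import Vale.Agent.P092.H874.CLAdm
import Vale.Agent.P092.H632.T2.Gok

/-!
P092, TEAM P, stages 2 and 3 (helper53): the last assembly at `t = 1` for the letters `CL.lt`, with
the gauges of helper632, the spectral gaps of helper71 and the admissible quotients of helper874.
The joints which remain are `OneStmt (lt ..)` and `WalStmt (lt ..) (gau ..)`.
-/

set_option linter.all false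

open scoped InnerProductSpace ENNReal
open Filter Topology MeasureTheory TopologicalSpace Matrix

namespace Vale.Agent.P092.CL

open Vale.Agent.P092.H303 (FormGroup Idx hyp)
open Vale.Agent.P092.H714.Cl
open Vale.Agent.P092.H370.Po (SGr Inc Sing WI)
open Vale.Agent.P092.SN (CoreE)
open Vale.Agent.P092.H933 (LeviGap LocK)
open Vale.Agent.P092.H632.T2 (gau gauOk_lt)

section asm

variable {k : Type} [NontriviallyNormedField k] [ProperSpace k] [MeasurableSpace k]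
  [BorelSpace k] {ι : Type} [Fintype ι] [DecidableEq ι] {s : ℕ} {σ : k →+* k}
  [Fact (Continuous σ)] {ε : k} {J₀ : Matrix ι ι k} {w : k} {E : Type} [Group E]
  [TopologicalSpace E] [IsTopologicalGroup E] [LocallyCompactSpace E]
  [SecondCountableTopology E] [T2Space E]

/-- **The core for every admissible source group**, `t = 1`; joints: `OneStmt`, `WalStmt`. -/
theorem coreE_adm {i : FormGroup σ (hyp (s + 2) ε J₀) →* E} (hk : LocK k)
    (hσn : ∀ x, ‖σ x‖ = ‖x‖) (hw : w ≠ 0) (hσ : σ w = w) (hw1 : ‖w‖ < 1) (μ₁ : Measure k)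
    (μ₂ : Measure (V2 σ ε)) [μ₁.IsAddHaarMeasure] [μ₂.IsAddHaarMeasure]
    (hF : Frm σ ε (hyp (s + 2) ε J₀)) (hW : WI σ (hyp (s + 2) ε J₀) (s + 2))
    (hA : Adm (lt hF hw hσ μ₁ μ₂) i) (g1 : LeviGap (lt hF hw hσ μ₁ μ₂).b1)
    (g2 : LeviGap (lt hF hw hσ μ₁ μ₂).b2)
    (hWl : ∀ {N : ℕ} (e : Idx (s + 2) ι ≃ Fin (N + 1))
      (bp : FormGroup σ (hyp (s + 2) ε J₀) → SGr σ (hyp (s + 2) ε J₀) 1)
      (bm : FormGroup σ (hyp (s + 2) ε J₀) → SGr σ (hyp (s + 2) ε J₀) (s + 2)),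
      WalStmt (lt hF hw hσ μ₁ μ₂) (gau e (s + 2) (MonoidHom.id _) bp bm) i)
    (hOne : OneStmt (lt hF hw hσ μ₁ μ₂)) : CoreE E := by
  obtain ⟨N, hN⟩ : ∃ N, Fintype.card (Idx (s + 2) ι) = N + 1 :=
    Nat.exists_eq_succ_of_ne_zero (Fintype.card_ne_zero (α := Idx (s + 2) ι))
  have e : Idx (s + 2) ι ≃ Fin (N + 1) := Fintype.equivFinOfCardEq hN
  obtain ⟨bp, bm, hT⟩ := gauOk_lt hk hσn e hF hW hw hσ μ₁ μ₂
  exact coreE_lt hσn hw hσ hw1 μ₁ μ₂ hF hW hA hOne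
    (exStmt_lt hσn hw hσ hw1 μ₁ μ₂ hF hW hA hT g1 g2 (hWl e bp bm))

omit [Fact (Continuous σ)] [MeasurableSpace k] [BorelSpace k] in
/-- **The core for `PSp(J)` and `PSU(J)`**, `t = 1`, Witt index `s + 2 ≥ 2`; joints: `OneStmt`,
`WalStmt`, and the gaps of the two walls (`H71.CLP.gap_lt` if `2 ≠ 0` or `1 ≤ s`). -/
theorem coreE_cen (hk : LocK k) (hσn : ∀ x, ‖σ x‖ = ‖x‖) (hF : Frm σ ε (hyp (s + 2) ε J₀))
    (hW : WI σ (hyp (s + 2) ε J₀) (s + 2))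
    (hg : ∀ {w : k} (hw : w ≠ 0) (hσ : σ w = w), ‖w‖ < 1 →
      LeviGap (b1 (s := s) (ε := ε) (J₀ := J₀) hw hσ) ∧
        LeviGap (b2 (s := s) (ε := ε) (J₀ := J₀) hw hσ))
    (hWl : ∀ [MeasurableSpace k] [BorelSpace k] [Fact (Continuous σ)] {w : k} (hw : w ≠ 0)
      (hσ : σ w = w) (_ : ‖w‖ < 1) (μ₁ : Measure k) (μ₂ : Measure (V2 σ ε))
      [μ₁.IsAddHaarMeasure] [μ₂.IsAddHaarMeasure] {E : Type} [Group E] [TopologicalSpace E]
      [IsTopologicalGroup E] [LocallyCompactSpace E] [SecondCountableTopology E] [T2Space E]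
      {i : FormGroup σ (hyp (s + 2) ε J₀) →* E} (_ : Adm (lt hF hw hσ μ₁ μ₂) i) {N : ℕ}
      (e : Idx (s + 2) ι ≃ Fin (N + 1))
      (bp : FormGroup σ (hyp (s + 2) ε J₀) → SGr σ (hyp (s + 2) ε J₀) 1)
      (bm : FormGroup σ (hyp (s + 2) ε J₀) → SGr σ (hyp (s + 2) ε J₀) (s + 2)),
      WalStmt (lt hF hw hσ μ₁ μ₂) (gau e (s + 2) (MonoidHom.id _) bp bm) i)
    (hOne : ∀ [MeasurableSpace k] [BorelSpace k] [Fact (Continuous σ)] {w : k} (hw : w ≠ 0)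
      (hσ : σ w = w) (_ : ‖w‖ < 1) (μ₁ : Measure k) (μ₂ : Measure (V2 σ ε))
      [μ₁.IsAddHaarMeasure] [μ₂.IsAddHaarMeasure], OneStmt (lt hF hw hσ μ₁ μ₂)) :
    CoreE (FormGroup σ (hyp (s + 2) ε J₀) ⧸
      Subgroup.center (FormGroup σ (hyp (s + 2) ε J₀))) := by
  letI : MeasurableSpace k := borel k
  haveI : BorelSpace k := ⟨rfl⟩
  have hσc : Continuous σ := continuous_of_norm hσn
  haveI : Fact (Continuous σ) := ⟨hσc⟩
  haveI := H71.CLG.v2_proper (ε := ε) hσn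
  haveI := H874.CLAdm.t2_quo hF (Z := Subgroup.center (FormGroup σ (hyp (s + 2) ε J₀))) le_rfl
  haveI := H874.CLAdm.lc_quo hσn
    (Subgroup.center (FormGroup σ (hyp (s + 2) ε J₀)))
  haveI := H874.CLAdm.sc_quo (Subgroup.center (FormGroup σ (hyp (s + 2) ε J₀)))
  obtain ⟨r, hr, hr1⟩ := exists_fix hF hσn
  have hr0 : r ≠ 0 := by
    rintro rfl
    rw [norm_zero] at hr1
    linarith
  have hw : r⁻¹ ≠ 0 := inv_ne_zero hr0
  have hσ : σ r⁻¹ = r⁻¹ := by rw [map_inv₀, hr]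
  have hw1 : ‖r⁻¹‖ < 1 := by
    rw [norm_inv]
    exact inv_lt_one_of_one_lt₀ hr1
  obtain ⟨g1, g2⟩ := hg hw hσ hw1
  have hA : Adm (lt hF hw hσ Measure.addHaar Measure.addHaar)
      (QuotientGroup.mk' (Subgroup.center (FormGroup σ (hyp (s + 2) ε J₀)))) :=
    H874.CLAdm.adm_cen hσn hF hw hσ _ _
  have h1 : OneStmt (lt hF hw hσ Measure.addHaar Measure.addHaar) := by
    apply hOne hw hσ hw1
  exact coreE_adm hk hσn hw hσ hw1 Measure.addHaar Measure.addHaar hF hW hA g1 g2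
    (fun e bp bm => hWl hw hσ hw1 _ _ hA e bp bm) h1

end asm

end Vale.Agent.P092.CL
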