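import Vale.Agent.P092.CL.LtO2
import Vale.Agent.P092.H899.O7
import Vale.Agent.P092.H899.O11
import Vale.Agent.P092.H85.CU2

/-!
P092, TEAM P, stage CL-O (helper387): the topological group `EUF id 1 (hyp (s + 2) 1 J₀)`: closed,
isomorphic to helper899's `Om`, Howe–Moore, finite centre consisting of scalars; the quotient by the
centre is admissible.
-/

set_option linter.all false

open scoped Matrix
open Matrix Module Set MeasureTheory Filter Topology

namespace Vale.Agent.P092.CL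

open Vale.Agent.P092.H303 (FormGroup Idx hyp)
open Vale.Agent.P092.H714.Cl
open Vale.Agent.P092.H370.Po (SGr Inc)
open Vale.Agent.P092.H370.Fo (EU EU_le)
open Vale.Agent.P092.H899.Ort (Om Good isClosed_om hmg_om sysOf tsysOf lc_om sc_om t2_om)
open Vale.Agent.P092.H15 (HMG)

variable {k : Type} [NontriviallyNormedField k] {ι : Type} [Fintype ι] [DecidableEq ι]
  {s : ℕ} {J₀ : Matrix ι ι k}

theorem OF.mem_om (h : OF J₀) (g : EUF (RingHom.id k) 1 (hyp (s + 2) 1 J₀)) :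
    g.1.1 ∈ Om (hyp (s + 2) 1 J₀⁻¹) := by
  rw [← h.eu s]
  exact Subgroup.mem_subgroupOf.1 g.2

theorem OF.om_mem (h : OF J₀) (g : Om (hyp (s + 2) (1 : k) J₀⁻¹)) :
    g.1 ∈ EU (RingHom.id k) 1 (hyp (s + 2) 1 J₀) := by
  rw [h.eu s]
  exact g.2

/-- **`EUF` is helper899's `Om`.** -/
def omE (h : OF J₀) (s : ℕ) :
    EUF (RingHom.id k) 1 (hyp (s + 2) 1 J₀) ≃ₜ* Om (hyp (s + 2) (1 : k) J₀⁻¹) where
  toFun g := ⟨g.1.1, h.mem_om g⟩
  invFun g := ⟨⟨g.1, EU_le (h.fm s) (h.om_mem g)⟩, h.om_mem g⟩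
  left_inv g := rfl
  right_inv g := rfl
  map_mul' g g' := rfl
  continuous_toFun := by
    refine Continuous.subtype_mk ?_ _
    exact continuous_subtype_val.comp continuous_subtype_val
  continuous_invFun := by
    refine Continuous.subtype_mk (Continuous.subtype_mk ?_ _) _
    exact continuous_subtype_val

@[simp] theorem omE_apply (h : OF J₀) (g : EUF (RingHom.id k) 1 (hyp (s + 2) 1 J₀)) :
    (omE h s g).1 = g.1.1 := rfl

/-- **`EUF` is closed** in the isometry group. -/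
theorem isClosed_EUF [CompleteSpace k] (h : OF J₀) (s : ℕ) :
    IsClosed (EUF (RingHom.id k) 1 (hyp (s + 2) 1 J₀) :
      Set (FormGroup (RingHom.id k) (hyp (s + 2) 1 J₀))) := by
  have h1 : (EUF (RingHom.id k) 1 (hyp (s + 2) 1 J₀) :
      Set (FormGroup (RingHom.id k) (hyp (s + 2) 1 J₀))) =
      Subtype.val ⁻¹' (Om (hyp (s + 2) (1 : k) J₀⁻¹) : Set (Matrix.SpecialLinearGroup _ k)) := by
    ext g
    change g ∈ EUF (RingHom.id k) 1 (hyp (s + 2) 1 J₀) ↔ g.1 ∈ Om (hyp (s + 2) (1 : k) J₀⁻¹)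
    rw [← h.eu s]
    exact Subgroup.mem_subgroupOf
  rw [h1]
  exact (isClosed_om (h.good' s)).preimage continuous_subtype_val

/-- `EUF` is closed in the special linear group -/
theorem isClosedEmbedding_EUF [CompleteSpace k] (h : OF J₀) (s : ℕ) :
    IsClosedEmbedding fun g : EUF (RingHom.id k) 1 (hyp (s + 2) 1 J₀) => g.1.1 :=
  (isClosed_om (h.good' s)).isClosedEmbedding_subtypeVal.comp (omE h s).toHomeomorph.isClosedEmbedding

theorem lc_EUF [ProperSpace k] (h : OF J₀) (s : ℕ) :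
    LocallyCompactSpace (EUF (RingHom.id k) 1 (hyp (s + 2) 1 J₀)) := by
  haveI : CompleteSpace k := inferInstance
  haveI := lc_om (isClosed_om (h.good' s))
  exact (omE h s).toHomeomorph.isClosedEmbedding.locallyCompactSpace

theorem sc_EUF [ProperSpace k] (h : OF J₀) (s : ℕ) :
    SecondCountableTopology (EUF (RingHom.id k) 1 (hyp (s + 2) 1 J₀)) := by
  haveI := sc_om (hyp (s + 2) (1 : k) J₀⁻¹)
  exact (omE h s).toHomeomorph.isEmbedding.secondCountableTopology

theorem t2_EUF (h : OF J₀) (s : ℕ) : T2Space (EUF (RingHom.id k) 1 (hyp (s + 2) 1 J₀)) := by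
  haveI := t2_om (hyp (s + 2) (1 : k) J₀⁻¹)
  exact (omE h s).toHomeomorph.isEmbedding.t2Space

/-- **Howe–Moore.** -/
theorem hmgO [ProperSpace k] (h : OF J₀) (s : ℕ) :
    HMG (EUF (RingHom.id k) 1 (hyp (s + 2) 1 J₀)) :=
  (hmg_om (h.good' s)).of_mulEquiv (omE h s).symm

theorem mem_center_omE (h : OF J₀) {g : EUF (RingHom.id k) 1 (hyp (s + 2) 1 J₀)}
    (hg : g ∈ Subgroup.center (EUF (RingHom.id k) 1 (hyp (s + 2) 1 J₀))) :
    omE h s g ∈ Subgroup.center (Om (hyp (s + 2) (1 : k) J₀⁻¹)) := by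
  rw [Subgroup.mem_center_iff] at hg ⊢
  intro x
  obtain ⟨y, rfl⟩ := (omE h s).surjective x
  rw [← map_mul, ← map_mul, hg y]

theorem finite_center_EUF (h : OF J₀) (s : ℕ) :
    ((Subgroup.center (EUF (RingHom.id k) 1 (hyp (s + 2) 1 J₀)) : Subgroup _) :
      Set (EUF (RingHom.id k) 1 (hyp (s + 2) 1 J₀))).Finite := by
  refine Set.Finite.of_finite_image (f := omE h s) ?_ (omE h s).injective.injOn
  refine (H899.Ort.finite_center_om (h.good' s)).subset ?_
  rintro _ ⟨g, hg, rfl⟩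
  exact mem_center_omE h hg

variable [MeasurableSpace k]

/-- the centre consists of scalars -/
theorem center_leO (h : OF J₀) (s : ℕ) {a : k} (ha : a ≠ 0) (μ₁ : Measure k)
    (μ₂ : Measure (ι → k)) :
    Subgroup.center (EUF (RingHom.id k) 1 (hyp (s + 2) 1 J₀)) ≤ (ltO h s ha μ₁ μ₂).Z := by
  intro g hg
  obtain ⟨c, -, hc⟩ := (tsysOf (h.good' s)).of_mem_center (mem_center_omE h hg)
  refine Subgroup.mem_subgroupOf.2 (Subgroup.mem_subgroupOf.2 ⟨c, ?_⟩)
  refine Matrix.ext_iff_mulVec.mpr fun x => ?_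
  rw [smul_mulVec, one_mulVec]
  exact hc x

theorem nm_cO (h : OF J₀) (s : ℕ) {a : k} (ha : a ≠ 0) (μ₁ : Measure k)
    (μ₂ : Measure (ι → k)) : Continuous (ltO h s ha μ₁ μ₂).nm := by
  have h0 : Continuous fun g : EUF (RingHom.id k) 1 (hyp (s + 2) 1 J₀) => (g⁻¹).1.1 :=
    continuous_subtype_val.comp (continuous_subtype_val.comp continuous_inv)
  have h1 : Continuous fun g : EUF (RingHom.id k) 1 (hyp (s + 2) 1 J₀) => (g⁻¹).1.1.1 :=
    Matrix.SpecialLinearGroup.isClosedEmbedding_val.continuous.comp h0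
  refine Continuous.norm ?_
  refine continuous_pi fun i => continuous_pi fun j => ?_
  exact (continuous_apply i).comp ((continuous_apply j).comp h1)

/-- **`EUF` modulo its centre is admissible.** -/
theorem admO [ProperSpace k] (h : OF J₀) (s : ℕ) {a : k} (ha : a ≠ 0) (μ₁ : Measure k)
    (μ₂ : Measure (ι → k)) : Adm (ltO h s ha μ₁ μ₂) (QuotientGroup.mk'
      (Subgroup.center (EUF (RingHom.id k) 1 (hyp (s + 2) 1 J₀)))) :=
  H85.CU.adm_quo (hmgO h s) (nm_cO h s ha μ₁ μ₂) _ (finite_center_EUF h s)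
    (center_leO h s ha μ₁ μ₂)

/-- `EUF` itself is admissible. -/
theorem admO_id [ProperSpace k] (h : OF J₀) (s : ℕ) {a : k} (ha : a ≠ 0) (μ₁ : Measure k)
    (μ₂ : Measure (ι → k)) : Adm (ltO h s ha μ₁ μ₂) (MonoidHom.id _) :=
  H85.CU.adm_id (hmgO h s) (nm_cO h s ha μ₁ μ₂)

end Vale.Agent.P092.CL
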