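import Vale.Agent.P092.CL.Lt
import Vale.Agent.P092.H370.Fo5
import Vale.Agent.P092.H714.SgO

/-!
P092, TEAM P, stage CL-O (helper387): the letters for the orthogonal groups. `J = hyp (s + 2) 1 J₀`,
`J₀` symmetric, anisotropic, nonempty, `2 ≠ 0`. `S` = the subgroup `EUF` of `FormGroup id J`
generated by the Eichler (= Siegel) elements; it acts on `SGr id J j` through `FormGroup`.
-/

set_option linter.all false

open scoped Matrix
open Matrix Module Set MeasureTheory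

namespace Vale.Agent.P092.CL

open Vale.Agent.P092.H303 (FormGroup Idx hyp torF torF_mem root2 root2_mem hypAt_l hypAt_r)
open Vale.Agent.P092.H714.Cl
open Vale.Agent.P092.H714.Sg (Fm HasTor bf_inv fm_om hasTor_om)
open Vale.Agent.P092.H370.Po (SGr Inc Sing WI)
open Vale.Agent.P092.H370.Fo (EU EP ei eim ei_mem_EU EU_le vecMul_ei Wf)
open Vale.Agent.P092.H899.Ort (Om psiM bf bf_apply Good Aniso det_psiM)

section om

variable {n : Type} [Fintype n] [DecidableEq n] {k : Type} [Field k]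
  {K K' : Matrix n n k}

theorem bf_inv' (hKK : K * K' = 1) (hs : Kᵀ = K) (x y : n → k) :
    bf K' (K *ᵥ x) (K *ᵥ y) = hf (RingHom.id k) K x y := by
  have h1 : K' * K = 1 := mul_eq_one_comm.1 hKK
  rw [bf_apply, mulVec_mulVec, h1, one_mulVec]
  unfold hf
  rw [dotProduct_mulVec x, ← mulVec_transpose, hs]
  rfl

theorem vecMul_psiM (hKK : K * K' = 1) (hs : Kᵀ = K) (u v x : n → k) :
    x ᵥ* psiM K' (K *ᵥ u) (-(K *ᵥ v)) = x + hf (RingHom.id k) K x u • v -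
      hf (RingHom.id k) K x v • u -
      (2⁻¹ * hf (RingHom.id k) K v v * hf (RingHom.id k) K x u) • u := by
  have h1 : K' * K = 1 := mul_eq_one_comm.1 hKK
  have e1 : ∀ y : n → k, K' *ᵥ (K *ᵥ y) = y := fun y => by rw [mulVec_mulVec, h1, one_mulVec]
  have e2 : bf K' (-(K *ᵥ v)) (-(K *ᵥ v)) = hf (RingHom.id k) K v v := by
    rw [map_neg, map_neg, LinearMap.neg_apply, neg_neg, bf_inv' hKK hs]
  have e3 : K' *ᵥ (-(K *ᵥ v)) = -v := by rw [mulVec_neg, e1]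
  have e4 : ∀ a b : n → k, x ᵥ* vecMulVec a b = (x ⬝ᵥ a) • b := fun a b => by
    rw [vecMul_vecMulVec]
  rw [psiM, e1, e3, e2, vecMul_sub, vecMul_add, vecMul_one, e4, e4]
  have e5 : x ⬝ᵥ (K *ᵥ u) = hf (RingHom.id k) K x u := rfl
  have e6 : x ⬝ᵥ (-(K *ᵥ v)) = -hf (RingHom.id k) K x v := by rw [dotProduct_neg]; rfl
  rw [e5, e6]
  module

/-- **The group of the Eichler elements is helper899's group.** -/
theorem EU_eq_om (hF : Fm (RingHom.id k) 1 K) (hKK : K * K' = 1) (hs : Kᵀ = K)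
    (h2 : (2 : k) ≠ 0) : EU (RingHom.id k) 1 K = Om K' := by
  have hKK' : K' * K = 1 := mul_eq_one_comm.1 hKK
  have key : ∀ (u v : n → k) (c : k), EP (RingHom.id k) 1 K u v c →
      (ei (RingHom.id k) 1 K u v c).1 = psiM K' (K *ᵥ u) (-(K *ᵥ v)) := by
    intro u v c h
    refine ext_iff_vecMul.mpr fun x => ?_
    rw [vecMul_ei hF h, vecMul_psiM hKK hs]
    have hc : c = -(2⁻¹ * hf (RingHom.id k) K v v) := by
      have h3 := h.vv
      have h4 : c + 1 * c + hf (RingHom.id k) K v v = 0 := h3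
      field_simp
      linear_combination h4
    rw [hc]
    module
  apply le_antisymm
  · rw [EU, Subgroup.closure_le]
    rintro _ ⟨u, v, c, h, rfl⟩
    refine Subgroup.subset_closure ⟨K *ᵥ u, -(K *ᵥ v), ?_, ?_, key u v c h⟩
    · rw [bf_inv' hKK hs]; exact h.uu
    · rw [map_neg, bf_inv' hKK hs, hF.symm0 h.vu, neg_zero]
  · rw [Om, Subgroup.closure_le]
    rintro g ⟨u', w', h1, h3, hg⟩
    have e1 : ∀ y : n → k, K *ᵥ (K' *ᵥ y) = y := fun y => by rw [mulVec_mulVec, hKK, one_mulVec]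
    have hep : EP (RingHom.id k) 1 K (K' *ᵥ u') (-(K' *ᵥ w'))
        (-(2⁻¹ * hf (RingHom.id k) K (-(K' *ᵥ w')) (-(K' *ᵥ w')))) := by
      refine ⟨?_, ?_, ?_⟩
      · rw [← bf_inv' hKK hs, e1, h1]
      · refine hF.symm0 ?_
        rw [← bf_inv' hKK hs, e1, mulVec_neg, e1, map_neg, h3, neg_zero]
      · change _ + 1 * _ + _ = (0 : k)
        change -(2⁻¹ * _) + 1 * (-(2⁻¹ * _)) + _ = (0 : k)
        field_simp
        ring
    have e2 : g = ei (RingHom.id k) 1 K (K' *ᵥ u') (-(K' *ᵥ w'))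
        (-(2⁻¹ * hf (RingHom.id k) K (-(K' *ᵥ w')) (-(K' *ᵥ w')))) := by
      refine Subtype.ext ?_
      rw [hg, key _ _ _ hep, e1, mulVec_neg, e1, neg_neg]
    rw [e2]
    exact ei_mem_EU hep

end om

section letters

variable {k : Type} [NontriviallyNormedField k] {ι : Type} [Fintype ι] [DecidableEq ι]
  {s : ℕ} {J₀ : Matrix ι ι k}

/-- the group generated by the Eichler elements, inside the isometry group -/
def EUF {n : Type} [Fintype n] [DecidableEq n] (σ : k →+* k) (ε : k) (J : Matrix n n k) :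
    Subgroup (FormGroup σ J) := (EU σ ε J).subgroupOf (FormGroup σ J)

/-- the hypotheses on the anisotropic part -/
structure OF (J₀ : Matrix ι ι k) : Prop where
  two : (2 : k) ≠ 0
  sym : J₀ᵀ = J₀
  an : Aniso J₀
  ne : Nonempty ι

theorem OF.dim (h : OF J₀) (s : ℕ) : H899.Ort.Dim (s + 2) ι := by
  haveI := h.ne
  have := Fintype.card_pos (α := ι)
  right
  constructor <;> omega

theorem OF.good' (h : OF J₀) (s : ℕ) : Good (hyp (s + 2) 1 J₀⁻¹) :=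
  H899.Ort.good_hyp (h.dim s) h.two (H899.Ort.inv_sym h.sym) h.an.inv

theorem OF.kk (h : OF J₀) (s : ℕ) : hyp (s + 2) (1 : k) J₀ * hyp (s + 2) 1 J₀⁻¹ = 1 :=
  H899.Ort.hyp_mul_inv (s + 2) h.an

theorem OF.tr (h : OF J₀) (s : ℕ) : (hyp (s + 2) (1 : k) J₀)ᵀ = hyp (s + 2) 1 J₀ :=
  H899.Ort.hyp_transpose (s + 2) h.sym

theorem OF.fm (h : OF J₀) (s : ℕ) : Fm (RingHom.id k) 1 (hyp (s + 2) 1 J₀) :=
  fm_om (h.kk s) (h.tr s) (h.good' s)

theorem OF.eu (h : OF J₀) (s : ℕ) :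
    EU (RingHom.id k) 1 (hyp (s + 2) 1 J₀) = Om (hyp (s + 2) 1 J₀⁻¹) :=
  EU_eq_om (h.fm s) (h.kk s) (h.tr s) h.two

theorem OF.hasTor (h : OF J₀) (s : ℕ) :
    HasTor (RingHom.id k) 1 (hyp (s + 2) 1 J₀) (EU (RingHom.id k) 1 (hyp (s + 2) 1 J₀)) := by
  rw [h.eu s]
  exact hasTor_om (h.kk s) (h.tr s) (h.good' s)

theorem OF.tor_mem (h : OF J₀) (s : ℕ) {a : k} (ha : a ≠ 0) (l : Fin (s + 2) → ℤ) :
    torF (s + 2) ι (pow_ne_zero 2 ha) l ∈ EU (RingHom.id k) 1 (hyp (s + 2) 1 J₀) := by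
  rw [h.eu s]
  exact H899.Ort.torF_mem_om (h.good' s) ha l

/-- the wall element of the points -/
noncomputable def b1O (h : OF J₀) (s : ℕ) {a : k} (ha : a ≠ 0) :
    EUF (RingHom.id k) 1 (hyp (s + 2) 1 J₀) :=
  ⟨b1 (pow_ne_zero 2 ha) rfl, h.tor_mem s ha _⟩

/-- the wall element of the maximal spaces -/
noncomputable def b2O (h : OF J₀) (s : ℕ) {a : k} (ha : a ≠ 0) :
    EUF (RingHom.id k) 1 (hyp (s + 2) 1 J₀) :=
  ⟨b2 (pow_ne_zero 2 ha) rfl, h.tor_mem s ha _⟩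

theorem OF.ep1 (h : OF J₀) (s : ℕ) (t : k) :
    EP (RingHom.id k) 1 (hyp (s + 2) 1 J₀) (ep k ι 0) (t • ep k ι 1) 0 where
  uu := hf_ep 0 0
  vu := by rw [hf_smul_left, hf_ep, mul_zero]
  vv := by rw [hf_smul_left, hf_smul_right, hf_ep, map_zero]; ring

/-- the root group `e_(-0) ↦ e_(-0) + t e_1`, `e_(-1) ↦ e_(-1) - t e_0` -/
noncomputable def u1O (h : OF J₀) (s : ℕ) (t : k) : EUF (RingHom.id k) 1 (hyp (s + 2) 1 J₀) :=
  ⟨⟨ei (RingHom.id k) 1 (hyp (s + 2) 1 J₀) (ep k ι 0) (t • ep k ι 1) 0,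
    EU_le (h.fm s) (ei_mem_EU (h.ep1 s t))⟩, ei_mem_EU (h.ep1 s t)⟩

/-- the vectors of the anisotropic part -/
def e0 (s : ℕ) (v : ι → k) : Idx (s + 2) ι → k := Sum.elim 0 v

theorem OF.ep2 (h : OF J₀) (s : ℕ) (v : ι → k) :
    EP (RingHom.id k) 1 (hyp (s + 2) 1 J₀) (ep k ι 1) (e0 s v) (-(2⁻¹ * (v ⬝ᵥ (J₀ *ᵥ v)))) where
  uu := hf_ep 1 1
  vu := by
    have e1 : (fun i : ι => (0 : k)) = 0 := rfl
    rw [hf_hyp]
    simp [e0, hf, e1]
  vv := by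
    have e1 : hf (RingHom.id k) (hyp (s + 2) 1 J₀) (e0 s v) (e0 s v) = v ⬝ᵥ (J₀ *ᵥ v) := by
      rw [hf_hyp]
      simp [e0, hf]
    rw [e1]
    have h2 := h.two
    change -(2⁻¹ * _) + 1 * (-(2⁻¹ * _)) + _ = (0 : k)
    field_simp
    ring

/-- the root group of `e_1` and the anisotropic part -/
noncomputable def u2O (h : OF J₀) (s : ℕ) (v : ι → k) : EUF (RingHom.id k) 1 (hyp (s + 2) 1 J₀) :=
  ⟨⟨ei (RingHom.id k) 1 (hyp (s + 2) 1 J₀) (ep k ι 1) (e0 s v) (-(2⁻¹ * (v ⬝ᵥ (J₀ *ᵥ v)))),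
    EU_le (h.fm s) (ei_mem_EU (h.ep2 s v))⟩, ei_mem_EU (h.ep2 s v)⟩

/-- **The letters**, orthogonal groups. -/
noncomputable def ltO [MeasurableSpace k] (h : OF J₀) (s : ℕ) {a : k} (ha : a ≠ 0)
    (μ₁ : Measure k) (μ₂ : Measure (ι → k)) :
    Lt (EUF (RingHom.id k) 1 (hyp (s + 2) 1 J₀)) (SGr (RingHom.id k) (hyp (s + 2) 1 J₀) 1)
      (SGr (RingHom.id k) (hyp (s + 2) 1 J₀) (s + 2)) k (ι → k) where
  In x l := Inc x l
  p0 := p0
  m0 := m0
  b1 := b1O h s ha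
  b2 := b2O h s ha
  u1 := u1O h s
  u2 := u2O h s
  μ₁ := μ₁
  μ₂ := μ₂
  nm g := nmM (ta g.1.1)
  NA1 R T B := {g | NW1 R (ta g.1.1) ∧ AttS T B (ta g.1.1)}
  NA2 R T B := {g | NWr (s + 2) R (ta g.1.1) ∧ AttS T B (ta g.1.1)}
  Z := ((scal k (Idx (s + 2) ι)).subgroupOf (FormGroup _ _)).subgroupOf _

end letters

end Vale.Agent.P092.CL
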