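import Vale.Agent.P092.CL.MainO
import Vale.Agent.P092.CL.TopO
import Vale.Agent.P092.CL.Ex
import Vale.Agent.P092.H99.CL.KeyQ
import Vale.Agent.P092.H306.G.PurC
import Vale.Agent.P092.H416.CLtau
import Vale.Agent.P092.H632.T2.GokO
import Vale.Agent.P092.H631.P3Geo
import Vale.Agent.P092.H923.PJ10
import Vale.Agent.P092.H289.O5

/-!
P092, TEAM P, stage CL-O (helper387; the shape of helper53's CL/Asm): the last assembly at `t = 1`
for the letters `ltO` (orthogonal groups of Witt index `s + 2 ≥ 2`, kernel not empty, any local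
field). The joints are `Geo`, `OneStmt`, `WalStmt` and the two gaps.
-/

set_option linter.all false

open scoped InnerProductSpace ENNReal
open Filter Topology MeasureTheory TopologicalSpace Matrix

namespace Vale.Agent.P092.CL

open Vale.Agent.P092.H303 (FormGroup Idx hyp)
open Vale.Agent.P092.H714.Cl
open Vale.Agent.P092.H370.Po (SGr Inc Sing WI)
open Vale.Agent.P092.H370.Fo (Wf)
open Vale.Agent.P092.SN (CoreE)
open Vale.Agent.P092.H933 (LeviGap LocK)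
open Vale.Agent.P092.H99.CL (Count1Stmt Count2Stmt)
open Vale.Agent.P092.H632.T2 (gau gauOk_ltO)

section asm

variable {k : Type} [NontriviallyNormedField k] [ProperSpace k] [MeasurableSpace k]
  {ι : Type} [Fintype ι] [DecidableEq ι] {s : ℕ} {J₀ : Matrix ι ι k} {a : k}

theorem phiO_cont : Continuous (phiO (k := k) s J₀) := continuous_subtype_val

/-- **[CLO-CLS]** for the letters `ltO` -/
theorem clsO {N : ℕ} (e : Idx (s + 2) ι ≃ Fin (N + 1)) (h : OF J₀) (ha : a ≠ 0) (μ₁ : Measure k)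
    (μ₂ : Measure (ι → k)) (hG : Geo (ltO h s ha μ₁ μ₂)) :
    ClsStmtP e (phiO s J₀) (ltO h s ha μ₁ μ₂) := by
  intro E Γ K _ _ _ _ _ _ 𝒰 ι' π lam W Ω m q Ec F hl
  exact H416.CLG.clsG hG rfl phiO_cont hphiO hactO e (h.wf s) (Nat.le_add_left 2 s) hl

variable [BorelSpace k] (h : OF J₀) (ha : a ≠ 0) (ha1 : ‖a‖ < 1) (μ₁ : Measure k)
  (μ₂ : Measure (ι → k)) [μ₁.IsAddHaarMeasure] [μ₂.IsAddHaarMeasure]

/-- **[CL-1], Witt index two**, from purity and the two counts -/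
theorem one_ltO2 [IsUltrametricDist k] (hG : Geo (ltO h 0 ha μ₁ μ₂))
    (hP : H306.G.PurIn (ltO h 0 ha μ₁ μ₂)) (h1 : Count1Stmt (ltO h 0 ha μ₁ μ₂))
    (h2 : Count2Stmt (ltO h 0 ha μ₁ μ₂)) : OneStmt (ltO h 0 ha μ₁ μ₂) := by
  haveI := hG.t2P
  haveI := hG.t2M
  haveI : IsFiniteMeasureOnCompacts (ltO h 0 ha μ₁ μ₂).μ₁ :=
    inferInstanceAs (IsFiniteMeasureOnCompacts μ₁)
  haveI : (ltO h 0 ha μ₁ μ₂).μ₁.IsOpenPosMeasure := inferInstanceAs μ₁.IsOpenPosMeasure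
  haveI : IsFiniteMeasureOnCompacts (ltO h 0 ha μ₁ μ₂).μ₂ :=
    inferInstanceAs (IsFiniteMeasureOnCompacts μ₂)
  haveI : (ltO h 0 ha μ₁ μ₂).μ₂.IsOpenPosMeasure := inferInstanceAs μ₂.IsOpenPosMeasure
  have hp : PurStmt (ltO h 0 ha μ₁ μ₂) := H306.G.purStmt_of hG hP
  have hf : FlipStmt (ltO h 0 ha μ₁ μ₂) := flipO h ha μ₁ μ₂
  have key : OneStmt (ltO h 0 ha μ₁ μ₂) :=
    H99.CL.one_of_counts (L := ltO h 0 ha μ₁ μ₂) hG (gqO h ha μ₁ μ₂) hp h1 h2 hf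
  exact @key

variable {E : Type} [Group E] [TopologicalSpace E] [IsTopologicalGroup E]
  [LocallyCompactSpace E] [SecondCountableTopology E] [T2Space E]
  {i : EUF (RingHom.id k) 1 (hyp (s + 2) 1 J₀) →* E}

/-- **[CL-EX]** for the letters `ltO` -/
theorem exStmt_ltO (hG : Geo (ltO h s ha μ₁ μ₂)) (hA : Adm (ltO h s ha μ₁ μ₂) i)
    {T : Gau (EUF (RingHom.id k) 1 (hyp (s + 2) 1 J₀)) (SGr (RingHom.id k) (hyp (s + 2) 1 J₀) 1)
      (SGr (RingHom.id k) (hyp (s + 2) 1 J₀) (s + 2))} (hT : GauOk (ltO h s ha μ₁ μ₂) T)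
    (hs : H71.CLO.SprL (ltO h s ha μ₁ μ₂)) (g1 : LeviGap (ltO h s ha μ₁ μ₂).b1)
    (g2 : LeviGap (ltO h s ha μ₁ μ₂).b2) (hWl : WalStmt (ltO h s ha μ₁ μ₂) T i) :
    ExStmt (ltO h s ha μ₁ μ₂) i :=
  exStmt_of hG hT (H923.CLI.ovlStmtO hT (h.wi s)) hA
    (inferInstanceAs (IsFiniteMeasureOnCompacts μ₁))
    (inferInstanceAs (IsFiniteMeasureOnCompacts μ₂)) hs g1 g2 hWl

/-- **The core**: orthogonal groups of Witt index at least two, `t = 1`. -/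
theorem coreE_ltO (hG : Geo (ltO h s ha μ₁ μ₂)) (hA : Adm (ltO h s ha μ₁ μ₂) i)
    (hOne : OneStmt (ltO h s ha μ₁ μ₂)) (hEx : ExStmt (ltO h s ha μ₁ μ₂) i) : CoreE E := by
  obtain ⟨N, hN⟩ : ∃ N, Fintype.card (Idx (s + 2) ι) = N + 1 :=
    Nat.exists_eq_succ_of_ne_zero (Fintype.card_ne_zero (α := Idx (s + 2) ι))
  have e : Idx (s + 2) ι ≃ Fin (N + 1) := Fintype.equivFinOfCardEq hN
  exact coreE_ofP e (h.wf s) (Nat.le_add_left 2 s) hphiO hactO hG hA (scO e h ha μ₁ μ₂)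
    (nmcO e h ha μ₁ μ₂) hOne (clsO e h ha μ₁ μ₂ hG) hEx

/-- **The core for every admissible source group**, `t = 1`. -/
theorem coreE_admO (hk : LocK k) (hG : Geo (ltO h s ha μ₁ μ₂)) (hA : Adm (ltO h s ha μ₁ μ₂) i)
    (hs : H71.CLO.SprL (ltO h s ha μ₁ μ₂)) (g1 : LeviGap (ltO h s ha μ₁ μ₂).b1)
    (g2 : LeviGap (ltO h s ha μ₁ μ₂).b2)
    (hWl : ∀ {N : ℕ} (e : Idx (s + 2) ι ≃ Fin (N + 1))
      (bp : FormGroup (RingHom.id k) (hyp (s + 2) 1 J₀) →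
        SGr (RingHom.id k) (hyp (s + 2) 1 J₀) 1)
      (bm : FormGroup (RingHom.id k) (hyp (s + 2) 1 J₀) →
        SGr (RingHom.id k) (hyp (s + 2) 1 J₀) (s + 2)),
      WalStmt (ltO h s ha μ₁ μ₂) (gau e (s + 2) (Subgroup.subtype _) bp bm) i)
    (hOne : OneStmt (ltO h s ha μ₁ μ₂)) : CoreE E := by
  obtain ⟨N, hN⟩ : ∃ N, Fintype.card (Idx (s + 2) ι) = N + 1 :=
    Nat.exists_eq_succ_of_ne_zero (Fintype.card_ne_zero (α := Idx (s + 2) ι))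
  have e : Idx (s + 2) ι ≃ Fin (N + 1) := Fintype.equivFinOfCardEq hN
  obtain ⟨bp, bm, hT⟩ := gauOk_ltO hk e h (h.wi s) ha μ₁ μ₂
  exact coreE_ltO h ha μ₁ μ₂ hG hA hOne (exStmt_ltO h ha μ₁ μ₂ hG hA hT hs g1 g2 (hWl e bp bm))

end asm

section cen

variable {k : Type} [NontriviallyNormedField k] [ProperSpace k] {ι : Type} [Fintype ι]
  [DecidableEq ι] {s : ℕ} {J₀ : Matrix ι ι k}

/-- **The core for `Ω(J) ⧸ centre`**, `t = 1`, Witt index `s + 2 ≥ 2`, any local field. -/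
theorem coreE_cenO (hk : LocK k) (h : OF J₀)
    (hG : ∀ [MeasurableSpace k] [BorelSpace k] {a : k} (ha : a ≠ 0) (_ : ‖a‖ < 1)
      (μ₁ : Measure k) (μ₂ : Measure (ι → k)) [μ₁.IsAddHaarMeasure] [μ₂.IsAddHaarMeasure],
      Geo (ltO h s ha μ₁ μ₂))
    (hs : ∀ [MeasurableSpace k] [BorelSpace k] {a : k} (ha : a ≠ 0) (_ : ‖a‖ < 1)
      (μ₁ : Measure k) (μ₂ : Measure (ι → k)) [μ₁.IsAddHaarMeasure] [μ₂.IsAddHaarMeasure],
      H71.CLO.SprL (ltO h s ha μ₁ μ₂))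
    (hg : ∀ {a : k} (ha : a ≠ 0) (_ : ‖a‖ < 1), LeviGap (b1O h s ha) ∧ LeviGap (b2O h s ha))
    (hWl : ∀ [MeasurableSpace k] [BorelSpace k] {a : k} (ha : a ≠ 0) (_ : ‖a‖ < 1)
      (μ₁ : Measure k) (μ₂ : Measure (ι → k)) [μ₁.IsAddHaarMeasure] [μ₂.IsAddHaarMeasure]
      {E : Type} [Group E] [TopologicalSpace E] [IsTopologicalGroup E]
      [LocallyCompactSpace E] [SecondCountableTopology E] [T2Space E]
      {i : EUF (RingHom.id k) 1 (hyp (s + 2) 1 J₀) →* E} (_ : Adm (ltO h s ha μ₁ μ₂) i)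
      {N : ℕ} (e : Idx (s + 2) ι ≃ Fin (N + 1))
      (bp : FormGroup (RingHom.id k) (hyp (s + 2) 1 J₀) →
        SGr (RingHom.id k) (hyp (s + 2) 1 J₀) 1)
      (bm : FormGroup (RingHom.id k) (hyp (s + 2) 1 J₀) →
        SGr (RingHom.id k) (hyp (s + 2) 1 J₀) (s + 2)),
      WalStmt (ltO h s ha μ₁ μ₂) (gau e (s + 2) (Subgroup.subtype _) bp bm) i)
    (hOne : ∀ [MeasurableSpace k] [BorelSpace k] {a : k} (ha : a ≠ 0) (_ : ‖a‖ < 1)
      (μ₁ : Measure k) (μ₂ : Measure (ι → k)) [μ₁.IsAddHaarMeasure] [μ₂.IsAddHaarMeasure],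
      OneStmt (ltO h s ha μ₁ μ₂)) :
    CoreE (EUF (RingHom.id k) 1 (hyp (s + 2) 1 J₀) ⧸
      Subgroup.center (EUF (RingHom.id k) 1 (hyp (s + 2) 1 J₀))) := by
  letI : MeasurableSpace k := borel k
  haveI : BorelSpace k := ⟨rfl⟩
  haveI := lc_EUF h s
  haveI := sc_EUF h s
  haveI := t2_EUF h s
  haveI : IsClosed (Subgroup.center (EUF (RingHom.id k) 1 (hyp (s + 2) 1 J₀)) :
      Set (EUF (RingHom.id k) 1 (hyp (s + 2) 1 J₀))) := (finite_center_EUF h s).isClosed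
  obtain ⟨a, ha0, ha1⟩ := NormedField.exists_norm_lt_one k
  have ha : a ≠ 0 := norm_pos_iff.1 ha0
  obtain ⟨g1, g2⟩ := hg ha ha1
  exact coreE_admO h ha Measure.addHaar Measure.addHaar hk (hG ha ha1 _ _)
    (admO h s ha _ _) (hs ha ha1 _ _) g1 g2
    (fun e bp bm => hWl ha ha1 _ _ (admO h s ha _ _) e bp bm)
    (hOne ha ha1 _ _)

end cen

end Vale.Agent.P092.CL
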