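import Vale.Agent.P092.CL.LtO
import Vale.Agent.P092.CL.Quad
import Vale.Agent.P092.H515.Witt
import Vale.Agent.P092.H820.P3FlipW

/-!
P092, TEAM P, stage CL-O (helper387): Witt index of the orthogonal letters; for Witt index two the
generalised quadrangle and helper820's exclusion of the flip.
-/

set_option linter.all false

open scoped Matrix
open Matrix Module Set MeasureTheory

namespace Vale.Agent.P092.CL

open Vale.Agent.P092.H303 (FormGroup Idx hyp)
open Vale.Agent.P092.H714.Cl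
open Vale.Agent.P092.H370.Po (SGr Inc Sing WI)
open Vale.Agent.P092.H370.Fo (Wf)
open Vale.Agent.P092.SP (GQ)

section gq

variable {n : Type} [Fintype n] [DecidableEq n] {k : Type} [Field k]
  {σ : k →+* k} {ε : k} {J : Matrix n n k}

/-- the quadrangle of a form of Witt index two, any kind of form -/
theorem gq_wf (hF : Wf σ ε J 2) : GQ (Inc : SGr σ J 1 → SGr σ J 2 → Prop) where
  uniq x x' y y' h h1 h2 h3 h4 := H370.Fo.inc_unique h h1 h2 h3 h4
  tri x x' z n m m' hn h1 h2 h3 h4 h5 h6 := H370.Fo.no_tri hF x x' z n m m' hn h1 h2 h3 h4 h5 h6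
  foot x l h := H370.Fo.exists_foot_line hF x l
  pt2 l := H370.Fo.exists_two_pt l
  ln2 x := H370.Fo.exists_two_ln hF x

end gq

section wi

variable {k : Type} [NontriviallyNormedField k] {ι : Type} [Fintype ι] [DecidableEq ι]
  {s : ℕ} {J₀ : Matrix ι ι k}

theorem OF.wi (h : OF J₀) (s : ℕ) : WI (RingHom.id k) (hyp (s + 2) 1 J₀) (s + 2) := by
  refine ⟨⟨(m0 (σ := RingHom.id k) (ε := 1) (J₀ := J₀) (s := s)).S,
    H370.Po.SGr.sing _, H370.Po.SGr.dim _⟩, fun Y hY => ?_⟩
  by_contra hcon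
  push Not at hcon
  have hle : s + 2 + 1 ≤ finrank k Y := hcon
  have hli := ((finBasis k Y).linearIndependent.map' Y.subtype (Submodule.ker_subtype Y)).comp
    (Fin.castLE hle) (Fin.castLE_injective hle)
  obtain ⟨i, j, hij⟩ := H515.witt (σ := RingHom.id k) (ε := 1) (fun x => rfl) one_ne_zero
    (J₀ := J₀) (fun v hv => h.an v hv) _ hli
  exact hij (hY _ (finBasis k Y _).2 _ (finBasis k Y _).2)

theorem OF.wf (h : OF J₀) (s : ℕ) : Wf (RingHom.id k) 1 (hyp (s + 2) 1 J₀) (s + 2) where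
  fm := h.fm s
  wi := h.wi s
  thick := Or.inr (by
    haveI := h.ne
    have := Fintype.card_pos (α := ι)
    rw [Fintype.card_sum, Fintype.card_sum, Fintype.card_fin]
    omega)

theorem gqO [MeasurableSpace k] (h : OF J₀) {a : k} (ha : a ≠ 0) (μ₁ : Measure k)
    (μ₂ : Measure (ι → k)) : GQ (ltO h 0 ha μ₁ μ₂).In := gq_wf (h.wf 0)

instance factId : Fact (Continuous (RingHom.id k)) := ⟨continuous_id⟩

/-- **[CL-FLIP]** for the orthogonal letters -/
theorem flipO [ProperSpace k] [MeasurableSpace k] (h : OF J₀) {a : k} (ha : a ≠ 0)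
    (μ₁ : Measure k) (μ₂ : Measure (ι → k)) : FlipStmt (ltO h 0 ha μ₁ μ₂) := by
  intro K _ _ _ _ Ec F hpl he hf hc
  refine H820.P3.no_flip' (H820.P3.WF.of (h.fm 0).inv (h.fm 0).eps (h.fm 0).seps (h.fm 0).herm
    (h.fm 0).nondeg (h.fm 0).tv (h.wi 0)) (Or.inl ?_) (β := Ec) (ν := F) hc.ee hc.ff hc.ef
    (fun c l hcl f g hn => (hpl c l hcl).inc f g fun y hy x hx hin => hn y hy x hx hin)
    (fun c c' l hne _ _ => he c c' hne) (fun l l' c hne _ _ => hf l l' hne)
  haveI := h.ne
  have := Fintype.card_pos (α := ι)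
  rw [Fintype.card_sum, Fintype.card_sum, Fintype.card_fin]
  omega

end wi

end Vale.Agent.P092.CL
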