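import Vale.Agent.P092.CL.AsmO
import Vale.Agent.P092.H828.CL.LtR

/-!
P092, TEAM P, track CL over `ℝ` (helper142): the last assembly at `t = 1` for `SO(2, n)`, `n ≥ 3`
(letters `ltO`, Witt index two, `k = ℝ`).
-/

set_option linter.all false

open scoped InnerProductSpace ENNReal
open Filter Topology MeasureTheory TopologicalSpace Matrix

namespace Vale.Agent.P092.CL

open Vale.Agent.P092.H303 (FormGroup Idx hyp)
open Vale.Agent.P092.H714.Cl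
open Vale.Agent.P092.H370.Po (SGr Inc Sing WI)
open Vale.Agent.P092.H370.Fo (Wf)
open Vale.Agent.P092.SN (CoreE)
open Vale.Agent.P092.H933 (LeviGap LocK)
open Vale.Agent.P092.H99.CL (Count1Stmt Count2Stmt SynStmt)

variable {ι : Type} [Fintype ι] [DecidableEq ι] {J₀ : Matrix ι ι ℝ} {a : ℝ}

/-- **[CL-1] for `SO(2, n)`**, from purity, the two counts and SYN -/
theorem oneR (h : OF J₀) (ha : a ≠ 0) (μ₁ : Measure ℝ) (μ₂ : Measure (ι → ℝ))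
    [μ₁.IsAddHaarMeasure] [μ₂.IsAddHaarMeasure] (hG : Geo (ltO h 0 ha μ₁ μ₂))
    (hP : H306.G.PurIn (ltO h 0 ha μ₁ μ₂)) (h1 : Count1Stmt (ltO h 0 ha μ₁ μ₂))
    (h2 : Count2Stmt (ltO h 0 ha μ₁ μ₂)) (syn : SynStmt (ltO h 0 ha μ₁ μ₂)) :
    OneStmt (ltO h 0 ha μ₁ μ₂) := by
  haveI := hG.t2P
  haveI := hG.t2M
  haveI : IsFiniteMeasureOnCompacts (ltO h 0 ha μ₁ μ₂).μ₁ :=
    inferInstanceAs (IsFiniteMeasureOnCompacts μ₁)
  haveI : (ltO h 0 ha μ₁ μ₂).μ₁.IsOpenPosMeasure := inferInstanceAs μ₁.IsOpenPosMeasure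
  haveI : IsFiniteMeasureOnCompacts (ltO h 0 ha μ₁ μ₂).μ₂ :=
    inferInstanceAs (IsFiniteMeasureOnCompacts μ₂)
  haveI : (ltO h 0 ha μ₁ μ₂).μ₂.IsOpenPosMeasure := inferInstanceAs μ₂.IsOpenPosMeasure
  have key : OneStmt (ltO h 0 ha μ₁ μ₂) :=
    H99.CL.one_counts (L := ltO h 0 ha μ₁ μ₂) hG (gqO h ha μ₁ μ₂)
      (H306.G.purStmt_of hG hP) (H828.CLR.zeroStmt_ltO h ha μ₁ μ₂)
      (H828.CLR.zeroStmt_ltO' h ha μ₁ μ₂) h1 h2 syn (flipO h ha μ₁ μ₂)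
  exact @key

end Vale.Agent.P092.CL
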