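import Vale.Agent.P092.CL.LegE
import Vale.Agent.P092.H616.HA
import Vale.Agent.P092.H100.SU.Defs

/-!
P092, Team P, stages 2 and 3 (helper805), Track H: from the relations of `HasLegW` (engine, weighted
count) to Lemma O for the letters of points, `t = 1`.
-/

set_option linter.all false

open scoped InnerProductSpace ENNReal
open Filter Topology ContinuousLinearMap MeasureTheory TopologicalSpace

namespace Vale.Agent.P092.CL

open Vale.Agent.P092.H616.HA (HasLegR HalfStmtR ExStmtR TwR exStmtR_of_half)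
open Vale.Agent.P092.H100.SU (O1 Sec1 Far1)

section br

variable {S P M V₁ V₂ : Type} [Group S] [MeasurableSpace V₁] [MeasurableSpace V₂]
  [TopologicalSpace S] [MulAction S P] [TopologicalSpace P] [CompactSpace P]
  [ContinuousConstSMul S P] [MulAction S M] [TopologicalSpace M] [CompactSpace M]
  [ContinuousConstSMul S M] [NormedAddCommGroup V₁] [NormedAddCommGroup V₂]

/-- **[H-CNT]** in the literal of the bridge: a linear map which kills the families with the weighted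
count satisfies `Rl` -/
def CntW (Rl : ∀ {K : Type} [NormedAddCommGroup K] [InnerProductSpace ℂ K],
      (C(P, ℂ) →ₗ[ℂ] (K →L[ℂ] K)) → Prop) (L : Lt S P M V₁ V₂) (T : Gau S P M) : Prop :=
  ∀ {Γ K : Type} [Group Γ] [NormedAddCommGroup K] [InnerProductSpace ℂ K] (q : Γ → S),
    L.PH q → L.UD q → ∀ U : C(P, ℂ) →ₗ[ℂ] (K →L[ℂ] K),
      (∀ (I : Type) [Fintype I] (u v : I → C(P, ℂ)), WC L T q u v →
        ∑ i, U (u i) * U (v i) = 0) → Rl U

/-- the count of helper574, literal of Lemma O of order one -/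
theorem cntW_O1 {n : ℕ} {X : C(P, Matrix (Fin n) (Fin n) ℂ)} {D : Matrix (Fin n) (Fin n) ℂ}
    {L : Lt S P M V₁ V₂} {T : Gau S P M}
    (h : ∀ {Γ : Type} [Group Γ] (q : Γ → S), L.PH q → L.UD q → ∀ (r : ℕ)
      (u v : Fin r → C(P, ℂ)) (C δ : ℝ), 0 < δ → Sec1 X D C u v → Far1 X δ u v → WC L T q u v) :
    CntW (fun {K} _ _ U => O1 X D U) L T := by
  intro Γ K _ _ _ q h1 h2 U hU r u v C δ hδ h3 h4
  exact hU (Fin r) u v (h q h1 h2 r u v C δ hδ h3 h4)

variable {Rl : ∀ {K : Type} [NormedAddCommGroup K] [InnerProductSpace ℂ K],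
      (C(P, ℂ) →ₗ[ℂ] (K →L[ℂ] K)) → Prop} {L : Lt S P M V₁ V₂} {T : Gau S P M}

/-- **The bridge**, one leg. -/
theorem HasLegW.legR {E Γ K : Type} [Group E] [TopologicalSpace E] [Group Γ]
    [NormedAddCommGroup K] [InnerProductSpace ℂ K] [CompleteSpace K] {𝒰 : Ultrafilter ℕ}
    {ι : S →* E} {π : E →* (K →L[ℂ] K)} {lam : Γ →* (K →L[ℂ] K)} {W : Set (K →L[ℂ] K)} {Ω : K}
    {m : Set Γ → (K →L[ℂ] K)} {q : Γ → S} (hC : CntW Rl L T)
    (h : HasLegW L T 𝒰 ι π lam W Ω m q) : HasLegR Rl L 𝒰 ι π lam W Ω m q := by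
  obtain ⟨U11, p11, U12, p12, U21, p21, U22, p22, h, h1⟩ := h
  exact ⟨U11, p11, U12, p12, U21, p21, U22, p22, h,
    fun c => hC q h.base.ph h.base.ud (U11 c) fun I _ u v hw => (h1 I u v hw).1 c,
    fun l => hC q h.base.ph h.base.ud (U21 l) fun I _ u v hw => (h1 I u v hw).2 l⟩

variable {E : Type} [Group E] [TopologicalSpace E] [IsTopologicalGroup E] [LocallyCompactSpace E]
  [SecondCountableTopology E] [T2Space E] {ι : S →* E}

/-- **The bridge**, first leg of the concrete picture. -/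
theorem halfStmtR_of_W (hC : CntW Rl L T) (h : HalfStmtW L T ι) : HalfStmtR Rl L ι := by
  intro _ _ Γ _ _ _ _ ν _ hν hΓ hicc Λ _ _ hΛ α hα
  obtain ⟨𝒰, m, q, h1, h2⟩ := h hν hΓ hicc hΛ hα
  exact ⟨𝒰, m, q, HasLegW.legR hC h1, h2⟩

/-- **The bridge**, both legs. -/
theorem exStmtR_of_W (hC : CntW Rl L T) (h : ExStmtW L T ι) : ExStmtR Rl L ι := by
  intro _ _ Γ _ _ _ _ ν _ hν hΓ hicc Λ _ _ hΛ α hα
  obtain ⟨𝒰, m₁, m₂, q₁, q₂, h1, h2, h3, h4⟩ := h hν hΓ hicc hΛ hα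
  exact ⟨𝒰, m₁, m₂, q₁, q₂, HasLegW.legR hC h1, HasLegW.legR hC h2, h3, h4⟩

end br

end Vale.Agent.P092.CL
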