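import Vale.Agent.P092.CL.ExDefs
import Vale.Agent.P092.CL.ExCov
import Vale.Agent.P092.H486.EngJ

/-!
P092, Team P, stages 2 and 3 (helper805), [CL-EX]: the source group `E` and the lattice `Γ` act on
points and maximal subspaces; the lifts of a lattice to `S`; the geometry of the gauges on `Γ`.
-/

set_option linter.all false

open scoped InnerProductSpace ENNReal
open Filter Topology ContinuousLinearMap MeasureTheory TopologicalSpace

namespace Vale.Agent.P092.CL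

open Vale.Agent.P092.RC (Moore)
open Vale.Agent.P092.H859.CL (st BB FF cn pw Esc Slow Leg)
open Vale.Agent.P092.H486.Eng (GeoU)

variable {S P M V₁ V₂ : Type} [Group S] [MeasurableSpace V₁] [MeasurableSpace V₂]
  {L : Lt S P M V₁ V₂}

/-! ### Actions -/

section act

variable [TopologicalSpace S] {E : Type} [Group E] [TopologicalSpace E] {ι : S →* E}
  {X : Type} [MulAction S X]

theorem fibX (h : Adm L ι) (hz : ∀ z ∈ L.Z, ∀ x : X, z • x = x) {g g' : S} (e : ι g = ι g')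
    (x : X) : g • x = g' • x := by
  have h1 : ι (g'⁻¹ * g) = 1 := by rw [map_mul, map_inv, e, inv_mul_cancel]
  have h2 := hz _ (h.ker _ h1) x
  rw [mul_smul, inv_smul_eq_iff] at h2
  exact h2

/-- `E` acts -/
@[reducible] noncomputable def actE (h : Adm L ι) (hz : ∀ z ∈ L.Z, ∀ x : X, z • x = x) :
    MulAction E X where
  smul e l := Function.surjInv h.sur e • l
  one_smul l := by
    change Function.surjInv h.sur 1 • l = l
    rw [fibX h hz (g' := 1) (by rw [Function.surjInv_eq h.sur, map_one]), one_smul]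
  mul_smul e e' l := by
    change Function.surjInv h.sur (e * e') • l =
      Function.surjInv h.sur e • Function.surjInv h.sur e' • l
    rw [← mul_smul]
    exact fibX h hz (by rw [map_mul, Function.surjInv_eq h.sur, Function.surjInv_eq h.sur,
      Function.surjInv_eq h.sur]) l

theorem actE_ι (h : Adm L ι) (hz : ∀ z ∈ L.Z, ∀ x : X, z • x = x) (g : S) (x : X) :
    letI := actE h hz
    ι g • x = g • x := fibX h hz (Function.surjInv_eq h.sur (ι g)) x

end act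

section gam

variable {Γ : Type} [Group Γ] {q : Γ → S} {X : Type} [MulAction S X]

theorem q_one (hq : L.PH q) : q 1 ∈ L.Z := by
  obtain ⟨z, hz, h⟩ := hq 1 1
  rw [mul_one, ← mul_assoc] at h
  have h1 : z * q 1 = 1 := by
    have h2 : 1 * q 1 = (z * q 1) * q 1 := by rw [one_mul]; exact h
    exact (mul_right_cancel h2).symm
  have h3 : q 1 = z⁻¹ := eq_inv_of_mul_eq_one_right h1
  rw [h3]
  exact L.Z.inv_mem hz

/-- `Γ` acts through `q` -/
@[reducible] def actQ (hq : L.PH q) (hz : ∀ z ∈ L.Z, ∀ x : X, z • x = x) : MulAction Γ X where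
  smul γ x := q γ • x
  one_smul x := hz _ (q_one hq) x
  mul_smul γ γ' x := by
    obtain ⟨z, hz', h⟩ := hq γ γ'
    change q (γ * γ') • x = q γ • q γ' • x
    rw [h, mul_smul, hz z hz', mul_smul]

variable [TopologicalSpace S] [MulAction S P] [TopologicalSpace P] [CompactSpace P]
  [ContinuousConstSMul S P] [MulAction S M] [TopologicalSpace M] [CompactSpace M]
  [ContinuousConstSMul S M] [NormedAddCommGroup V₁] [NormedAddCommGroup V₂]

/-- products of three elements -/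
theorem q_mul3 (hG : Geo L) (hq : L.PH q) (s x u : Γ) :
    ∃ z ∈ L.Z, q (s * x * u) = z * (q s * q x * q u) := by
  obtain ⟨z, hz, h⟩ := hq (s * x) u
  obtain ⟨z', hz', h'⟩ := hq s x
  refine ⟨z * z', L.Z.mul_mem hz hz', ?_⟩
  rw [h, h']
  simp only [mul_assoc]

theorem q_div (hG : Geo L) (hq : L.PH q) (γ γ' : Γ) :
    ∃ z ∈ L.Z, q (γ' * γ⁻¹) = z * (q γ' * (q γ)⁻¹) := by
  obtain ⟨z, hz, h⟩ := hq (γ' * γ⁻¹) γ
  rw [inv_mul_cancel_right] at h
  refine ⟨z⁻¹, L.Z.inv_mem hz, ?_⟩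
  rw [h]
  simp only [← mul_assoc, inv_mul_cancel_right]
  rw [inv_mul_cancel, one_mul, mul_inv_cancel_right]

/-- **Uniform discreteness.** -/
theorem ud_of_fin (hG : Geo L) (hq : L.PH q) (fin : ∀ C : ℝ, {γ | L.nm (q γ) ≤ C}.Finite) :
    L.UD q := by
  classical
  intro C
  refine ⟨(fin C).toFinset.card, fun T hT => ?_⟩
  rcases T.eq_empty_or_nonempty with rfl | ⟨γ₀, h₀⟩
  · simp
  · have h1 : T.image (fun γ => γ * γ₀⁻¹) ⊆ (fin C).toFinset := by
      intro x hx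
      obtain ⟨γ, hγ, rfl⟩ := Finset.mem_image.1 hx
      rw [Set.Finite.mem_toFinset, Set.mem_setOf_eq]
      obtain ⟨z, hz, h⟩ := q_div hG hq γ₀ γ
      rw [h, hG.z_nm z hz]
      exact hT γ₀ h₀ γ hγ
    have h2 := Finset.card_le_card h1
    rwa [Finset.card_image_of_injective _ (mul_left_injective γ₀⁻¹)] at h2

variable {T : Gau S P M}

theorem fin_G1 (hT : GauOk L T) (fin : ∀ C : ℝ, {γ | L.nm (q γ) ≤ C}.Finite) (r : ℝ) :
    (FF (fun γ => T.G1 (q γ)) (fun γ => T.H1 (q γ)) r).Finite := by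
  obtain ⟨C, hC⟩ := hT.fin1 r
  exact (fin C).subset fun γ hγ => hC _ hγ.1 hγ.2

theorem fin_G2 (hT : GauOk L T) (fin : ∀ C : ℝ, {γ | L.nm (q γ) ≤ C}.Finite) (r : ℝ) :
    (FF (fun γ => T.G2 (q γ)) (fun γ => T.H2 (q γ)) r).Finite := by
  obtain ⟨C, hC⟩ := hT.fin2 r
  exact (fin C).subset fun γ hγ => hC _ hγ.1 hγ.2

theorem fin_H (hT : GauOk L T) (fin : ∀ C : ℝ, {γ | L.nm (q γ) ≤ C}.Finite) (r : ℝ) :
    {γ | T.H1 (q γ) ≤ r ∧ T.H2 (q γ) ≤ r}.Finite := by
  obtain ⟨C, hC⟩ := hT.fin12 r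
  exact (fin C).subset fun γ hγ => hC _ hγ.1 hγ.2

/-- the geometry of the points -/
theorem geoU1 (hG : Geo L) (hT : GauOk L T) (hq : L.PH q)
    (fin : ∀ C : ℝ, {γ | L.nm (q γ) ≤ C}.Finite) :
    @GeoU Γ P _ _ (actQ hq hG.z_P) (fun γ => T.G1 (q γ)) (fun γ => T.H1 (q γ))
      (fun γ => T.bp (q γ)) := by
  letI := actQ (X := P) hq hG.z_P
  refine ⟨fun s => ?_, fin_G1 hT fin, fun s u => ?_, fun s u f ε hε r => ?_⟩
  · change Continuous fun y : P => q s • y
    exact continuous_const_smul (q s)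
  · obtain ⟨C, hC⟩ := hT.gap1 (q s) (q u)
    refine ⟨C, fun x => ?_⟩
    obtain ⟨z, hz, h⟩ := q_mul3 hG hq s x u
    rw [h]
    exact hC z hz (q x)
  · obtain ⟨R, hR⟩ := hT.stab1 (q s) (q u) f ε hε r
    refine ⟨R, fun x h1 h2 => ?_⟩
    obtain ⟨z, hz, h⟩ := q_mul3 hG hq s x u
    rw [h]
    exact hR z hz (q x) h1 h2

/-- the geometry of the maximal subspaces -/
theorem geoU2 (hG : Geo L) (hT : GauOk L T) (hq : L.PH q)
    (fin : ∀ C : ℝ, {γ | L.nm (q γ) ≤ C}.Finite) :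
    @GeoU Γ M _ _ (actQ hq hG.z_M) (fun γ => T.G2 (q γ)) (fun γ => T.H2 (q γ))
      (fun γ => T.bm (q γ)) := by
  letI := actQ (X := M) hq hG.z_M
  refine ⟨fun s => ?_, fin_G2 hT fin, fun s u => ?_, fun s u f ε hε r => ?_⟩
  · change Continuous fun y : M => q s • y
    exact continuous_const_smul (q s)
  · obtain ⟨C, hC⟩ := hT.gap2 (q s) (q u)
    refine ⟨C, fun x => ?_⟩
    obtain ⟨z, hz, h⟩ := q_mul3 hG hq s x u
    rw [h]
    exact hC z hz (q x)
  · obtain ⟨R, hR⟩ := hT.stab2 (q s) (q u) f ε hε r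
    refine ⟨R, fun x h1 h2 => ?_⟩
    obtain ⟨z, hz, h⟩ := q_mul3 hG hq s x u
    rw [h]
    exact hR z hz (q x) h1 h2

theorem domCut1 (hT : GauOk L T) (q : Γ → S) :
    H859.CN.DomCut (L.na1 q) (fun γ => T.G1 (q γ)) (fun γ => T.H1 (q γ))
      (fun γ => T.bp (q γ)) := by
  intro r
  obtain ⟨R, hR⟩ := hT.dom1 r
  refine ⟨R, fun t ht => ?_⟩
  obtain ⟨t', ht'⟩ := hR t ht
  refine ⟨t', fun A γ hγ => ?_⟩
  rcases ht' A (q γ) hγ.1 hγ.2 with h | h | h
  · exact Or.inl h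
  · exact Or.inr (Or.inl h)
  · exact Or.inr (Or.inr h)

theorem domCut2 (hT : GauOk L T) (q : Γ → S) :
    H859.CN.DomCut (L.na2 q) (fun γ => T.G2 (q γ)) (fun γ => T.H2 (q γ))
      (fun γ => T.bm (q γ)) := by
  intro r
  obtain ⟨R, hR⟩ := hT.dom2 r
  refine ⟨R, fun t ht => ?_⟩
  obtain ⟨t', ht'⟩ := hR t ht
  refine ⟨t', fun A γ hγ => ?_⟩
  rcases ht' A (q γ) hγ.1 hγ.2 with h | h | h
  · exact Or.inl h
  · exact Or.inr (Or.inl h)
  · exact Or.inr (Or.inr h)

end gam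

end Vale.Agent.P092.CL
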