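import Vale.Agent.P092.CL.ExA
import Vale.Agent.P092.SPT.EngF
import Vale.Agent.P092.SPT.AgrT

/-!
P092, Team P, stages 2 and 3 (helper805), [CL-EX]: the four families of one leg and exact incidence
(`LegQ`), from the geometry, the gauges and the analytic input of the two walls; families of vectors.
-/

set_option linter.all false

open scoped InnerProductSpace ENNReal
open Filter Topology ContinuousLinearMap MeasureTheory TopologicalSpace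

namespace Vale.Agent.P092.CL

open Vale.Agent.P092.RC (Moore Cm PicF)
open Vale.Agent.P092.SD (MsF)
open Vale.Agent.P092.H232 (Nin)
open Vale.Agent.P092.H43 (Loc2)
open Vale.Agent.P092.H553 (ind ind_nonneg ind_le_one abs_ind_le ind_pos ind_neg)
open Vale.Agent.P092.H76.Pur (NIS)
open Vale.Agent.P092.H859.CL (st BB FF cn pw Esc Slow Leg PC PC_real)
open Vale.Agent.P092.H486.Eng (GeoU UFamE ut ut_le tendsto_ut)
open Vale.Agent.P092.SP.X (Erg ufam_gen ufam_incF agr_famF exists_unit)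

/-! ### The sum rule with middle types -/

section neg

variable {E Γ K : Type} [Group E] [Group Γ] [NormedAddCommGroup K] [InnerProductSpace ℂ K]
  [CompleteSpace K] {m : Set Γ → (K →L[ℂ] K)} {R : E → (K →L[ℂ] K)} {Bd : Set K}
  {ms : E → Set Γ → ℝ} {A : Subgroup E} {Br Br' : ℝ → Set Γ} {G1 H1 G2 H2 : Γ → ℝ} {l : Filter E}

theorem neg_set (h : H859.CN.Sys m R Bd ms A Br G1 H1) (he : Esc m R Bd A l) {N : Set Γ} (v : K)
    (hN : ∀ ε > 0, ∃ F C : Set Γ, F.Finite ∧ N ⊆ F ∪ C ∧ ∀ᶠ w in l, ‖m C (R w v)‖ ≤ ε) :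
    Tendsto (fun w => ‖m N (R w v)‖) l (𝓝 0) := by
  rw [Metric.tendsto_nhds]
  intro ε hε
  obtain ⟨F, C, hF, hs, hC⟩ := hN (ε / 3) (by positivity)
  have h1 := h.prj.tendsto_finite (f := fun w => R w v) (l := l)
    (fun g => H859.CN.esc2 h he g v) hF
  filter_upwards [hC, (Metric.tendsto_nhds.mp h1) (ε / 3) (by positivity)] with w hw h2
  rw [dist_zero_right, norm_norm] at h2 ⊢
  have h4 := h.prj.mono hs (R w v)
  have h5 := h.prj.norm_union_le F C (R w v)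
  linarith

theorem neg_both (h : H859.CN.Sys m R Bd ms A Br G1 H1) (h' : H859.CN.Sys m R Bd ms A Br' G2 H2)
    (he : Esc m R Bd A l) (f12 : ∀ r, {γ | H1 γ ≤ r ∧ H2 γ ≤ r}.Finite) (v : K) :
    Tendsto (fun w => ‖m {γ | H1 γ ≤ G1 γ ∧ H2 γ ≤ G2 γ} (R w v)‖) l (𝓝 0) := by
  refine neg_set h he v fun ε hε => ?_
  obtain ⟨r1, hr1⟩ := h.nrv' v (ε := ε / 2) (by positivity)
  obtain ⟨r2, hr2⟩ := h'.nrv' v (ε := ε / 2) (by positivity)
  refine ⟨{γ | H1 γ ≤ max r1 r2 ∧ H2 γ ≤ max r1 r2}, BB G1 H1 r1 ∪ BB G2 H2 r2, f12 _, ?_, ?_⟩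
  · rintro γ ⟨k1, k2⟩
    by_cases a1 : H1 γ ≤ r1
    · by_cases a2 : H2 γ ≤ r2
      · exact Or.inl ⟨a1.trans (le_max_left _ _), a2.trans (le_max_right _ _)⟩
      · push Not at a2
        exact Or.inr (Or.inr ⟨a2.trans_le k2, a2⟩)
    · push Not at a1
      exact Or.inr (Or.inl ⟨a1.trans_le k1, a1⟩)
  · filter_upwards [he.mem] with w hw
    have h1 := h.prj.norm_union_le (BB G1 H1 r1) (BB G2 H2 r2) (R w v)
    have h2 := hr1 w hw
    have h3 := hr2 w hw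
    linarith

theorem neg_none (h : H859.CN.Sys m R Bd ms A Br G1 H1) (he : Esc m R Bd A l)
    (f1 : ∀ r, (FF G1 H1 r).Finite) (f2 : ∀ r, (FF G2 H2 r).Finite) (v : K)
    (ty : ∀ ε > 0, ∃ r : ℝ, ∀ᶠ w in l, ‖m {γ | r < H1 γ ∧ r < H2 γ} (R w v)‖ ≤ ε) :
    Tendsto (fun w => ‖m {γ | G1 γ < H1 γ ∧ G2 γ < H2 γ} (R w v)‖) l (𝓝 0) := by
  refine neg_set h he v fun ε hε => ?_
  obtain ⟨r, hr⟩ := ty ε hε
  refine ⟨FF G1 H1 r ∪ FF G2 H2 r, {γ | r < H1 γ ∧ r < H2 γ}, (f1 r).union (f2 r), ?_, hr⟩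
  rintro γ ⟨k1, k2⟩
  by_cases a1 : H1 γ ≤ r
  · exact Or.inl (Or.inl ⟨k1.le.trans a1, a1⟩)
  · by_cases a2 : H2 γ ≤ r
    · exact Or.inl (Or.inr ⟨k2.le.trans a2, a2⟩)
    · push Not at a1 a2
      exact Or.inr ⟨a1, a2⟩

end neg

section sum

variable {E Γ Y Y' Z Z' K : Type} [Group E] [TopologicalSpace E] [Group Γ] [MulAction E Z]
  [MulAction E Z'] [TopologicalSpace Y] [CompactSpace Y] [MulAction Γ Y] [TopologicalSpace Y']
  [CompactSpace Y'] [MulAction Γ Y'] [NormedAddCommGroup K] [InnerProductSpace ℂ K]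
  [CompleteSpace K] {b : E} {π : E →* (K →L[ℂ] K)} {lam : Γ →* (K →L[ℂ] K)}
  {W : Set (K →L[ℂ] K)} {mp : (Γ → ℝ) → (K →L[ℂ] K)} {NA : ℝ → ℝ → Set Y → Set Γ}
  {NA' : ℝ → ℝ → Set Y' → Set Γ} {z0 : Z} {z0' : Z'} {Br Br' : ℝ → Set Γ}
  {G1 H1 G2 H2 : Γ → ℝ} {bp : Γ → Y} {bp' : Γ → Y'} {Bd : Set K} {ms : E → Set Γ → ℝ}
  {A : Subgroup E} {𝒰 : Ultrafilter ℕ}

/-- **The sum rule.** -/
theorem sum_ty {U : Z → (C(Y, ℂ) →ₗ[ℂ] (K →L[ℂ] K))} {U' : Z' → (C(Y', ℂ) →ₗ[ℂ] (K →L[ℂ] K))}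
    {p p' : ℝ} (h𝒰 : (𝒰 : Filter ℕ) ≤ atTop) {v : K} (hv : ‖v‖ = 1)
    (h : H859.CN.SysF mp (fun g => π g) Bd ms A Br G1 H1)
    (h' : H859.CN.SysF mp (fun g => π g) Bd ms A Br' G2 H2)
    (f1 : ∀ r, (FF G1 H1 r).Finite) (f2 : ∀ r, (FF G2 H2 r).Finite)
    (f12 : ∀ r, {γ | H1 γ ≤ r ∧ H2 γ ≤ r}.Finite)
    (he : Esc (st mp) (fun g => π g) Bd A (pw b⁻¹))
    (ty : ∀ ε > 0, ∃ r : ℝ, ∀ᶠ N : ℕ in atTop,
      ‖st mp {γ | r < H1 γ ∧ r < H2 γ} (π (b ^ N)⁻¹ v)‖ ≤ ε)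
    (hU : UFamE mp π lam W b G1 H1 bp 𝒰 NA z0 U p)
    (hU' : UFamE mp π lam W b G2 H2 bp' 𝒰 NA' z0' U' p') : p + p' = 1 := by
  have hf := h.fn
  have hR := h.sys.rep
  have he' : Esc (st mp) (fun g => π g) Bd A (ut b 𝒰 : Filter E) := he.mono (ut_le b h𝒰)
  have h1 := hU.isU 1 v v
  have h2 := hU'.isU 1 v v
  have hvv : ⟪v, v⟫_ℂ = 1 := by
    rw [inner_self_eq_norm_sq_to_K, hv]; simp
  have e1 : ⟪v, U z0 1 v⟫_ℂ = p := by
    rw [(hU.ul z0).one]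
    change ⟪v, (p : ℂ) • v⟫_ℂ = p
    rw [inner_smul_right, hvv, mul_one]
  have e2 : ⟪v, U' z0' 1 v⟫_ℂ = p' := by
    rw [(hU'.ul z0').one]
    change ⟪v, (p' : ℂ) • v⟫_ℂ = p'
    rw [inner_smul_right, hvv, mul_one]
  rw [e1] at h1
  rw [e2] at h2
  have h3 := h1.add h2
  have n1 := neg_both h.sys h'.sys he' f12 v
  have n2 := neg_none h.sys he' f1 f2 v fun ε hε => by
    obtain ⟨r, hr⟩ := ty ε hε
    refine ⟨r, ?_⟩
    have h5 : ∀ᶠ N : ℕ in (𝒰 : Filter ℕ),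
        ‖st mp {γ | r < H1 γ ∧ r < H2 γ} (π (b ^ N)⁻¹ v)‖ ≤ ε := h𝒰 hr
    rw [ut, Ultrafilter.coe_map, Filter.eventually_map]
    filter_upwards [h5] with N hN
    rw [inv_pow]
    exact hN
  have hb1 : ∀ w : E, ‖(fun g => π g) w v‖ ≤ 1 := fun w => (hR.norm_le w v).trans hv.le
  have lim : ∀ N : Set Γ, Tendsto (fun w => ‖st mp N ((fun g => π g) w v)‖)
      (ut b 𝒰 : Filter E) (𝓝 0) → Tendsto (fun w => ⟪(fun g => π g) w v,
        st mp N ((fun g => π g) w v)⟫_ℂ) (ut b 𝒰 : Filter E) (𝓝 0) := by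
    intro N hN
    refine squeeze_zero_norm (fun w => ?_) hN
    exact (norm_inner_le_norm _ _).trans (mul_le_of_le_one_left (norm_nonneg _) (hb1 w))
  have l1 := lim _ n1
  have l2 := lim _ n2
  have h6 : Tendsto (fun w => 1 + ⟪(fun g => π g) w v, st mp {γ | H1 γ ≤ G1 γ ∧ H2 γ ≤ G2 γ}
      ((fun g => π g) w v)⟫_ℂ - ⟪(fun g => π g) w v, st mp {γ | G1 γ < H1 γ ∧ G2 γ < H2 γ}
      ((fun g => π g) w v)⟫_ℂ) (ut b 𝒰 : Filter E) (𝓝 1) := by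
    have := ((tendsto_const_nhds (x := (1 : ℂ))).add l1).sub l2
    rwa [add_zero, sub_zero] at this
  have h7 : ((p : ℂ) + p') = 1 := by
    refine tendsto_nhds_unique h3 (h6.congr fun w => ?_)
    have c1 : H859.CL.cfc G1 H1 bp (1 : C(Y, ℂ)) =
        fun g => ((ind (fun g => H1 g ≤ G1 g) g : ℝ) : ℂ) := by
      funext g; simp [H859.CL.cfc]
    have c2 : H859.CL.cfc G2 H2 bp' (1 : C(Y', ℂ)) =
        fun g => ((ind (fun g => H2 g ≤ G2 g) g : ℝ) : ℂ) := by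
      funext g; simp [H859.CL.cfc]
    have c3 : ∀ x : K, st mp {γ | H1 γ ≤ G1 γ ∧ H2 γ ≤ G2 γ} x + x =
        (mp (ind fun g => H1 g ≤ G1 g) x + mp (ind fun g => H2 g ≤ G2 g) x) +
          st mp {γ | G1 γ < H1 γ ∧ G2 γ < H2 γ} x := by
      intro x
      rw [st, st]
      have b1 := fun (P : Γ → Prop) => abs_ind_le P
      have d1 := hf.add_ap (F := ind fun g => H1 g ≤ G1 g) (G := ind fun g => H2 g ≤ G2 g)
        (b1 _) (b1 _) x
      have d2 := hf.add_ap (F := ind fun g => g ∈ {γ : Γ | H1 γ ≤ G1 γ ∧ H2 γ ≤ G2 γ})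
        (G := fun _ => (1 : ℝ)) (D := 1) (b1 _) (fun g => by simp) x
      have d3 := hf.add_ap (F := fun g => ind (fun g => H1 g ≤ G1 g) g + ind (fun g => H2 g ≤ G2 g) g)
        (G := ind fun g => g ∈ {γ : Γ | G1 γ < H1 γ ∧ G2 γ < H2 γ}) (C := 2) (D := 1)
        (fun g => (abs_add_le _ _).trans (by
          have q1 := b1 (fun g => H1 g ≤ G1 g) g
          have q2 := b1 (fun g => H2 g ≤ G2 g) g
          linarith)) (b1 _) x
      rw [hf.one_ap] at d2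
      rw [← d1, ← d2, ← d3]
      congr 2
      funext g
      by_cases k1 : H1 g ≤ G1 g
      · by_cases k2 : H2 g ≤ G2 g
        · rw [ind_pos (P := fun g => H1 g ≤ G1 g) k1, ind_pos (P := fun g => H2 g ≤ G2 g) k2,
            ind_pos (P := fun g => g ∈ {γ : Γ | H1 γ ≤ G1 γ ∧ H2 γ ≤ G2 γ}) ⟨k1, k2⟩,
            ind_neg (P := fun g => g ∈ {γ : Γ | G1 γ < H1 γ ∧ G2 γ < H2 γ})
              (fun h0 => absurd k1 (not_le.2 h0.1))]
          ring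
        · rw [ind_pos (P := fun g => H1 g ≤ G1 g) k1, ind_neg (P := fun g => H2 g ≤ G2 g) k2,
            ind_neg (P := fun g => g ∈ {γ : Γ | H1 γ ≤ G1 γ ∧ H2 γ ≤ G2 γ}) (fun h0 => k2 h0.2),
            ind_neg (P := fun g => g ∈ {γ : Γ | G1 γ < H1 γ ∧ G2 γ < H2 γ})
              (fun h0 => absurd k1 (not_le.2 h0.1))]
          ring
      · by_cases k2 : H2 g ≤ G2 g
        · rw [ind_neg (P := fun g => H1 g ≤ G1 g) k1, ind_pos (P := fun g => H2 g ≤ G2 g) k2,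
            ind_neg (P := fun g => g ∈ {γ : Γ | H1 γ ≤ G1 γ ∧ H2 γ ≤ G2 γ}) (fun h0 => k1 h0.1),
            ind_neg (P := fun g => g ∈ {γ : Γ | G1 γ < H1 γ ∧ G2 γ < H2 γ})
              (fun h0 => absurd k2 (not_le.2 h0.2))]
          ring
        · rw [ind_neg (P := fun g => H1 g ≤ G1 g) k1, ind_neg (P := fun g => H2 g ≤ G2 g) k2,
            ind_neg (P := fun g => g ∈ {γ : Γ | H1 γ ≤ G1 γ ∧ H2 γ ≤ G2 γ}) (fun h0 => k1 h0.1),
            ind_pos (P := fun g => g ∈ {γ : Γ | G1 γ < H1 γ ∧ G2 γ < H2 γ})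
              ⟨not_le.1 k1, not_le.1 k2⟩]
          ring
    have c4 : ∀ F : Γ → ℝ, ⟪v, PC mp (fun g => π g) w (fun g => ((F g : ℝ) : ℂ)) v⟫_ℂ =
        ⟪(fun g => π g) w v, mp F ((fun g => π g) w v)⟫_ℂ := by
      intro F
      rw [PC_real hf]
      change ⟪v, π w⁻¹ (mp F (π w v))⟫_ℂ = _
      have := hR.inner_right w⁻¹ v (mp F (π w v))
      rw [inv_inv] at this
      exact this
    have h8 : ⟪π w v, π w v⟫_ℂ = 1 := by
      have h9 := hR.norm_eq w v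
      have h10 : ‖π w v‖ = 1 := by
        change ‖π w v‖ = ‖π 1 v‖ at h9
        rw [h9, map_one]; exact hv
      rw [inner_self_eq_norm_sq_to_K, h10]; simp
    dsimp only at c3 c4 ⊢
    rw [c1, c2, c4, c4, ← inner_add_right]
    have c5 := congrArg (fun y => ⟪π w v, y⟫_ℂ) (c3 (π w v))
    simp only [inner_add_right] at c5 ⊢
    rw [h8] at c5
    linear_combination c5
  exact_mod_cast h7

end sum

end Vale.Agent.P092.CL
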