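import Vale.Agent.P092.CL.ExL
import Vale.Agent.P092.CL.Flip
import Vale.Agent.P092.H71.P.CLPB
import Vale.Agent.P092.H805.RowN
import Vale.Agent.P092.H684.Psp6

/-!
P092, Team P, stages 2 and 3 (helper805), [CL-EX]: the lifts of a lattice of an admissible source
group, and the base record of the first leg of the concrete picture.
-/

set_option linter.all false

open scoped InnerProductSpace ENNReal
open Filter Topology ContinuousLinearMap MeasureTheory TopologicalSpace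

namespace Vale.Agent.P092.CL

open Vale.Agent.P092.SR Vale.Agent.P092.H160
open Vale.Agent.P092.RC (Moore KK pic lam₁ lam₂ XX Om Pic PicF TRNF)
open Vale.Agent.P092.SD (Ms MsF)
open Vale.Agent.P092.H103 (mS₁ ms₁ uc₁)
open Vale.Agent.P092.H933 (LeviGap LocK)
open Vale.Agent.P092.H859.CL (st Leg)
open Vale.Agent.P092.H805.Row (mpE)
open Vale.Agent.P092.H805.RowN (Bd Bf msE)

/-! ### One vector is a family -/

section one

variable {G Γ K : Type} [Group G] [TopologicalSpace G] [Group Γ] [NormedAddCommGroup K]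
  [InnerProductSpace ℂ K] [CompleteSpace K] {π : G →* (K →L[ℂ] K)} {lam : Γ →* (K →L[ℂ] K)}
  {W : Set (K →L[ℂ] K)} {Ω : K} {m : Set Γ → (K →L[ℂ] K)}

theorem trnf_one (T : K →L[ℂ] K) :
    TRNF lam (fun _ : Unit => Ω) T = RC.TRN lam Ω T := by
  simp [TRNF]

theorem picF_of (h : RC.PicX π lam W Ω) : PicF π lam W fun _ : Unit => Ω where
  adjP := h.adjP
  contP := h.contP
  adjL := h.adjL
  comm := h.comm
  Wadj := h.Wadj
  WP := h.WP
  WL := h.WL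
  nΩ := by simp [h.nΩ]
  erg := h.erg
  tr_adj T hT := by rw [trnf_one, trnf_one]; exact h.tr_adj T hT
  tr_conj T hT g := by rw [trnf_one, trnf_one]; exact h.tr_conj T hT g
  tr_zero T hT h0 := h.tr_zero T hT (by rwa [trnf_one] at h0)
  hs_erg S hS T hT h0 h1 := h.hs_erg S hS T hT (by rwa [trnf_one] at h0) h1
  inv := by
    obtain ⟨Ω', h1, h2⟩ := h.inv
    refine ⟨1, fun _ => Ω', by simp [h1], fun T hT hc γ => ?_⟩
    simpa using h2 T hT hc γ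

theorem msF_of (h : Ms lam W Ω m) : MsF lam W (fun _ : Unit => Ω) m where
  adj := h.adj
  inf := h.inf
  compl := h.compl
  cm := h.cm
  cov := h.cov
  om _ := h.om
  fin := h.fin
  cyc ξ hξ := by
    have h1 := h.cyc ξ hξ
    have e : {η : K | ∃ _ : Unit, ∃ w ∈ StarAlgebra.adjoin ℂ W, η = w Ω} =
        {η : K | ∃ w ∈ StarAlgebra.adjoin ℂ W, η = w Ω} :=
      Set.ext fun η => ⟨fun ⟨_, h⟩ => h, fun h => ⟨(), h⟩⟩
    rw [e]
    exact h1

end one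

/-! ### The lifts -/

section lift

variable {S P M V₁ V₂ : Type} [Group S] [MeasurableSpace V₁] [MeasurableSpace V₂]
  {L : Lt S P M V₁ V₂} [TopologicalSpace S] [MulAction S P] [TopologicalSpace P] [CompactSpace P]
  [ContinuousConstSMul S P] [MulAction S M] [TopologicalSpace M] [CompactSpace M]
  [ContinuousConstSMul S M] [NormedAddCommGroup V₁] [NormedAddCommGroup V₂]
  {E : Type} [Group E] [TopologicalSpace E] {ι : S →* E} {Γ : Subgroup E} {q : Γ → S}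

theorem ker_div (h : Adm L ι) {g g' : S} (e : ι g = ι g') : ∃ z ∈ L.Z, g = z * g' :=
  ⟨g * g'⁻¹, h.ker _ (by rw [map_mul, map_inv, e, mul_inv_cancel]), (inv_mul_cancel_right _ _).symm⟩

theorem ph_lift (h : Adm L ι) (hq : ∀ γ, ι (q γ) = γ) : L.PH q := fun γ γ' =>
  ker_div h (by rw [map_mul, hq, hq, hq]; rfl)

theorem inj_lift (hG : Geo L) (h : Adm L ι) (hq : ∀ γ, ι (q γ) = γ)
    (hicc : ∀ g : Γ, g ≠ 1 → Set.Infinite {y : Γ | ∃ h, y = h * g * h⁻¹}) (γ : Γ)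
    (hγ : q γ ∈ L.Z) : γ = 1 := by
  by_contra hne
  refine hicc γ hne ((Set.finite_singleton γ).subset ?_)
  rintro _ ⟨x, rfl⟩
  rw [Set.mem_singleton_iff]
  apply Subtype.ext
  change (x : E) * (γ : E) * (x : E)⁻¹ = γ
  rw [← hq γ, ← hq x, ← map_inv, ← map_mul, ← map_mul, ← hG.z_comm _ hγ, mul_inv_cancel_right]

theorem sc_S (hG : Geo L) : SigmaCompactSpace S := by
  refine ⟨⟨fun n => {g : S | L.nm g ≤ n}, fun n => hG.nm_cpt n, ?_⟩⟩
  rw [Set.eq_univ_iff_forall]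
  intro g
  obtain ⟨n, hn⟩ := exists_nat_ge (L.nm g)
  exact Set.mem_iUnion.2 ⟨n, hn⟩

theorem ncE (hG : Geo L) (h : Adm L ι) : NoncompactSpace E := by
  rw [← Filter.cocompact_neBot_iff]
  exact (h.coc _ hG.nm_b1).neBot

theorem coc_b1 (hG : Geo L) (h : Adm L ι) :
    Tendsto (fun n : ℕ => (ι L.b1) ^ n) atTop (cocompact E) :=
  (h.coc _ hG.nm_b1).congr fun n => map_pow ι _ _

theorem coc_b2 (hG : Geo L) (h : Adm L ι) :
    Tendsto (fun n : ℕ => (ι L.b2) ^ n) atTop (cocompact E) :=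
  (h.coc _ hG.nm_b2).congr fun n => map_pow ι _ _

variable [IsTopologicalGroup E] [LocallyCompactSpace E] [T2Space E]

/-- finitely many elements of bounded size -/
theorem fin_lift (hG : Geo L) (h : Adm L ι) [DiscreteTopology Γ] (hq : ∀ γ, ι (q γ) = γ) (C : ℝ) :
    {γ : Γ | L.nm (q γ) ≤ C}.Finite := by
  have h1 : IsCompact (ι '' {g : S | L.nm g ≤ C}) := (hG.nm_cpt C).image h.cι
  refine (H790.finite_inter Γ h1).subset fun γ hγ => ?_
  exact ⟨q γ, hγ, hq γ⟩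

variable [MeasurableSpace (E ⧸ Γ)] [BorelSpace (E ⧸ Γ)] {ν : Measure (E ⧸ Γ)}
  [IsProbabilityMeasure ν]

/-- the preimage of the lattice in `S` -/
theorem covol_lift (hG : Geo L) (h : Adm L ι) (hν : ∀ g : E, ν.map (fun x => g • x) = ν) :
    H514.NI.Covol (Γ.comap ι) := by
  haveI := hG.tg
  haveI := sc_S hG
  exact covol_comap h.cι h.sur hν

theorem prox1_lift (hG : Geo L) (h : Adm L ι) (hν : ∀ g : E, ν.map (fun x => g • x) = ν)
    (hq : ∀ γ, ι (q γ) = γ) (z : P) (D : Set P) (hD : IsCompact D)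
    (hDo : ∀ y ∈ D, L.opp1 y z) (U : Set P) (hU : IsOpen U) (hUn : U.Nonempty) :
    ∃ γ, ∀ y ∈ D, q γ • y ∈ U := by
  obtain ⟨g, hg, h1⟩ := hG.prox1 _ (covol_lift hG h hν) z D hD hDo U hU hUn
  refine ⟨⟨ι g, hg⟩, fun y hy => ?_⟩
  rw [fibX h hG.z_P (g' := g) (hq ⟨ι g, hg⟩)]
  exact h1 y hy

theorem prox2_lift (hG : Geo L) (h : Adm L ι) (hν : ∀ g : E, ν.map (fun x => g • x) = ν)
    (hq : ∀ γ, ι (q γ) = γ) (z : M) (D : Set M) (hD : IsCompact D)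
    (hDo : ∀ y ∈ D, L.opp2 y z) (U : Set M) (hU : IsOpen U) (hUn : U.Nonempty) :
    ∃ γ, ∀ y ∈ D, q γ • y ∈ U := by
  obtain ⟨g, hg, h1⟩ := hG.prox2 _ (covol_lift hG h hν) z D hD hDo U hU hUn
  refine ⟨⟨ι g, hg⟩, fun y hy => ?_⟩
  rw [fibX h hG.z_M (g' := g) (hq ⟨ι g, hg⟩)]
  exact h1 y hy

theorem nis_lift1 (hG : Geo L) (h : Adm L ι) (hν : ∀ g : E, ν.map (fun x => g • x) = ν)
    (hq : ∀ γ, ι (q γ) = γ)
    (φ : C(P, ℂ) →ₗ[ℂ] ℂ) (h1 : ∀ f, 0 ≤ (φ (star f * f)).re) (h2 : φ 1 = 1)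
    (h3 : ∀ γ, ∀ f f' : C(P, ℂ), (∀ x, f' (q γ • x) = f x) → φ f' = φ f) : False := by
  refine hG.nis1 _ (covol_lift hG h hν) φ h1 h2 fun g hg f f' hf => ?_
  refine h3 ⟨ι g, hg⟩ f f' fun x => ?_
  rw [fibX h hG.z_P (g' := g) (hq ⟨ι g, hg⟩)]
  exact hf x

theorem nis_lift2 (hG : Geo L) (h : Adm L ι) (hν : ∀ g : E, ν.map (fun x => g • x) = ν)
    (hq : ∀ γ, ι (q γ) = γ)
    (φ : C(M, ℂ) →ₗ[ℂ] ℂ) (h1 : ∀ f, 0 ≤ (φ (star f * f)).re) (h2 : φ 1 = 1)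
    (h3 : ∀ γ, ∀ f f' : C(M, ℂ), (∀ x, f' (q γ • x) = f x) → φ f' = φ f) : False := by
  refine hG.nis2 _ (covol_lift hG h hν) φ h1 h2 fun g hg f f' hf => ?_
  refine h3 ⟨ι g, hg⟩ f f' fun x => ?_
  rw [fibX h hG.z_M (g' := g) (hq ⟨ι g, hg⟩)]
  exact hf x

end lift

section pb

variable {S P M V₁ V₂ : Type} [Group S] [MeasurableSpace V₁] [MeasurableSpace V₂]
  {L : Lt S P M V₁ V₂} [TopologicalSpace S] [MulAction S P] [TopologicalSpace P] [CompactSpace P]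
  [ContinuousConstSMul S P] [MulAction S M] [TopologicalSpace M] [CompactSpace M]
  [ContinuousConstSMul S M] [NormedAddCommGroup V₁] [NormedAddCommGroup V₂]
  [ProperSpace V₁] [ProperSpace V₂] [BorelSpace V₁] [BorelSpace V₂]
  {E : Type} [Group E] [TopologicalSpace E] [IsTopologicalGroup E] [LocallyCompactSpace E]
  [SecondCountableTopology E] [T2Space E] [MeasurableSpace E] [BorelSpace E] {ι : S →* E}
  {Γ : Subgroup E} [DiscreteTopology Γ] [Countable Γ] [MeasurableSpace (E ⧸ Γ)]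
  [BorelSpace (E ⧸ Γ)] {ν : Measure (E ⧸ Γ)} [IsProbabilityMeasure ν]
  (hν : ∀ g : E, ν.map (fun x => g • x) = ν)
  {Λ : Type} [Group Λ] [Countable Λ] {α : Γ →* (Ell2 Λ →L[ℂ] Ell2 Λ)} (hα : Frame α)

/-- **The base record of the first leg.** -/
theorem pb₁ (hG : Geo L) (h : Adm L ι) (f1 : IsFiniteMeasureOnCompacts L.μ₁)
    (f2 : IsFiniteMeasureOnCompacts L.μ₂) (hs : H71.CLO.SprL L) {𝒰 : Ultrafilter ℕ}
    (h𝒰 : (𝒰 : Filter ℕ) ≤ atTop)
    (hΛ : ∀ g : Λ, g ≠ 1 → Set.Infinite {y : Λ | ∃ h, y = h * g * h⁻¹})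
    (g1 : LeviGap (ι L.b1)) (g2 : LeviGap (ι L.b2)) {q : Γ → S} (hq : ∀ γ, ι (q γ) = γ) :
    PB L 𝒰 ι (pic hν hα) (lam₁ ν α) (XX ν Λ ∪ Set.range (lam₂ ν α)) (Om ν Λ) (mS₁ ν hα) q := by
  haveI := ncE hG h
  have hph := ph_lift h hq
  have hfin := fin_lift hG h hq
  have ho := H71.CLO.pbo₁ hν hα hΛ hG h f1 f2 hs hph g1 g2
  exact
    { adm := h
      h𝒰 := h𝒰
      pic := H53.TwX.toX (H805.RowN.picE hν hα hΛ)
      ms := ho.ms
      uc := ho.uc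
      ph := hph
      fin := hfin
      ud := ud_of_fin hG hph hfin
      orb1 := ho.orb1
      orb2 := ho.orb2
      orb2' := ho.orb2'
      size1 := ho.size1
      size2 := ho.size2
      prox1 := prox1_lift hG h hν hq
      prox2 := prox2_lift hG h hν hq
      nis1 := nis_lift1 hG h hν hq
      nis2 := nis_lift2 hG h hν hq }

/-- **One leg**: the first leg of the concrete picture over `E`. -/
theorem leg₁ (hG : Geo L) {T : Gau S P M} (hT : GauOk L T) (hO : OvlStmt L T) (h : Adm L ι)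
    (f1 : IsFiniteMeasureOnCompacts L.μ₁) (f2 : IsFiniteMeasureOnCompacts L.μ₂)
    (hs : H71.CLO.SprL L) {𝒰 : Ultrafilter ℕ} (h𝒰 : (𝒰 : Filter ℕ) ≤ atTop)
    (hΛ : ∀ g : Λ, g ≠ 1 → Set.Infinite {y : Λ | ∃ h, y = h * g * h⁻¹})
    (g1 : LeviGap (ι L.b1)) (g2 : LeviGap (ι L.b2)) {q : Γ → S} (hq : ∀ γ, ι (q γ) = γ)
    (hW1 : Wal (mpE ν hα) (pic hν hα) (Bd ν hα) (msE hν hα) T q (Om ν Λ) (ι L.b1))
    (hW2 : Wal (mpE ν hα) (pic hν hα) (Bd ν hα) (msE hν hα) T q (Om ν Λ) (ι L.b2)) :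
    HasLeg L 𝒰 ι (pic hν hα) (lam₁ ν α) (XX ν Λ ∪ Set.range (lam₂ ν α)) (Om ν Λ)
      (mS₁ ν hα) q := by
  haveI := ncE hG h
  have hb : PB L 𝒰 ι (pic hν hα) (lam₁ ν α) (XX ν Λ ∪ Set.range (lam₂ ν α)) (Om ν Λ)
      (mS₁ ν hα) q := pb₁ hν hα hG h f1 f2 hs h𝒰 hΛ g1 g2 hq
  have hp := H805.RowN.picE hν hα hΛ
  have est : st (mpE ν hα) = mS₁ ν hα := H805.RowN.st_eq hα
  have hms : SD.Ms (lam₁ ν α) (XX ν Λ ∪ Set.range (lam₂ ν α)) (Om ν Λ) (st (mpE ν hα)) := by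
    rw [est]; exact hb.ms
  have hL : Leg (mpE ν hα) (fun g => pic hν hα g) (fun γ => lam₁ ν α γ)
      (XX ν Λ ∪ Set.range (lam₂ ν α)) :=
    H76.Dicho.leg_of_pic hp (H805.RowN.mcovE hν hα) (H805.RowN.mWE hν hα)
  obtain ⟨U11, p11, U12, p12, U21, p21, U22, p22, H⟩ := legQ_of (q := q) (v0 := Om ν Λ) hG hT hO h
    h𝒰 (picF_of hb.pic) (msF_of hms) hb.ph hb.fin hb.nis1 hb.nis2 hL
    (H805.RowN.slowE hν hα) (H805.RowN.locE hν hα) hb.pic.nΩ hW1 hW2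
  rw [est] at H
  exact ⟨U11, p11, U12, p12, U21, p21, U22, p22, H.leg hb⟩

end pb

end Vale.Agent.P092.CL
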