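import Vale.Agent.P092.CL.ExF

/-!
P092, Team P, stages 2 and 3 (helper805), [CL-EX]: `legQ_of`, the four families of one leg and exact
incidence, from the geometry, the gauges and the analytic input of the two walls; families of
vectors.
-/

set_option linter.all false

open scoped InnerProductSpace ENNReal
open Filter Topology ContinuousLinearMap MeasureTheory TopologicalSpace

namespace Vale.Agent.P092.CL

open Vale.Agent.P092.RC (Moore Cm PicF)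
open Vale.Agent.P092.SD (MsF)
open Vale.Agent.P092.H232 (Nin)
open Vale.Agent.P092.H43 (Loc2)
open Vale.Agent.P092.H76.Pur (NIS)
open Vale.Agent.P092.H859.CL (st BB FF cn pw Esc Slow Leg)
open Vale.Agent.P092.H486.Eng (GeoU UFamE)
open Vale.Agent.P092.SP.X (Erg ufam_gen ufam_incF agr_famF)

section fam

variable {S : Type} [Group S] {E Γ K κ : Type} [Group E]
  [TopologicalSpace E] [Group Γ] [NormedAddCommGroup K] [InnerProductSpace ℂ K] [CompleteSpace K]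
  [Fintype κ] {ι : S →* E} {π : E →* (K →L[ℂ] K)} {lam : Γ →* (K →L[ℂ] K)} {W : Set (K →L[ℂ] K)}
  {Ω : κ → K} {mp : (Γ → ℝ) → (K →L[ℂ] K)} {q : Γ → S} {𝒰 : Ultrafilter ℕ}
  {X Y : Type} [MulAction S X] [MulAction E X] [TopologicalSpace Y] [CompactSpace Y]
  [MulAction S Y] [ContinuousConstSMul S Y] [MulAction Γ Y]

/-- a family of the engine in the letters of `CL/Defs` -/
theorem ufam_of (hX : ∀ (g : S) (x : X), ι g • x = g • x)
    (hY : ∀ (γ : Γ) (y : Y), γ • y = q γ • y) (hs : Function.Surjective ι) (hp : PicF π lam W Ω)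
    {B : S} {z0 : X} {U : X → (C(Y, ℂ) →ₗ[ℂ] (K →L[ℂ] K))} {p : ℝ} {G1 G2 : Γ → ℝ}
    {bp : Γ → Y} {NA : ℝ → ℝ → Set Y → Set Γ}
    (hU : UFamE mp π lam W (ι B) G1 G2 bp 𝒰 NA z0 U p) (hNI : NIS fun γ (y : Y) => q γ • y)
    (hS : ∀ v v' : X, Moore (ι '' {h : S | h • v = v ∧ h • v' = v'}))
    (hgen : ∀ v v' : X, v ≠ v' →
      Subgroup.closure ({h : S | h • v = v} ∪ {h : S | h • v' = v'}) = ⊤) :
    UFam 𝒰 B z0 ι π lam W (st mp) q NA U p where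
  ul := hU.ul
  cm := hU.cm
  cov γ v f := hU.cov γ v f _ fun y => by
    rw [hY]
    change f ((q γ)⁻¹ • q γ • y) = f y
    rw [inv_smul_smul]
  pcov g v f := by
    rw [← hX]
    exact hU.pcov (ι g) v f
  dom g u A hA hu ζ ε hε := by
    obtain ⟨R, hR⟩ := hU.dom (ι g) u A hA hu ζ ε hε
    refine ⟨R, fun T hT => ?_⟩
    filter_upwards [hR T hT] with N hN
    have e : ι (g * B ^ N * g⁻¹) = ι g * ι B ^ N * (ι g)⁻¹ := by
      rw [map_mul, map_mul, map_inv, map_pow]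
    rw [← hX, e]
    exact hN
  agr hp0 v v' hne := agr_famF hp ι hs hU.ul hp0 hU.cm
    (H494.PAg.hact_of_act q) hNI
    (fun v γ f f' hf => hU.cov γ v f f' fun y => by rw [hY]; exact hf y)
    (fun h v f => by rw [← hX]; exact hU.pcov (ι h) v f) (hS v v') (hgen v v' hne)

end fam

section leg

variable {S P M V₁ V₂ : Type} [Group S] [MeasurableSpace V₁] [MeasurableSpace V₂]
  {L : Lt S P M V₁ V₂} [TopologicalSpace S] [MulAction S P] [TopologicalSpace P] [CompactSpace P]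
  [ContinuousConstSMul S P] [MulAction S M] [TopologicalSpace M] [CompactSpace M]
  [ContinuousConstSMul S M] [NormedAddCommGroup V₁] [NormedAddCommGroup V₂]
  {E Γ K κ : Type} [Group E] [TopologicalSpace E] [Group Γ] [NormedAddCommGroup K]
  [InnerProductSpace ℂ K] [CompleteSpace K] [Fintype κ] {ι : S →* E} {π : E →* (K →L[ℂ] K)}
  {lam : Γ →* (K →L[ℂ] K)} {W : Set (K →L[ℂ] K)} {Ω : κ → K} {mp : (Γ → ℝ) → (K →L[ℂ] K)}
  {Bd Bf : Set K} {ms : E → Set Γ → ℝ} {q : Γ → S} {𝒰 : Ultrafilter ℕ} {T : Gau S P M} {v0 : K}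

/-! ### Moore sets -/

theorem moore_st {X : Type} [MulAction S X] (h : Adm L ι)
    (hu : ∀ (x y : X) (C : ℝ), ∃ g : S, g • x = x ∧ g • y = y ∧ C ≤ L.nm g) (x y : X) :
    Moore (ι '' {g : S | g • x = x ∧ g • y = y}) :=
  h.moore _ fun C => by
    obtain ⟨g, h1, h2, h3⟩ := hu x y C
    exact ⟨g, ⟨h1, h2⟩, h3⟩

theorem moore_x {X : Type} [MulAction S X] (h : Adm L ι)
    (hz : ∀ z ∈ L.Z, ∀ x : X, z • x = x)
    (hu : ∀ (x y : X) (C : ℝ), ∃ g : S, g • x = x ∧ g • y = y ∧ C ≤ L.nm g) (x : X) :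
    letI := actE h hz
    Moore {e : E | e • x = x} := by
  letI := actE h hz
  have h1 : ι '' {g : S | g • x = x ∧ g • x = x} ⊆ {e : E | e • x = x} := by
    rintro _ ⟨g, hg, rfl⟩
    change ι g • x = x
    rw [actE_ι h hz]
    exact hg.1
  intro E₁ _ _ _ u hu1 hu2 ξ hξ g
  exact moore_st h hu x x E₁ u hu1 hu2 ξ (fun g hg => hξ g (h1 hg)) g

/-- the conjugates of the root group `u1`, in `E` -/
def SU (L : Lt S P M V₁ V₂) (ι : S →* E) (g : S) : Set E :=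
  ι '' {n : S | ∃ s, n = g * L.u1 s * g⁻¹}

theorem moore_SU (hG : Geo L) (h : Adm L ι) (g : S) : Moore (SU L ι g) :=
  h.moore _ fun C => by
    obtain ⟨s, hs⟩ := hG.unbu g C
    exact ⟨_, ⟨s, rfl⟩, hs⟩

theorem contr_SU (h : Adm L ι) (g : S) {b : S}
    (hb : ∀ s, Tendsto (fun N : ℕ => (b ^ N)⁻¹ * L.u1 s * b ^ N) atTop (𝓝 1)) :
    ∀ n ∈ SU L ι g,
      Tendsto (fun N : ℕ => (ι b ^ N)⁻¹ * ((ι g)⁻¹ * n * ι g) * ι b ^ N) atTop (𝓝 1) := by
  rintro _ ⟨n, ⟨s, rfl⟩, rfl⟩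
  have h1 : Tendsto (fun N : ℕ => ι ((b ^ N)⁻¹ * L.u1 s * b ^ N)) atTop (𝓝 (ι 1)) :=
    (h.cι.tendsto 1).comp (hb s)
  rw [map_one] at h1
  refine h1.congr fun N => ?_
  have e : g⁻¹ * (g * L.u1 s * g⁻¹) * g = L.u1 s := by group
  rw [← map_inv, ← map_mul, ← map_mul, e, ← map_pow, ← map_inv, ← map_mul, ← map_mul]

theorem map_par (hc : Continuous ι) {b g : S} (h : ∃ v n : S, g = v * n ∧ v * b = b * v ∧
      Tendsto (fun N : ℕ => (b ^ N)⁻¹ * n * b ^ N) atTop (𝓝 1)) :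
    ∃ v n : E, ι g = v * n ∧ v * ι b = ι b * v ∧
      Tendsto (fun N : ℕ => (ι b ^ N)⁻¹ * n * ι b ^ N) atTop (𝓝 1) := by
  obtain ⟨v, n, rfl, h2, h3⟩ := h
  refine ⟨ι v, ι n, map_mul _ _ _, by rw [← map_mul, h2, map_mul], ?_⟩
  have h4 : Tendsto (fun N : ℕ => ι ((b ^ N)⁻¹ * n * b ^ N)) atTop (𝓝 (ι 1)) :=
    (hc.tendsto 1).comp h3
  rw [map_one] at h4
  exact h4.congr fun N => by rw [map_mul, map_mul, map_inv, map_pow]

/-- **[CL-EX] The four families of one leg.** -/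
theorem legQ_of (hG : Geo L) (hT : GauOk L T) (hO : OvlStmt L T) (h : Adm L ι)
    (h𝒰 : (𝒰 : Filter ℕ) ≤ atTop) (hp : PicF π lam W Ω) (hms : MsF lam W Ω (st mp))
    (hph : L.PH q) (hfin : ∀ C : ℝ, {γ | L.nm (q γ) ≤ C}.Finite)
    (nis1 : NIS fun γ (y : P) => q γ • y) (nis2 : NIS fun γ (y : M) => q γ • y)
    (hL : Leg mp (fun g => π g) (fun γ => lam γ) W) (hS : Slow mp (fun g => π g) Bd)
    (hloc : Loc2 mp (fun g => π g) Bd Bf) (hv : ‖v0‖ = 1)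
    (hW1 : Wal mp π Bd ms T q v0 (ι L.b1)) (hW2 : Wal mp π Bd ms T q v0 (ι L.b2)) :
    ∃ (U11 : P → (C(P, ℂ) →ₗ[ℂ] (K →L[ℂ] K))) (p11 : ℝ)
      (U12 : P → (C(M, ℂ) →ₗ[ℂ] (K →L[ℂ] K))) (p12 : ℝ)
      (U21 : M → (C(P, ℂ) →ₗ[ℂ] (K →L[ℂ] K))) (p21 : ℝ)
      (U22 : M → (C(M, ℂ) →ₗ[ℂ] (K →L[ℂ] K))) (p22 : ℝ),
      LegQ L 𝒰 ι π lam W (st mp) q U11 p11 U12 p12 U21 p21 U22 p22 := by
  have hE : Erg π lam W := hp.erg
  have hud : L.UD q := ud_of_fin hG hph hfin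
  have s11 := H486.Eng.sysF_cn hW1.s1
  have s12 := H486.Eng.sysF_cn hW1.s2
  have s21 := H486.Eng.sysF_cn hW2.s1
  have s22 := H486.Eng.sysF_cn hW2.s2
  have e1 := hW1.esc
  have e2 := hW2.esc
  have f1 := fin_G1 (q := q) hT hfin
  have f2 := fin_G2 (q := q) hT hfin
  have f12 := fin_H (q := q) hT hfin
  letI aP : MulAction E P := actE h hG.z_P
  letI aL : MulAction E M := actE h hG.z_M
  letI gP : MulAction Γ P := actQ hph hG.z_P
  letI gL : MulAction Γ M := actQ hph hG.z_M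
  have x1 : ∀ (g : S) (x : P), ι g • x = g • x := actE_ι h hG.z_P
  have x2 : ∀ (g : S) (x : M), ι g • x = g • x := actE_ι h hG.z_M
  have t1 : ∀ z : P, ∃ g : E, g • L.p0 = z := fun z => by
    obtain ⟨l, hl⟩ := hG.ex1 z
    obtain ⟨g, hg, -⟩ := hG.flag z l hl
    exact ⟨ι g, (x1 g _).trans hg⟩
  have t2 : ∀ z : M, ∃ g : E, g • L.m0 = z := fun z => by
    obtain ⟨x, hx⟩ := hG.ex2 z
    obtain ⟨g, -, hg⟩ := hG.flag x z hx
    exact ⟨ι g, (x2 g _).trans hg⟩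
  have k1 : ∀ e : E, e • L.p0 = L.p0 → ∃ v n : E, e = v * n ∧ v * ι L.b1 = ι L.b1 * v ∧
      Tendsto (fun N : ℕ => (ι L.b1 ^ N)⁻¹ * n * ι L.b1 ^ N) atTop (𝓝 1) := by
    intro e he
    obtain ⟨g, rfl⟩ := h.sur e
    rw [x1] at he
    exact map_par h.cι (hG.st1 g he)
  have k2 : ∀ e : E, e • L.m0 = L.m0 → ∃ v n : E, e = v * n ∧ v * ι L.b2 = ι L.b2 * v ∧
      Tendsto (fun N : ℕ => (ι L.b2 ^ N)⁻¹ * n * ι L.b2 ^ N) atTop (𝓝 1) := by
    intro e he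
    obtain ⟨g, rfl⟩ := h.sur e
    rw [x2] at he
    exact map_par h.cι (hG.st2 g he)
  have mo1 : Moore {e : E | e • L.p0 = L.p0} := moore_x h hG.z_P hG.unb1 L.p0
  have mo2 : Moore {e : E | e • L.m0 = L.m0} := moore_x h hG.z_M hG.unb2 L.m0
  have m1 : ∀ v v' : P, Moore (ι '' {g : S | g • v = v ∧ g • v' = v'}) := moore_st h hG.unb1
  have m2 : ∀ v v' : M, Moore (ι '' {g : S | g • v = v ∧ g • v' = v'}) := moore_st h hG.unb2
  obtain ⟨U11, p11, -, -, F11⟩ := ufam_gen (Y := P) (Z := P) (z0 := L.p0) h𝒰 hE hv mo1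
    s11 hL (geoU1 hG hT hph hfin) hS hloc e1 (domCut1 hT q) t1 k1
  obtain ⟨U12, p12, -, -, F12⟩ := ufam_gen (Y := M) (Z := P) (z0 := L.p0) h𝒰 hE hv mo1
    s12 hL (geoU2 hG hT hph hfin) hS hloc e1 (domCut2 hT q) t1 k1
  obtain ⟨U21, p21, -, -, F21⟩ := ufam_gen (Y := P) (Z := M) (z0 := L.m0) h𝒰 hE hv mo2
    s21 hL (geoU1 hG hT hph hfin) hS hloc e2 (domCut1 hT q) t2 k2
  obtain ⟨U22, p22, -, -, F22⟩ := ufam_gen (Y := M) (Z := M) (z0 := L.m0) h𝒰 hE hv mo2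
    s22 hL (geoU2 hG hT hph hfin) hS hloc e2 (domCut2 hT q) t2 k2
  refine ⟨U11, p11, U12, p12, U21, p21, U22, p22,
    { u11 := ?_
      u12 := ?_
      u21 := ?_
      u22 := ?_
      s1 := sum_ty h𝒰 hv s11 s12 f1 f2 f12 e1 hW1.ty F11 F12
      s2 := sum_ty h𝒰 hv s21 s22 f1 f2 f12 e2 hW2.ty F21 F22
      i11 := ?_
      i12 := ?_ }⟩
  · exact ufam_of (q := q) x1 (fun _ _ => rfl) h.sur hp F11 nis1 m1 hG.gen1
  · exact ufam_of (q := q) x1 (fun _ _ => rfl) h.sur hp F12 nis2 m1 hG.gen1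
  · exact ufam_of (q := q) x2 (fun _ _ => rfl) h.sur hp F21 nis1 m2 hG.gen2
  · exact ufam_of (q := q) x2 (fun _ _ => rfl) h.sur hp F22 nis2 m2 hG.gen2
  · intro c l hcl f g hfg
    obtain ⟨u, hu1, hu2⟩ := hG.flag c l hcl
    have hov := hO q hph hud (tsupport f) (tsupport g) (isClosed_tsupport f)
      (isClosed_tsupport g) hfg
    have hI := ufam_incF h𝒰 h𝒰 hp hms s11 s22 hL hS hS e1 e2 f1 f2 F11 F22 (ι u) (ι u)
      (moore_SU hG h u) (contr_SU h u hG.con1) (contr_SU h u hG.con2) f g hov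
    have := hI.1
    rw [x1, x2, hu1, hu2] at this
    exact this
  · intro c l hcl f g hfg
    obtain ⟨u, hu1, hu2⟩ := hG.flag c l hcl
    have hov := hO q hph hud (tsupport f) (tsupport g) (isClosed_tsupport f)
      (isClosed_tsupport g) hfg
    have hI := ufam_incF h𝒰 h𝒰 hp hms s21 s12 hL hS hS e2 e1 f1 f2 F21 F12 (ι u) (ι u)
      (moore_SU hG h u) (contr_SU h u hG.con2) (contr_SU h u hG.con1) f g hov
    have := hI.1
    rw [x1, x2, hu1, hu2] at this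
    exact this

end leg

end Vale.Agent.P092.CL
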