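import Vale.Agent.P092.CL.ExL

/-!
P092, Team P, stages 2 and 3 (helper805), [CL-EX]: `legQE_of`, the four families of one leg and exact
incidence as in `legQ_of`, together with the engine's records of the two families of points (for the
relations of higher order, helper486); families of vectors.
-/

set_option linter.all false

open scoped InnerProductSpace ENNReal
open Filter Topology ContinuousLinearMap MeasureTheory TopologicalSpace

namespace Vale.Agent.P092.CL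

open Vale.Agent.P092.RC (Moore Cm PicF)
open Vale.Agent.P092.SD (MsF)
open Vale.Agent.P092.H232 (Nin)
open Vale.Agent.P092.H43 (Loc2)
open Vale.Agent.P092.H76.Pur (NIS)
open Vale.Agent.P092.H859.CL (st BB FF cn pw Esc Slow Leg)
open Vale.Agent.P092.H486.Eng (GeoU UFamE)
open Vale.Agent.P092.SP.X (Erg ufam_gen ufam_incF agr_famF)

section leg

variable {S P M V₁ V₂ : Type} [Group S] [MeasurableSpace V₁] [MeasurableSpace V₂]
  {L : Lt S P M V₁ V₂} [TopologicalSpace S] [MulAction S P] [TopologicalSpace P] [CompactSpace P]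
  [ContinuousConstSMul S P] [MulAction S M] [TopologicalSpace M] [CompactSpace M]
  [ContinuousConstSMul S M] [NormedAddCommGroup V₁] [NormedAddCommGroup V₂]
  {E Γ K κ : Type} [Group E] [TopologicalSpace E] [Group Γ] [NormedAddCommGroup K]
  [InnerProductSpace ℂ K] [CompleteSpace K] [Fintype κ] {ι : S →* E} {π : E →* (K →L[ℂ] K)}
  {lam : Γ →* (K →L[ℂ] K)} {W : Set (K →L[ℂ] K)} {Ω : κ → K} {mp : (Γ → ℝ) → (K →L[ℂ] K)}
  {Bd Bf : Set K} {ms : E → Set Γ → ℝ} {q : Γ → S} {𝒰 : Ultrafilter ℕ} {T : Gau S P M} {v0 : K}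

/-- the engine's records of the two families of points -/
def RecP (hG : Geo L) (h : Adm L ι) (T : Gau S P M)
    (hph : L.PH q) (mp : (Γ → ℝ) → (K →L[ℂ] K)) (π : E →* (K →L[ℂ] K)) (lam : Γ →* (K →L[ℂ] K))
    (W : Set (K →L[ℂ] K)) (𝒰 : Ultrafilter ℕ) (U11 : P → (C(P, ℂ) →ₗ[ℂ] (K →L[ℂ] K))) (p11 : ℝ)
    (U21 : M → (C(P, ℂ) →ₗ[ℂ] (K →L[ℂ] K))) (p21 : ℝ) : Prop :=
  (letI := actE h hG.z_P
   letI := actQ hph hG.z_P
   UFamE mp π lam W (ι L.b1) (fun γ => T.G1 (q γ)) (fun γ => T.H1 (q γ)) (fun γ => T.bp (q γ)) 𝒰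
    (L.na1 q) L.p0 U11 p11) ∧
  (letI := actE h hG.z_M
   letI := actQ hph hG.z_P
   UFamE mp π lam W (ι L.b2) (fun γ => T.G1 (q γ)) (fun γ => T.H1 (q γ)) (fun γ => T.bp (q γ)) 𝒰
    (L.na1 q) L.m0 U21 p21)

/-- **[CL-EX] The four families of one leg**, with the records of the two families of points. -/
theorem legQE_of (hG : Geo L) (hT : GauOk L T) (hO : OvlStmt L T) (h : Adm L ι)
    (h𝒰 : (𝒰 : Filter ℕ) ≤ atTop) (hp : PicF π lam W Ω) (hms : MsF lam W Ω (st mp))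
    (hph : L.PH q) (hfin : ∀ C : ℝ, {γ | L.nm (q γ) ≤ C}.Finite)
    (nis1 : NIS fun γ (y : P) => q γ • y) (nis2 : NIS fun γ (y : M) => q γ • y)
    (hL : Leg mp (fun g => π g) (fun γ => lam γ) W) (hS : Slow mp (fun g => π g) Bd)
    (hloc : Loc2 mp (fun g => π g) Bd Bf) (hv : ‖v0‖ = 1)
    (hW1 : Wal mp π Bd ms T q v0 (ι L.b1)) (hW2 : Wal mp π Bd ms T q v0 (ι L.b2)) :
    ∃ (U11 : P → (C(P, ℂ) →ₗ[ℂ] (K →L[ℂ] K))) (p11 : ℝ)
      (U12 : P → (C(M, ℂ) →ₗ[ℂ] (K →L[ℂ] K))) (p12 : ℝ)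
      (U21 : M → (C(P, ℂ) →ₗ[ℂ] (K →L[ℂ] K))) (p21 : ℝ)
      (U22 : M → (C(M, ℂ) →ₗ[ℂ] (K →L[ℂ] K))) (p22 : ℝ),
      LegQ L 𝒰 ι π lam W (st mp) q U11 p11 U12 p12 U21 p21 U22 p22 ∧
      RecP hG h T hph mp π lam W 𝒰 U11 p11 U21 p21 := by
  have hE : Erg π lam W := hp.erg
  have hud : L.UD q := ud_of_fin hG hph hfin
  have s11 := H486.Eng.sysF_cn hW1.s1
  have s12 := H486.Eng.sysF_cn hW1.s2
  have s21 := H486.Eng.sysF_cn hW2.s1
  have s22 := H486.Eng.sysF_cn hW2.s2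
  have e1 := hW1.esc
  have e2 := hW2.esc
  have f1 := fin_G1 (q := q) hT hfin
  have f2 := fin_G2 (q := q) hT hfin
  have f12 := fin_H (q := q) hT hfin
  letI aP : MulAction E P := actE h hG.z_P
  letI aL : MulAction E M := actE h hG.z_M
  letI gP : MulAction Γ P := actQ hph hG.z_P
  letI gL : MulAction Γ M := actQ hph hG.z_M
  have x1 : ∀ (g : S) (x : P), ι g • x = g • x := actE_ι h hG.z_P
  have x2 : ∀ (g : S) (x : M), ι g • x = g • x := actE_ι h hG.z_M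
  have t1 : ∀ z : P, ∃ g : E, g • L.p0 = z := fun z => by
    obtain ⟨l, hl⟩ := hG.ex1 z
    obtain ⟨g, hg, -⟩ := hG.flag z l hl
    exact ⟨ι g, (x1 g _).trans hg⟩
  have t2 : ∀ z : M, ∃ g : E, g • L.m0 = z := fun z => by
    obtain ⟨x, hx⟩ := hG.ex2 z
    obtain ⟨g, -, hg⟩ := hG.flag x z hx
    exact ⟨ι g, (x2 g _).trans hg⟩
  have k1 : ∀ e : E, e • L.p0 = L.p0 → ∃ v n : E, e = v * n ∧ v * ι L.b1 = ι L.b1 * v ∧
      Tendsto (fun N : ℕ => (ι L.b1 ^ N)⁻¹ * n * ι L.b1 ^ N) atTop (𝓝 1) := by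
    intro e he
    obtain ⟨g, rfl⟩ := h.sur e
    rw [x1] at he
    exact map_par h.cι (hG.st1 g he)
  have k2 : ∀ e : E, e • L.m0 = L.m0 → ∃ v n : E, e = v * n ∧ v * ι L.b2 = ι L.b2 * v ∧
      Tendsto (fun N : ℕ => (ι L.b2 ^ N)⁻¹ * n * ι L.b2 ^ N) atTop (𝓝 1) := by
    intro e he
    obtain ⟨g, rfl⟩ := h.sur e
    rw [x2] at he
    exact map_par h.cι (hG.st2 g he)
  have mo1 : Moore {e : E | e • L.p0 = L.p0} := moore_x h hG.z_P hG.unb1 L.p0
  have mo2 : Moore {e : E | e • L.m0 = L.m0} := moore_x h hG.z_M hG.unb2 L.m0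
  have m1 : ∀ v v' : P, Moore (ι '' {g : S | g • v = v ∧ g • v' = v'}) := moore_st h hG.unb1
  have m2 : ∀ v v' : M, Moore (ι '' {g : S | g • v = v ∧ g • v' = v'}) := moore_st h hG.unb2
  obtain ⟨U11, p11, -, -, F11⟩ := ufam_gen (Y := P) (Z := P) (z0 := L.p0) h𝒰 hE hv mo1
    s11 hL (geoU1 hG hT hph hfin) hS hloc e1 (domCut1 hT q) t1 k1
  obtain ⟨U12, p12, -, -, F12⟩ := ufam_gen (Y := M) (Z := P) (z0 := L.p0) h𝒰 hE hv mo1
    s12 hL (geoU2 hG hT hph hfin) hS hloc e1 (domCut2 hT q) t1 k1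
  obtain ⟨U21, p21, -, -, F21⟩ := ufam_gen (Y := P) (Z := M) (z0 := L.m0) h𝒰 hE hv mo2
    s21 hL (geoU1 hG hT hph hfin) hS hloc e2 (domCut1 hT q) t2 k2
  obtain ⟨U22, p22, -, -, F22⟩ := ufam_gen (Y := M) (Z := M) (z0 := L.m0) h𝒰 hE hv mo2
    s22 hL (geoU2 hG hT hph hfin) hS hloc e2 (domCut2 hT q) t2 k2
  refine ⟨U11, p11, U12, p12, U21, p21, U22, p22,
    { u11 := ?_
      u12 := ?_
      u21 := ?_
      u22 := ?_
      s1 := sum_ty h𝒰 hv s11 s12 f1 f2 f12 e1 hW1.ty F11 F12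
      s2 := sum_ty h𝒰 hv s21 s22 f1 f2 f12 e2 hW2.ty F21 F22
      i11 := ?_
      i12 := ?_ }, F11, F21⟩
  · exact ufam_of (q := q) x1 (fun _ _ => rfl) h.sur hp F11 nis1 m1 hG.gen1
  · exact ufam_of (q := q) x1 (fun _ _ => rfl) h.sur hp F12 nis2 m1 hG.gen1
  · exact ufam_of (q := q) x2 (fun _ _ => rfl) h.sur hp F21 nis1 m2 hG.gen2
  · exact ufam_of (q := q) x2 (fun _ _ => rfl) h.sur hp F22 nis2 m2 hG.gen2
  · intro c l hcl f g hfg
    obtain ⟨u, hu1, hu2⟩ := hG.flag c l hcl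
    have hov := hO q hph hud (tsupport f) (tsupport g) (isClosed_tsupport f)
      (isClosed_tsupport g) hfg
    have hI := ufam_incF h𝒰 h𝒰 hp hms s11 s22 hL hS hS e1 e2 f1 f2 F11 F22 (ι u) (ι u)
      (moore_SU hG h u) (contr_SU h u hG.con1) (contr_SU h u hG.con2) f g hov
    have := hI.1
    rw [x1, x2, hu1, hu2] at this
    exact this
  · intro c l hcl f g hfg
    obtain ⟨u, hu1, hu2⟩ := hG.flag c l hcl
    have hov := hO q hph hud (tsupport f) (tsupport g) (isClosed_tsupport f)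
      (isClosed_tsupport g) hfg
    have hI := ufam_incF h𝒰 h𝒰 hp hms s21 s12 hL hS hS e2 e1 f1 f2 F21 F12 (ι u) (ι u)
      (moore_SU hG h u) (contr_SU h u hG.con2) (contr_SU h u hG.con1) f g hov
    have := hI.1
    rw [x1, x2, hu1, hu2] at this
    exact this

end leg

end Vale.Agent.P092.CL
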