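import Vale.Agent.P092.CL.GeoF
import Vale.Agent.P092.H306.G.PurC
import Vale.Agent.P092.H766.Z8
import Vale.Agent.P092.H766.Z9
import Vale.Agent.P092.H145.G11
import Vale.Agent.P092.H437.CLPts

/-!
P092, TEAM P, stages 2 and 3 (helper437): the letters `CL.lt`, Witt index `s + 2 ≥ 3`, every form,
ultrametric: one leg is straight and all its calculi commute.
-/

set_option linter.all false

open scoped InnerProductSpace ENNReal
open Filter Topology MeasureTheory TopologicalSpace Matrix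

namespace Vale.Agent.P092.CL

open Vale.Agent.P092.H303 (FormGroup Idx hyp)
open Vale.Agent.P092.H714.Cl
open Vale.Agent.P092.H370.Po (SGr Inc Sing WI)

variable {k : Type} [NontriviallyNormedField k] [ProperSpace k] [MeasurableSpace k]
  {ι : Type} [Fintype ι] [DecidableEq ι] {s : ℕ} {σ : k →+* k} [Fact (Continuous σ)] {ε : k}
  {J₀ : Matrix ι ι k} {w : k} [BorelSpace k] (hσn : ∀ x, ‖σ x‖ = ‖x‖) (hw : w ≠ 0) (hσ : σ w = w)
  (hw1 : ‖w‖ < 1) (μ₁ : Measure k) (μ₂ : Measure (V2 σ ε)) [μ₁.IsAddHaarMeasure]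
  [μ₂.IsAddHaarMeasure]

include hσn hw1

/-- **[CL-1], Witt index at least three**, every form -/
theorem one_ltr [IsUltrametricDist k] (hF : Frm σ ε (hyp (s + 2) ε J₀))
    (hW : WI σ (hyp (s + 2) ε J₀) (s + 2)) (hs : 1 ≤ s) : OneStmt (lt hF hw hσ μ₁ μ₂) := by
  have hG := geo hF hW hσn hw hσ hw1 μ₁ μ₂
  have hIn : ∀ x l, (lt hF hw hσ μ₁ μ₂).In x l ↔ Inc x l := fun x l => Iff.rfl
  intro E Γ K _ _ _ _ _ _ 𝒰 ι' π lam W Ω m q h
  obtain ⟨U11, p11, U12, p12, U21, p21, U22, p22, h⟩ := h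
  rcases H306.G.purStmt_cl hF hW hw hσ hσn μ₁ μ₂ hG 𝒰 ι' π lam W Ω m q U11 p11 U12 p12 U21 p21
    U22 p22 h with ⟨e1, e2⟩ | ⟨e1, e2⟩
  · obtain ⟨G, hS⟩ := H766.Z.str_of hF hW (by omega) hIn hG h e1 e2 (by
      subst e1
      intro X T hT x x' hx hx' u f huf
      exact H145.G11.w0s_lt hσn hG h.base h.u11 X hT hx hx' u f huf)
    have pts : ∀ a b : SGr σ (hyp (s + 2) ε J₀) 1, H370.Po.Col a b → ∀ f g,
        Commute (G 1 a f) (G 1 b g) := fun a b hab f g =>
      H437.P2.pts_comm_lt hF hs hW hσn hw hσ μ₁ μ₂ hG hS.leg.base hS.bs hS.cals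
        (fun g u A hA hu ζ ε' hε => hS.leg.e.dom g u A hA hu ζ ε' hε) a b hab f g
    have all := hS.cals.all hS.bs hF hW (by omega) pts
    exact ⟨G 1, G (s + 2), hS.leg, fun c c' f g => all 1 1 le_rfl (by omega) le_rfl (by omega) c c' f g,
      fun l l' f g => all (s + 2) (s + 2) (by omega) le_rfl (by omega) le_rfl l l' f g,
      fun c l f g => all 1 (s + 2) le_rfl (by omega) (by omega) le_rfl c l f g⟩
  · exact (H766.Z.no_flip hF hW (by omega) hIn hG (H306.G.purIn_cl hF hW hw hσ hσn μ₁ μ₂) h e2 (by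
      subst e2
      intro c T hT w₁ w₂ h1 h2 u f huf
      exact H145.G11.w0f_lt hσn hG h.base h.u21 c hT h1 h2 u f huf)).elim

end Vale.Agent.P092.CL
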