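import Vale.Agent.P092.CL.Asm
import Vale.Agent.P092.CL.OneR
import Vale.Agent.P092.H337.C3d
import Vale.Agent.P092.H261.K3e
import Vale.Agent.P092.H85.CU1

/-!
P092, TEAM P, stages 2 and 3 (helper53): `OneStmt (lt ..)` for every form of the class, every Witt
index `s + 2 ≥ 2` (`s = 0`: the two counts of helper261, helper337; `s ≥ 1`: helper437's `one_ltr`).
-/

set_option linter.all false

open scoped InnerProductSpace ENNReal
open Filter Topology MeasureTheory TopologicalSpace Matrix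

namespace Vale.Agent.P092.CL

open Vale.Agent.P092.H303 (FormGroup Idx hyp)
open Vale.Agent.P092.H714.Cl
open Vale.Agent.P092.H85.CU (NfD)

/-- **[CL-1]**: one leg is straight and everything commutes, every Witt index. -/
theorem one_nfD {k : Type} [NontriviallyNormedField k] [ProperSpace k] [IsUltrametricDist k]
    [MeasurableSpace k] [BorelSpace k] {ι : Type} [Fintype ι] [DecidableEq ι] {s : ℕ}
    {σ : k →+* k} [Fact (Continuous σ)] {ε : k} {J₀ : Matrix ι ι k} (h : NfD σ ε J₀ s) {w : k}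
    (hw : w ≠ 0) (hσ : σ w = w) (hw1 : ‖w‖ < 1) (μ₁ : Measure k) (μ₂ : Measure (V2 σ ε))
    [μ₁.IsAddHaarMeasure] [μ₂.IsAddHaarMeasure] : OneStmt (lt h.frm hw hσ μ₁ μ₂) := by
  have hk : H933.LocK k := .ultra inferInstance
  rcases s with _ | s
  · have h2 : (2 : k) ≠ 0 := h.two.resolve_right (by norm_num)
    have han : ∀ v, hf σ J₀ v v = 0 → v = 0 := fun v hv => by
      by_contra hv0
      exact h.an v hv0 hv
    have h3 : H99.CL.Count1Stmt (lt (s := 0) h.frm hw hσ μ₁ μ₂) :=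
      H261.K3.count1_lt h.frm hw hσ μ₁ μ₂ h.hn h.wi
    have h4 : H99.CL.Count2Stmt (lt (s := 0) h.frm hw hσ μ₁ μ₂) :=
      H337.C3.count2Stmt hk h.frm han hw hσ μ₁ μ₂
    intro E Γ K _ _ _ _ _ _ 𝒰 ι' π lam W Ω m q hl
    exact one_lt2 h.hn hw hσ hw1 μ₁ μ₂ h.frm h.wi (Or.inl h2) h3 h4 𝒰 ι' π lam W Ω m q hl
  · intro E Γ K _ _ _ _ _ _ 𝒰 ι' π lam W Ω m q hl
    exact one_ltr h.hn hw hσ hw1 μ₁ μ₂ h.frm h.wi (Nat.le_add_left 1 s) 𝒰 ι' π lam W Ω m q hl

end Vale.Agent.P092.CL
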