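import Vale.Agent.P092.CL.AsmC
import Vale.Agent.P092.CL.One
import Vale.Agent.P092.UN.NfU
import Vale.Agent.P092.H411.S2.WalLt

/-!
P092, TEAM P, stages 2 and 3 (helper53): W*-superrigidity (`t = 1`) of the ICC lattices of the class
`LatticeU`: symplectic and unitary groups of Witt index at least two over non-archimedean local
fields.
-/

set_option linter.all false

open Filter Topology MeasureTheory TopologicalSpace Matrix

namespace Vale.Agent.P092.CL

open Vale.Agent.P092.H303 (FormGroup Idx hyp)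
open Vale.Agent.P092.H714.Cl
open Vale.Agent.P092.H85.CU (NfD)
open Vale.Agent.P092.SN (CoreE)

/-- **The core for `PSp(J)` and `PSU(J)`**, `t = 1`. -/
theorem core_nfD {k : Type} [NontriviallyNormedField k] [ProperSpace k] [IsUltrametricDist k]
    {ι : Type} [Fintype ι] [DecidableEq ι] {s : ℕ} {σ : k →+* k} {ε : k} {J₀ : Matrix ι ι k}
    (h : NfD σ ε J₀ s) : CoreE (FormGroup σ (hyp (s + 2) ε J₀) ⧸
      Subgroup.center (FormGroup σ (hyp (s + 2) ε J₀))) := by
  have hk : H933.LocK k := .ultra inferInstance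
  refine coreE_cen hk h.hn h.frm h.wi
    (fun hw hσ hw1 => H71.CLP.gap_lt h.frm h.hn hk hw hσ hw1 h.two) ?_ ?_
  · intro _ _ _ w hw hσ hw1 μ₁ μ₂ _ _ E _ _ _ _ _ _ i hA N e bp bm
    exact H411.S2.wal_lt hk h.hn h.frm h.wi hw hσ hw1 μ₁ μ₂
      (geo h.frm h.wi h.hn hw hσ hw1 μ₁ μ₂) hA e bp bm
  · intro _ _ _ w hw hσ hw1 μ₁ μ₂ _ _
    exact one_nfD h hw hσ hw1 μ₁ μ₂

end Vale.Agent.P092.CL

namespace Vale.Agent.P092.UN

/-- **W*-superrigidity of the ICC lattices of the class `LatticeU`.** -/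
theorem latticeU_super : ∀ (Γ : Type) [Group Γ], LatticeU Γ → Super Γ :=
  super_latticeU fun k _ _ _ σ ε ι _ _ J₀ s h => CL.core_nfD h

end Vale.Agent.P092.UN
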