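import Vale.Agent.P092.CL.NmO
import Vale.Agent.P092.H759.Clo.Geo
import Vale.Agent.P092.H289.O5
import Vale.Agent.P092.H859.Cg4
import Vale.Agent.P092.H44.HMpK

/-!
P092, TEAM P, stage CL-O (helper387): **the geometry of the orthogonal letters** (rows of helper759,
helper289, helper859, helper44, helper370, helper71), every local field.
-/

set_option linter.all false

open scoped Matrix
open Matrix Module Set MeasureTheory Filter Topology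

namespace Vale.Agent.P092.CL

open Vale.Agent.P092.H303 (FormGroup Idx hyp)
open Vale.Agent.P092.H714.Cl
open Vale.Agent.P092.H370.Po (SGr Inc Sing WI inc_smul inc_closed)

section geo

variable {k : Type} [NontriviallyNormedField k] [ProperSpace k] [MeasurableSpace k] {ι : Type}
  [Fintype ι] [DecidableEq ι] {s : ℕ} {J₀ : Matrix ι ι k}

/-- **[CLO-GEO]** -/
theorem geoO (h : OF J₀) {a : k} (ha : a ≠ 0) (ha1 : ‖a‖ < 1) (μ₁ : Measure k)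
    (μ₂ : Measure (ι → k)) : Geo (ltO h s ha μ₁ μ₂) where
  tg := inferInstance
  t2S := t2_EUF h s
  scS := sc_EUF h s
  t2P := inferInstance
  scP := inferInstance
  t2M := inferInstance
  scM := inferInstance
  csP := inferInstance
  csM := inferInstance
  inc := H759.Clo.p0_in_m0O
  in_smul g x l := inc_smul g.1
  in_cl := inc_closed
  flag := H759.Clo.flagO h (h.wf s)
  ex1 := H759.Clo.ex1O (h.wf s)
  ex2 := H759.Clo.ex2O
  fix1 := H759.Clo.fix1O h (h.wf s) ha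
  fix2 := H759.Clo.fix2O h (h.wf s) ha
  u1c := H289.O5.u1c h s
  u10 := H289.O5.u10 h s
  u1p := H289.O5.u1p h s
  u1m := H289.O5.u1m h s
  u2c := H289.O5.u2c h s
  u20 := H289.O5.u20 h s
  u2p := H289.O5.u2p h s
  u2m := H289.O5.u2m h s
  b1p := H289.O5.b1p h s ha
  b1m := H289.O5.b1m h s ha
  b2p := H289.O5.b2p h s ha
  b2m := H289.O5.b2m h s ha
  con1 := H289.O5.con1 h s ha ha1
  con2 := H289.O5.con2 h s ha ha1
  st1 := H859.Cg.st1O h ha ha1 μ₁ μ₂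
  st2 := H859.Cg.st2O h ha ha1 μ₁ μ₂
  gen1 := H859.Cg.gen1O h ha μ₁ μ₂
  gen2 := H859.Cg.gen2O h ha μ₁ μ₂
  unb1 := H289.O5.unb1 h s ha (nm_cptO h ha μ₁ μ₂) (nm_posO h ha μ₁ μ₂) (nm_mulO h ha μ₁ μ₂)
    (h.wf s).fo (nm_b1O h ha μ₁ μ₂ ha1)
  unb2 := H289.O5.unb2 h s (nm_cptO h ha μ₁ μ₂)
  unbu := H289.O5.unbu h s (nm_cptO h ha μ₁ μ₂) (nm_posO h ha μ₁ μ₂) (nm_mulO h ha μ₁ μ₂)
  nm_pos := nm_posO h ha μ₁ μ₂
  nm_mul := nm_mulO h ha μ₁ μ₂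
  nm_inv := nm_invO h ha μ₁ μ₂
  nm_c := nm_cO h s ha μ₁ μ₂
  nm_cpt := nm_cptO h ha μ₁ μ₂
  nm_b1 := nm_b1O h ha μ₁ μ₂ ha1
  nm_b2 := nm_b2O h ha μ₁ μ₂ ha1
  z_comm z hz g := z_commO h ha μ₁ μ₂ hz g
  z_P z hz x := z_fixO h ha μ₁ μ₂ hz x
  z_M z hz x := z_fixO h ha μ₁ μ₂ hz x
  z_nm z hz g := z_nmO h ha μ₁ μ₂ hz g
  z_NA1 z hz g R T A := z_na1O h ha μ₁ μ₂ hz g R T A
  z_NA2 z hz g R T A := z_na2O h ha μ₁ μ₂ hz g R T A
  z_of g hg := H759.Clo.z_ofO (h.wf s) g hg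
  prox1 := H44.HM.prox1O h s ha μ₁ μ₂
  prox2 := H44.HM.prox2O h s ha μ₁ μ₂
  nis1 := H44.HM.nis1O h s
  nis2 := H44.HM.nis2O h s

end geo

end Vale.Agent.P092.CL
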