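import Vale.Agent.P092.CL.AsmO
import Vale.Agent.P092.CL.GeoO
import Vale.Agent.P092.UN.NfO
import Vale.Agent.P092.H289.O6
import Vale.Agent.P092.H534.Or.Stmt
import Vale.Agent.P092.H956.FmG10

/-!
P092, TEAM P, stage CL-O (helper387): the core statement of `Ω(J) ⧸ centre`, `t = 1`, every local
field, every Witt index `s + 2`, from `OneStmt (ltO ..)` alone.
-/

set_option linter.all false

open scoped InnerProductSpace ENNReal
open Filter Topology MeasureTheory TopologicalSpace Matrix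

namespace Vale.Agent.P092.CL

open Vale.Agent.P092.H303 (FormGroup Idx hyp)
open Vale.Agent.P092.H714.Cl
open Vale.Agent.P092.H370.Po (SGr Inc Sing WI)
open Vale.Agent.P092.SN (CoreE)
open Vale.Agent.P092.H933 (LeviGap LocK)

section fin

variable {k : Type} [NontriviallyNormedField k] [ProperSpace k] {ι : Type} [Fintype ι]
  [DecidableEq ι] {J₀ : Matrix ι ι k}

/-- **[CL-O], the core**, from the joint `OneStmt`. -/
theorem coreE_orth (hk : LocK k) (h : OF J₀) (s : ℕ)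
    (hOne : ∀ [MeasurableSpace k] [BorelSpace k] {a : k} (ha : a ≠ 0) (_ : ‖a‖ < 1)
      (μ₁ : Measure k) (μ₂ : Measure (ι → k)) [μ₁.IsAddHaarMeasure] [μ₂.IsAddHaarMeasure],
      OneStmt (ltO h s ha μ₁ μ₂)) :
    CoreE (EUF (RingHom.id k) 1 (hyp (s + 2) 1 J₀) ⧸
      Subgroup.center (EUF (RingHom.id k) 1 (hyp (s + 2) 1 J₀))) := by
  haveI : Fact (Continuous (RingHom.id k)) := ⟨continuous_id⟩
  refine coreE_cenO hk h (fun ha ha1 μ₁ μ₂ => geoO h ha ha1 μ₁ μ₂) ?_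
    (fun ha _ => ⟨H956.gapO_b1 h s ha, H956.gapO_b2 h s ha⟩) ?_ hOne
  · intro _ _ a ha ha1 μ₁ μ₂ _ _
    exact H289.O6.sprL h s ha ha1 μ₁ μ₂
  · intro _ _ a ha ha1 μ₁ μ₂ _ _ E _ _ _ _ _ _ i hA N e bp bm
    exact H534.Or.walStmt_ltO h ha1 hk e (h.wi s) (geoO h ha ha1 μ₁ μ₂) hA

end fin

end Vale.Agent.P092.CL
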