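import Vale.Agent.P092.CL.FinO
import Vale.Agent.P092.H221.CO2
import Vale.Agent.P092.H261.K3f
import Vale.Agent.P092.H306.G.PurO

/-!
P092, TEAM P, stage CL-O (helper387): orthogonal groups of Witt index two, `t = 1`, over
non-archimedean local fields: the joint `OneStmt` and the core statement, without hypotheses.
-/

set_option linter.all false

open scoped InnerProductSpace ENNReal
open Filter Topology MeasureTheory TopologicalSpace Matrix

namespace Vale.Agent.P092.CL

open Vale.Agent.P092.H303 (FormGroup Idx hyp)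
open Vale.Agent.P092.SN (CoreE)

section fin

variable {k : Type} [NontriviallyNormedField k] [ProperSpace k] {ι : Type} [Fintype ι]
  [DecidableEq ι] {J₀ : Matrix ι ι k}

/-- **Witt index two, the joint.** -/
theorem one_orth2 [IsUltrametricDist k] [MeasurableSpace k] [BorelSpace k] (h : OF J₀) {a : k}
    (ha : a ≠ 0) (ha1 : ‖a‖ < 1) (μ₁ : Measure k) (μ₂ : Measure (ι → k)) [μ₁.IsAddHaarMeasure]
    [μ₂.IsAddHaarMeasure] : OneStmt (ltO h 0 ha μ₁ μ₂) :=
  one_ltO2 h ha μ₁ μ₂ (geoO h ha ha1 μ₁ μ₂) (H306.G.purInO h 0 ha μ₁ μ₂)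
    (H261.K3.count1_ltO h ha μ₁ μ₂) (H221.CO.count2StmtO (.ultra inferInstance) h ha μ₁ μ₂)

/-- **Witt index two, the core.** -/
theorem coreE_orth2 [IsUltrametricDist k] (h : OF J₀) :
    CoreE (EUF (RingHom.id k) 1 (hyp (0 + 2) 1 J₀) ⧸
      Subgroup.center (EUF (RingHom.id k) 1 (hyp (0 + 2) 1 J₀))) := by
  refine coreE_orth (.ultra inferInstance) h 0 ?_
  intro _ _ a ha ha1 μ₁ μ₂ _ _
  exact @one_orth2 _ _ _ _ _ _ _ _ _ _ h _ ha ha1 μ₁ μ₂ _ _

end fin

end Vale.Agent.P092.CL
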