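import Vale.Agent.P092.H306.G.PurO
import Vale.Agent.P092.H145.GPO
import Vale.Agent.P092.H370.O.Z8
import Vale.Agent.P092.H541.O.LegO

/-!
P092, TEAM P, stage CL-O (helper541; twin of helper437's CL/OneR): the letters `ltO`, Witt index
`s + 2 ≥ 3`, ultrametric: one leg is straight and all its calculi commute. Rows: helper370 (rank
count, `str_of`, `no_flip`), helper145 (word lemmas), helper306 (purity), helper416 (count),
helper796, helper437 and helper766.
-/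

set_option linter.all false

open scoped InnerProductSpace ENNReal
open Filter Topology MeasureTheory TopologicalSpace Matrix

namespace Vale.Agent.P092.CL

open Vale.Agent.P092.H303 (FormGroup Idx hyp)
open Vale.Agent.P092.H714.Cl
open Vale.Agent.P092.H370.Po (SGr Inc Sing WI)
open Vale.Agent.P092.H370.O (Rg Str)
open Vale.Agent.P092.H541.CLF (GDatS wfO)

section gdat

variable {n : Type} [Fintype n] [DecidableEq n] {k : Type} [NontriviallyNormedField k]
  [ProperSpace k] [IsUltrametricDist k] {σ : k →+* k} {ε : k} {J : Matrix n n k}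
  [Fact (Continuous σ)] {S : Type} [Group S] [TopologicalSpace S] [∀ j, MulAction S (SGr σ J j)]
  [∀ j, ContinuousConstSMul S (SGr σ J j)] {φ : S →* FormGroup σ J}
  {r : ℕ} {V₁ V₂ : Type} [MeasurableSpace V₁] [MeasurableSpace V₂] [NormedAddCommGroup V₁]
  [NormedAddCommGroup V₂] {L : Lt S (SGr σ J 1) (SGr σ J r) V₁ V₂}
  {E Γ K : Type} [Group E] [TopologicalSpace E] [Group Γ] [NormedAddCommGroup K]
  [InnerProductSpace ℂ K] [CompleteSpace K] {𝒰 : Ultrafilter ℕ} {ι : S →* E}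
  {π : E →* (K →L[ℂ] K)} {lam : Γ →* (K →L[ℂ] K)} {W : Set (K →L[ℂ] K)} {Ω : K}
  {m : Set Γ → (K →L[ℂ] K)} {q : Γ → S}
  {G : ∀ j, SGr σ J j → (C(SGr σ J j, ℂ) →⋆ₐ[ℂ] (K →L[ℂ] K))}

theorem gdatS_of (hφ : Rg ε φ) (h : Str L 𝒰 ι π lam W Ω m q G) :
    GDatS φ ι π lam W q r G where
  cm j h1 h2 X f := h.cals.cm j h1 h2 X f
  cov j h1 h2 γ X f := h.cals.cov j h1 h2 X γ f _ fun Y => by
    change f ((φ (q γ))⁻¹ • q γ • Y) = f Y
    rw [hφ.act, inv_smul_smul]
  pcov j h1 h2 g X f := by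
    have := h.cals.pcov j h1 h2 X g f
    change π (ι g) * G j X f * π (ι g⁻¹) = G j (g • X) f at this
    rwa [map_inv ι g, hφ.act] at this

end gdat

variable {k : Type} [NontriviallyNormedField k] [ProperSpace k] [MeasurableSpace k]
  {ι : Type} [Fintype ι] [DecidableEq ι] {s : ℕ} {J₀ : Matrix ι ι k} {a : k} [BorelSpace k]

/-- **[CL-1] for the orthogonal letters, Witt index at least three** -/
theorem one_ltrO [IsUltrametricDist k] (h : OF J₀) (hs : 1 ≤ s) (ha : a ≠ 0) (μ₁ : Measure k)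
    (μ₂ : Measure (ι → k)) [IsFiniteMeasureOnCompacts μ₁] [μ₁.IsOpenPosMeasure]
    [IsFiniteMeasureOnCompacts μ₂] [μ₂.IsOpenPosMeasure] (hG : Geo (ltO h s ha μ₁ μ₂)) :
    OneStmt (ltO h s ha μ₁ μ₂) := by
  have hφ : Rg (σ := RingHom.id k) (J := hyp (s + 2) 1 J₀) 1
      (Subgroup.subtype (EUF (RingHom.id k) 1 (hyp (s + 2) 1 J₀))) :=
    ⟨fun g j X => rfl, fun g hg => ⟨⟨g, hg⟩, rfl⟩⟩
  have hφc : Continuous (Subgroup.subtype (EUF (RingHom.id k) 1 (hyp (s + 2) 1 J₀))) :=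
    continuous_subtype_val
  have hIn : ∀ x l, (ltO h s ha μ₁ μ₂).In x l ↔ Inc x l := fun x l => Iff.rfl
  have hF := (wfO h s).fo
  have hW := (wfO h s).wi
  intro E Γ K _ _ _ _ _ _ 𝒰 ι' π lam W Ω m q hl
  obtain ⟨U11, p11, U12, p12, U21, p21, U22, p22, hl⟩ := hl
  rcases H306.G.purStmt_O h s ha μ₁ μ₂ hG 𝒰 ι' π lam W Ω m q U11 p11 U12 p12 U21 p21 U22 p22
    hl with ⟨e1, e2⟩ | ⟨e1, e2⟩
  · obtain ⟨G, hS⟩ := H370.O.str_of hφ hφc hF hW (by omega) hIn hG hl e1 e2 (by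
      subst e1
      intro X T hT x x' hx hx' u f huf
      exact H145.GPO.w0s_ltO hG hl.base hl.u11 X hT hx hx' u f huf)
    exact ⟨G 1, G (s + 2), H541.O.legComm_ltO h hs ha μ₁ μ₂ hG hS.leg (gdatS_of hφ hS)
      (hS.cals.calP hS.bs hφ hF hW (by omega)) hS.cals.cen⟩
  · exact (H370.O.no_flip hφ hφc hF hW (by omega) hIn hG (H306.G.purInO h s ha μ₁ μ₂) hl e2 (by
      subst e2
      intro c T hT w₁ w₂ h1 h2 u f huf
      exact H145.GPO.w0f_ltO hG hl.base hl.u21 c hT h1 h2 u f huf)).elim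

end Vale.Agent.P092.CL
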