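import Vale.Agent.P092.CL.FinO2
import Vale.Agent.P092.CL.OneRO

/-!
P092, TEAM P, stage CL-O (helper387): orthogonal groups of every Witt index at least two, kernel not
empty, over non-archimedean local fields, `t = 1`: the core statement and the class `LatticeO`,
without hypotheses.
-/

set_option linter.all false

open scoped InnerProductSpace ENNReal
open Filter Topology MeasureTheory TopologicalSpace Matrix

namespace Vale.Agent.P092.CL

open Vale.Agent.P092.H303 (FormGroup Idx hyp)
open Vale.Agent.P092.SN (CoreE)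

section fin

variable {k : Type} [NontriviallyNormedField k] [ProperSpace k] {ι : Type} [Fintype ι]
  [DecidableEq ι] {J₀ : Matrix ι ι k}

/-- **The joint, every Witt index.** -/
theorem one_orth [IsUltrametricDist k] [MeasurableSpace k] [BorelSpace k] (h : OF J₀) (s : ℕ)
    {a : k} (ha : a ≠ 0) (ha1 : ‖a‖ < 1) (μ₁ : Measure k) (μ₂ : Measure (ι → k))
    [μ₁.IsAddHaarMeasure] [μ₂.IsAddHaarMeasure] : OneStmt (ltO h s ha μ₁ μ₂) := by
  rcases Nat.eq_zero_or_pos s with rfl | hs
  · exact @one_orth2 _ _ _ _ _ _ _ _ _ _ h _ ha ha1 μ₁ μ₂ _ _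
  · have key : OneStmt (ltO h s ha μ₁ μ₂) := one_ltrO h hs ha μ₁ μ₂ (geoO h ha ha1 μ₁ μ₂)
    exact @key

/-- **[CL-O], the core, every Witt index.** -/
theorem coreE_orthAll [IsUltrametricDist k] (h : OF J₀) (s : ℕ) :
    CoreE (EUF (RingHom.id k) 1 (hyp (s + 2) 1 J₀) ⧸
      Subgroup.center (EUF (RingHom.id k) 1 (hyp (s + 2) 1 J₀))) := by
  refine coreE_orth (.ultra inferInstance) h s ?_
  intro _ _ a ha ha1 μ₁ μ₂ _ _
  exact @one_orth _ _ _ _ _ _ _ _ _ _ h s _ ha ha1 μ₁ μ₂ _ _

end fin

end Vale.Agent.P092.CL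

namespace Vale.Agent.P092.UN

/-- **W*-superrigidity of the ICC lattices in the orthogonal groups `[SO(J), SO(J)]`** of Witt index
at least two (kernel not empty) over non-archimedean local fields of characteristic not two, modulo
central subgroups. -/
theorem latticeO_super : ∀ (Γ : Type) [Group Γ], LatticeO Γ → Super Γ :=
  super_latticeO fun k _ _ _ ι _ _ J₀ s h => CL.coreE_orthAll h s

end Vale.Agent.P092.UN
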