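import Vale.Agent.P092.CL.AsmR
import Vale.Agent.P092.CL.FinO
import Vale.Agent.P092.H221.CO2
import Vale.Agent.P092.H261.K3g
import Vale.Agent.P092.H306.G.PurO
import Vale.Agent.P092.H142.SynX
import Vale.Agent.P092.UN.NfOR

/-!
P092, TEAM P, track CL over `ℝ` (helper142): `SO(2, n)`, `n ≥ 3`, `t = 1`: the joint `OneStmt`, the
core statement and the class `UN.LatticeOR`, without hypotheses.
-/

set_option linter.all false

open scoped InnerProductSpace ENNReal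
open Filter Topology MeasureTheory TopologicalSpace Matrix

namespace Vale.Agent.P092.CL

open Vale.Agent.P092.H303 (FormGroup Idx hyp)
open Vale.Agent.P092.H714.Cl
open Vale.Agent.P092.H370.Po (SGr Inc Sing WI)
open Vale.Agent.P092.SN (CoreE)
open Vale.Agent.P092.H933 (LeviGap LocK)

section fin

variable {ι : Type} [Fintype ι] [DecidableEq ι] {J₀ : Matrix ι ι ℝ}

/-- **[CL-1] for `SO(2, n)`** -/
theorem one_orthR (h : OF J₀) {a : ℝ} (ha : a ≠ 0) (ha1 : ‖a‖ < 1) (μ₁ : Measure ℝ)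
    (μ₂ : Measure (ι → ℝ)) [μ₁.IsAddHaarMeasure] [μ₂.IsAddHaarMeasure] :
    OneStmt (ltO h 0 ha μ₁ μ₂) :=
  oneR h ha μ₁ μ₂ (geoO h ha ha1 μ₁ μ₂) (H306.G.purInO h 0 ha μ₁ μ₂)
    (H261.K3.count1_ltO_all (.inl ⟨algebraMap ℝ ℂ, fun x => by simp⟩) h ha μ₁ μ₂)
    (H221.CO.count2StmtO (.real (RingEquiv.refl ℝ) fun _ => rfl) h ha μ₁ μ₂)
    (H142.SynX.synStmt_arch (τ := algebraMap ℝ ℂ) (fun x => by simp) (fun _ _ => Iff.rfl)
      (geoO h ha ha1 μ₁ μ₂).in_cl)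

/-- **`SO(2, n)`, the core** -/
theorem coreE_orthR (h : OF J₀) :
    CoreE (EUF (RingHom.id ℝ) 1 (hyp (0 + 2) 1 J₀) ⧸
      Subgroup.center (EUF (RingHom.id ℝ) 1 (hyp (0 + 2) 1 J₀))) := by
  refine coreE_orth (.real (RingEquiv.refl ℝ) fun _ => rfl) h 0 ?_
  intro m hb a ha ha1 μ₁ μ₂ _ _
  have e : m = Real.measurableSpace := hb.measurable_eq.trans Real.borelSpace.measurable_eq.symm
  subst e
  have key : OneStmt (ltO h 0 ha μ₁ μ₂) := one_orthR h ha ha1 μ₁ μ₂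
  exact @key

end fin

end Vale.Agent.P092.CL

namespace Vale.Agent.P092.UN

/-- **The lattices of the class `LatticeOR`** (`SO(2, n)`, `n ≥ 3`): the conclusion at `t = 1`. -/
theorem latticeOR_super : ∀ (Γ : Type) [Group Γ], LatticeOR Γ → Super Γ :=
  super_latticeOR fun ι _ _ J₀ h => CL.coreE_orthR h

end Vale.Agent.P092.UN
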