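import Vale.Agent.P092.H714.Cl6

/-!
P092, TEAM P, stages 2 and 3 (helper53): the data of a form `hyp q ε J₀` for one `q` give those for
every `q`.
-/

set_option linter.all false

open Matrix

namespace Vale.Agent.P092.CL

open Vale.Agent.P092.H303 (Idx hyp)
open Vale.Agent.P092.H714.Cl

variable {k : Type} [NontriviallyNormedField k] {ι : Type} [Fintype ι] [DecidableEq ι] {q : ℕ}
  {σ : k →+* k} {ε : k} {J₀ : Matrix ι ι k}

/-- a vector of the kernel -/
def exJ (k : Type) [NontriviallyNormedField k] (q : ℕ) {ι : Type} (x : ι → k) : Idx q ι → k :=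
  Sum.elim (fun _ => 0) x

theorem hf_exJ (x : ι → k) (Y : Idx q ι → k) :
    hf σ (hyp q ε J₀) (exJ k q x) Y = hf σ J₀ x fun i => Y (.inr i) := by
  rw [hf_hyp]
  simp [exJ]

/-- the kernel of a form with all the properties -/
theorem frm0_of_hyp (hF : Frm σ ε (hyp q ε J₀)) : Frm0 σ ε J₀ where
  herm x y := by
    have h := hF.herm (exJ k q x) (exJ k q y)
    rw [hf_exJ, hf_exJ] at h
    exact h
  nondeg x hx := by
    obtain ⟨Y, hY⟩ := hF.nondeg (exJ k q x) (fun h => hx (funext fun i => congrFun h (.inr i)))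
    rw [hf_exJ] at hY
    exact ⟨_, hY⟩
  tv y := by
    obtain ⟨β, hβ⟩ := hF.tv (exJ k q y)
    rw [hf_exJ] at hβ
    exact ⟨β, hβ⟩

/-- one Witt index, all Witt indices -/
theorem frm_p (hF : Frm σ ε (hyp q ε J₀)) {p : ℕ} (hp : 1 ≤ p) : Frm σ ε (hyp p ε J₀) :=
  frm_hyp hF.inv hF.eps hF.seps (frm0_of_hyp hF) hF.cc hp

end Vale.Agent.P092.CL
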