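import Vale.Agent.P092.H370.Cg5

/-!
P092, Team P, stages 2 and 3, block [CL-GEO] (helper370): **the record `CL.Geo` for the letters
`CL.lt`** (symplectic and unitary groups of Witt index `s + 2 ≥ 2`).
-/

set_option linter.all false

open Matrix Module Set Topology Filter MeasureTheory

namespace Vale.Agent.P092.CL

open Vale.Agent.P092.H303 (FormGroup Idx hyp)
open Vale.Agent.P092.H714.Cl
open Vale.Agent.P092.H370.Po (SGr Inc WI Col)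
open Vale.Agent.P092.H370
open Vale.Agent.P092.H514.NI (Covol)

section geo

variable {k : Type} [NontriviallyNormedField k] [MeasurableSpace k] {ι : Type} [Fintype ι]
  [DecidableEq ι] {s : ℕ} {σ : k →+* k} {ε : k} {J₀ : Matrix ι ι k}

/-- the rows of the size (helper71) -/
structure GNm (L : Lt (FormGroup σ (hyp (s + 2) ε J₀)) (SGr σ (hyp (s + 2) ε J₀) 1)
    (SGr σ (hyp (s + 2) ε J₀) (s + 2)) k (V2 σ ε)) : Prop where
  nm_pos : ∀ g, 0 < L.nm g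
  nm_mul : ∃ C : ℝ, 0 < C ∧ ∀ g h, L.nm (g * h) ≤ C * (L.nm g * L.nm h)
  nm_inv : ∃ C : ℝ, 0 < C ∧ ∀ g, L.nm g⁻¹ ≤ C * L.nm g
  nm_c : Continuous L.nm
  nm_cpt : ∀ C : ℝ, IsCompact {g | L.nm g ≤ C}
  nm_b1 : Tendsto (fun N : ℕ => L.nm (L.b1 ^ N)) atTop atTop
  nm_b2 : Tendsto (fun N : ℕ => L.nm (L.b2 ^ N)) atTop atTop

/-- the rows of the stabilisers (helper859) -/
structure GSt (L : Lt (FormGroup σ (hyp (s + 2) ε J₀)) (SGr σ (hyp (s + 2) ε J₀) 1)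
    (SGr σ (hyp (s + 2) ε J₀) (s + 2)) k (V2 σ ε)) : Prop where
  st1 : ∀ g : FormGroup σ (hyp (s + 2) ε J₀), g • L.p0 = L.p0 →
    ∃ v n : FormGroup σ (hyp (s + 2) ε J₀), g = v * n ∧ v * L.b1 = L.b1 * v ∧
      Tendsto (fun N : ℕ => (L.b1 ^ N)⁻¹ * n * L.b1 ^ N) atTop (𝓝 1)
  st2 : ∀ g : FormGroup σ (hyp (s + 2) ε J₀), g • L.m0 = L.m0 →
    ∃ v n : FormGroup σ (hyp (s + 2) ε J₀), g = v * n ∧ v * L.b2 = L.b2 * v ∧
      Tendsto (fun N : ℕ => (L.b2 ^ N)⁻¹ * n * L.b2 ^ N) atTop (𝓝 1)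
  gen1 : ∀ x y : SGr σ (hyp (s + 2) ε J₀) 1, x ≠ y → Subgroup.closure
    ({g : FormGroup σ (hyp (s + 2) ε J₀) | g • x = x} ∪ {g | g • y = y}) = ⊤
  gen2 : ∀ x y : SGr σ (hyp (s + 2) ε J₀) (s + 2), x ≠ y → Subgroup.closure
    ({g : FormGroup σ (hyp (s + 2) ε J₀) | g • x = x} ∪ {g | g • y = y}) = ⊤

variable [ProperSpace k] [Fact (Continuous σ)] (hF : Frm σ ε (hyp (s + 2) ε J₀))
  (hW : WI σ (hyp (s + 2) ε J₀) (s + 2)) (hσn : ∀ x, ‖σ x‖ = ‖x‖) {w : k} (hw : w ≠ 0)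
  (hσ : σ w = w) (hw1 : ‖w‖ < 1) (μ₁ : Measure k) (μ₂ : Measure (V2 σ ε))

include hW hσn hw1

/-- **[CL-GEO]** from the rows -/
theorem geo_of (h1 : GNm (lt hF hw hσ μ₁ μ₂)) (h3 : GSt (lt hF hw hσ μ₁ μ₂)) :
    Geo (lt hF hw hσ μ₁ μ₂) where
  tg := inferInstance
  t2S := inferInstance
  scS := H303.secondCountable_formGroup _
  t2P := inferInstance
  scP := inferInstance
  t2M := inferInstance
  scM := inferInstance
  csP := inferInstance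
  csM := inferInstance
  inc := Cg.p0_in_m0
  in_smul g x l := Po.inc_smul g
  in_cl := Po.inc_closed
  flag := Cg.geo_flag hF
  ex1 := Cg.geo_ex1 hF
  ex2 := Cg.geo_ex2
  fix1 := Cg.geo_fix1 hF hW hw hσ
  fix2 := Cg.geo_fix2 hF hW hw hσ
  u1c := Cg.u1_cont hF Fact.out
  u10 := Cg.u1_zero hF
  u1p t := Cg.u1_p0 hF t
  u1m t := Cg.u1_m0 hF t
  u2c := Cg.u2_cont hF
  u20 := Cg.u2_zero hF
  u2p t := Cg.u2_p0 hF t
  u2m t := Cg.u2_m0 hF t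
  b1p := Cg.b1_p0 hw hσ
  b1m := Cg.b1_m0 hw hσ
  b2p := Cg.b2_p0 hw hσ
  b2m := Cg.b2_m0 hw hσ
  con1 := Cg.con_u1 hF hw hw1 (m := Pi.single 0 1) (by simp) rfl
  con2 := Cg.con_u1 hF hw hw1 (m := fun _ => 1) (by norm_num) rfl
  st1 := h3.st1
  st2 := h3.st2
  gen1 := h3.gen1
  gen2 := h3.gen2
  unb1 := Cg.geo_unb1 hF hw hσ h1.nm_cpt h1.nm_pos h1.nm_mul h1.nm_b1
  unb2 := Cg.geo_unb2 hF h1.nm_cpt
  unbu := Cg.geo_unbu hF h1.nm_cpt h1.nm_pos h1.nm_mul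
  nm_pos := h1.nm_pos
  nm_mul := h1.nm_mul
  nm_inv := h1.nm_inv
  nm_c := h1.nm_c
  nm_cpt := h1.nm_cpt
  nm_b1 := h1.nm_b1
  nm_b2 := h1.nm_b2
  z_comm z hz g := Cg.z_comm' hz
  z_P z hz x := Cg.z_fix' hz x
  z_M z hz x := Cg.z_fix' hz x
  z_nm z hz g := Cg.z_nm hz g
  z_NA1 z hz g R T A := Cg.z_na1 hz g R T A
  z_NA2 z hz g R T A := Cg.z_na2 hz g R T A
  z_of g h := Cg.z_of' (hF.wf hW) (by omega) h
  prox1 Γ hΓ z D hD hDo U hU hUn :=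
    H631.P2.prox1_geo hF Fact.out hW (by omega) Γ hΓ z D hD hDo U hU hUn
  prox2 Γ hΓ z D hD hDo U hU hUn :=
    H631.P2.prox2_geo hF Fact.out hW Γ hΓ z D hD hDo U hU hUn
  nis1 Γ hΓ φ a b c := H44.HM.nis_form hσn hF le_rfl Γ.subtype (by rwa [Γ.range_subtype]) φ a b
    fun γ f f' h => c γ.1 γ.2 f f' h
  nis2 Γ hΓ φ a b c := H44.HM.nis_form hσn hF (by omega) Γ.subtype (by rwa [Γ.range_subtype]) φ
    a b fun γ f f' h => c γ.1 γ.2 f f' h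

end geo

end Vale.Agent.P092.CL
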