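import Vale.Agent.P092.CL.Geo
import Vale.Agent.P092.H71.P.CLGeo
import Vale.Agent.P092.H859.Cg1
import Vale.Agent.P092.H859.Cg2

/-!
P092, Team P, stages 2 and 3, block [CL-GEO] (helper370): **`CL.geo`, the record `CL.Geo` for the
letters `CL.lt`** (symplectic and unitary groups of Witt index `s + 2 ≥ 2`).
-/

set_option linter.all false

open Matrix Module Set Topology Filter MeasureTheory

namespace Vale.Agent.P092.CL

open Vale.Agent.P092.H303 (FormGroup Idx hyp)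
open Vale.Agent.P092.H714.Cl
open Vale.Agent.P092.H370.Po (SGr Inc WI Col)
open Vale.Agent.P092.H370

section geo

variable {k : Type} [NontriviallyNormedField k] [MeasurableSpace k] {ι : Type} [Fintype ι]
  [DecidableEq ι] {s : ℕ} {σ : k →+* k} {ε : k} {J₀ : Matrix ι ι k}
  [ProperSpace k] [Fact (Continuous σ)] (hF : Frm σ ε (hyp (s + 2) ε J₀))
  (hW : WI σ (hyp (s + 2) ε J₀) (s + 2)) (hσn : ∀ x, ‖σ x‖ = ‖x‖) {w : k} (hw : w ≠ 0)
  (hσ : σ w = w) (hw1 : ‖w‖ < 1) (μ₁ : Measure k) (μ₂ : Measure (V2 σ ε))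

include hW hσn hw1

/-- **[CL-GEO]** -/
theorem geo : Geo (lt hF hw hσ μ₁ μ₂) :=
  have hn := H71.CLG.geoN hF hσn hw hσ hw1 μ₁ μ₂
  geo_of hF hW hσn hw hσ hw1 μ₁ μ₂
    { nm_pos := hn.nm_pos
      nm_mul := hn.nm_mul
      nm_inv := hn.nm_inv
      nm_c := hn.nm_c
      nm_cpt := hn.nm_cpt
      nm_b1 := hn.nm_b1
      nm_b2 := hn.nm_b2 }
    { st1 := H859.Cg.st1 hF Fact.out hw hσ hw1
      st2 := H859.Cg.st2 hF Fact.out hw hσ hw1
      gen1 := H859.Cg.gen_pt hF.fo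
      gen2 := H859.Cg.gen_mx (d := s + 1) (hF.wf hW) }

end geo

end Vale.Agent.P092.CL
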