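import Vale.Agent.P092.CL.ExLE
import Vale.Agent.P092.CL.Ex
import Vale.Agent.P092.H486.RelE

/-!
P092, Team P, stages 2 and 3 (helper805), [H-ENG]: the first leg of the concrete picture over an
admissible source group, together with the relations of higher order (helper486) of the two families
of points; every record `L : Lt`.
-/

set_option linter.all false

open scoped InnerProductSpace ENNReal
open Filter Topology ContinuousLinearMap MeasureTheory TopologicalSpace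

namespace Vale.Agent.P092.CL

open Vale.Agent.P092.SR Vale.Agent.P092.H160
open Vale.Agent.P092.RC (Moore KK pic lam₁ lam₂ XX Om Pic PicF Tw cj cj_ap)
open Vale.Agent.P092.SD (Ms MsF)
open Vale.Agent.P092.H103 (mS₁ ms₁ uc₁)
open Vale.Agent.P092.H933 (LeviGap LocK)
open Vale.Agent.P092.H859.CL (st Leg BB FF)
open Vale.Agent.P092.H486.Rel (WCnt rel_same)
open Vale.Agent.P092.H805.Row (mpE)
open Vale.Agent.P092.H805.RowN (Bd Bf msE)

section defs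

variable {S P M V₁ V₂ : Type} [Group S] [MeasurableSpace V₁] [MeasurableSpace V₂]
  [TopologicalSpace S] [MulAction S P] [TopologicalSpace P] [CompactSpace P]
  [ContinuousConstSMul S P] [MulAction S M] [TopologicalSpace M] [CompactSpace M]
  [ContinuousConstSMul S M] [NormedAddCommGroup V₁] [NormedAddCommGroup V₂]

/-- the weighted count of the letters of points, in the gauges of the target (helper486) -/
def WC {Γ : Type} [Group Γ] (L : Lt S P M V₁ V₂) (T : Gau S P M) (q : Γ → S) {I : Type} [Fintype I]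
    (u v : I → C(P, ℂ)) : Prop :=
  WCnt (fun γ => T.G1 (q γ)) (fun γ => T.H1 (q γ)) (fun γ => T.bp (q γ)) (fun γ => L.nm (q γ)) u v

/-- both walls contract the root group `u1`, uniformly on the unit ball -/
def UniC (L : Lt S P M V₁ V₂) : Prop :=
  (∀ O ∈ 𝓝 (1 : S), ∀ᶠ N : ℕ in atTop, ∀ x ∈ Metric.closedBall (0 : V₁) 1,
    (L.b1 ^ N)⁻¹ * L.u1 x * L.b1 ^ N ∈ O) ∧
  ∀ O ∈ 𝓝 (1 : S), ∀ᶠ N : ℕ in atTop, ∀ x ∈ Metric.closedBall (0 : V₁) 1,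
    (L.b2 ^ N)⁻¹ * L.u1 x * L.b2 ^ N ∈ O

/-- the data of one leg, with the relations of higher order between the letters of points -/
def HasLegW {E Γ K : Type} [Group E] [TopologicalSpace E] [Group Γ] [NormedAddCommGroup K]
    [InnerProductSpace ℂ K] [CompleteSpace K] (L : Lt S P M V₁ V₂) (T : Gau S P M)
    (𝒰 : Ultrafilter ℕ) (ι : S →* E) (π : E →* (K →L[ℂ] K)) (lam : Γ →* (K →L[ℂ] K))
    (W : Set (K →L[ℂ] K)) (Ω : K) (m : Set Γ → (K →L[ℂ] K)) (q : Γ → S) : Prop :=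
  ∃ (U11 : P → (C(P, ℂ) →ₗ[ℂ] (K →L[ℂ] K))) (p11 : ℝ)
    (U12 : P → (C(M, ℂ) →ₗ[ℂ] (K →L[ℂ] K))) (p12 : ℝ)
    (U21 : M → (C(P, ℂ) →ₗ[ℂ] (K →L[ℂ] K))) (p21 : ℝ)
    (U22 : M → (C(M, ℂ) →ₗ[ℂ] (K →L[ℂ] K))) (p22 : ℝ),
    LegP L 𝒰 ι π lam W Ω m q U11 p11 U12 p12 U21 p21 U22 p22 ∧
      ∀ (I : Type) [Fintype I] (u v : I → C(P, ℂ)), WC L T q u v →
        (∀ c, ∑ i, U11 c (u i) * U11 c (v i) = 0) ∧ ∀ l, ∑ i, U21 l (u i) * U21 l (v i) = 0

/-- [CL-EX] for the first leg, with the relations of higher order -/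
def HalfStmtW (L : Lt S P M V₁ V₂) (T : Gau S P M) {E : Type} [Group E] [TopologicalSpace E]
    [IsTopologicalGroup E] [LocallyCompactSpace E] [SecondCountableTopology E] [T2Space E]
    (ι : S →* E) : Prop :=
  ∀ [MeasurableSpace E] [BorelSpace E] {Γ : Subgroup E} [DiscreteTopology Γ] [Countable Γ]
    [MeasurableSpace (E ⧸ Γ)] [BorelSpace (E ⧸ Γ)] {ν : Measure (E ⧸ Γ)}
    [IsProbabilityMeasure ν] (hν : ∀ g : E, ν.map (fun x => g • x) = ν)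
    (_ : H515.St.IsLattice Γ) (_ : ∀ g : Γ, g ≠ 1 → Set.Infinite {y : Γ | ∃ h, y = h * g * h⁻¹})
    {Λ : Type} [Group Λ] [Countable Λ]
    (_ : ∀ g : Λ, g ≠ 1 → Set.Infinite {y : Λ | ∃ h, y = h * g * h⁻¹})
    {α : Γ →* (Ell2 Λ →L[ℂ] Ell2 Λ)} (hα : Frame α),
    ∃ (𝒰 : Ultrafilter ℕ) (m : Set Γ → (KK ν Λ →L[ℂ] KK ν Λ)) (q : Γ → S),
      HasLegW L T 𝒰 ι (pic hν hα) (lam₁ ν α) (XX ν Λ ∪ Set.range (lam₂ ν α)) (Om ν Λ) m q ∧
      (∀ γ, q γ ∈ L.Z → γ = 1)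

/-- [CL-EX], both legs, with the relations of higher order -/
def ExStmtW (L : Lt S P M V₁ V₂) (T : Gau S P M) {E : Type} [Group E] [TopologicalSpace E]
    [IsTopologicalGroup E] [LocallyCompactSpace E] [SecondCountableTopology E] [T2Space E]
    (ι : S →* E) : Prop :=
  ∀ [MeasurableSpace E] [BorelSpace E] {Γ : Subgroup E} [DiscreteTopology Γ] [Countable Γ]
    [MeasurableSpace (E ⧸ Γ)] [BorelSpace (E ⧸ Γ)] {ν : Measure (E ⧸ Γ)}
    [IsProbabilityMeasure ν] (hν : ∀ g : E, ν.map (fun x => g • x) = ν)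
    (_ : H515.St.IsLattice Γ) (_ : ∀ g : Γ, g ≠ 1 → Set.Infinite {y : Γ | ∃ h, y = h * g * h⁻¹})
    {Λ : Type} [Group Λ] [Countable Λ]
    (_ : ∀ g : Λ, g ≠ 1 → Set.Infinite {y : Λ | ∃ h, y = h * g * h⁻¹})
    {α : Γ →* (Ell2 Λ →L[ℂ] Ell2 Λ)} (hα : Frame α),
    ∃ (𝒰 : Ultrafilter ℕ) (m₁ m₂ : Set Γ → (KK ν Λ →L[ℂ] KK ν Λ)) (q₁ q₂ : Γ → S),
      HasLegW L T 𝒰 ι (pic hν hα) (lam₁ ν α) (XX ν Λ ∪ Set.range (lam₂ ν α)) (Om ν Λ) m₁ q₁ ∧
      HasLegW L T 𝒰 ι (pic hν hα) (lam₂ ν α) (XX ν Λ ∪ Set.range (lam₁ ν α)) (Om ν Λ) m₂ q₂ ∧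
      (∀ γ, q₁ γ ∈ L.Z → γ = 1) ∧ (∀ γ, q₂ γ ∈ L.Z → γ = 1)

end defs

section tw

variable {S P M V₁ V₂ : Type} [Group S] [MeasurableSpace V₁] [MeasurableSpace V₂]
  [TopologicalSpace S] [MulAction S P] [TopologicalSpace P] [CompactSpace P]
  [ContinuousConstSMul S P] [MulAction S M] [TopologicalSpace M] [CompactSpace M]
  [ContinuousConstSMul S M] [NormedAddCommGroup V₁] [NormedAddCommGroup V₂]
  {K K' : Type} [NormedAddCommGroup K] [InnerProductSpace ℂ K] [CompleteSpace K]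
  [NormedAddCommGroup K'] [InnerProductSpace ℂ K'] [CompleteSpace K'] {u : K ≃ₗᵢ[ℂ] K'}
  {E Γ : Type} [Group E] [TopologicalSpace E] [Group Γ]
  {π : E →* (K →L[ℂ] K)} {lam : Γ →* (K →L[ℂ] K)}
  {W : Set (K →L[ℂ] K)} {Ω : K} {π' : E →* (K' →L[ℂ] K')} {lam' : Γ →* (K' →L[ℂ] K')}
  {W' : Set (K' →L[ℂ] K')} {Ω' : K'} {q : Γ → S} {𝒰 : Ultrafilter ℕ}
  {m : Set Γ → (K →L[ℂ] K)} {ι : S →* E} {L : Lt S P M V₁ V₂} {T : Gau S P M}

/-- **Transport of the data of a leg.** -/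
theorem tw_hasLegW (t : Tw u π lam W Ω π' lam' W' Ω') (h : HasLegW L T 𝒰 ι π lam W Ω m q) :
    HasLegW L T 𝒰 ι π' lam' W' Ω' (fun T => cj u (m T)) q := by
  obtain ⟨U11, p11, U12, p12, U21, p21, U22, p22, h, h1⟩ := h
  refine ⟨_, p11, _, p12, _, p21, _, p22, Tw.tw_legP t h, fun I _ f g hC => ?_⟩
  obtain ⟨h2, h3⟩ := h1 I f g hC
  have e : ∀ (V : C(P, ℂ) →ₗ[ℂ] (K →L[ℂ] K)) (i : I),
      H53.TwX.cjU u V (f i) * H53.TwX.cjU u V (g i) = cj u (V (f i) * V (g i)) := fun V i => by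
    rw [H53.TwX.cjU_ap, H53.TwX.cjU_ap, map_mul]
  refine ⟨fun c => ?_, fun l => ?_⟩
  · rw [Finset.sum_congr rfl fun i _ => e (U11 c) i, ← map_sum, h2 c, map_zero]
  · rw [Finset.sum_congr rfl fun i _ => e (U21 l) i, ← map_sum, h3 l, map_zero]

theorem exStmtW_of_half {E : Type} [Group E] [TopologicalSpace E]
    [IsTopologicalGroup E] [LocallyCompactSpace E] [SecondCountableTopology E] [T2Space E]
    {ι : S →* E} (h : HalfStmtW L T ι) : ExStmtW L T ι := by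
  intro _ _ Γ _ _ _ _ ν _ hν hΓ hicc Λ _ _ hΛ α hα
  obtain ⟨𝒰, m, q, h1, h2⟩ := h hν hΓ hicc hΛ hα
  exact ⟨𝒰, m, _, q, q, h1, tw_hasLegW (SD.tw_flK hν hα) h1, h2, h2⟩

end tw

section pb

variable {S P M V₁ V₂ : Type} [Group S] [MeasurableSpace V₁] [MeasurableSpace V₂]
  {L : Lt S P M V₁ V₂} [TopologicalSpace S] [MulAction S P] [TopologicalSpace P] [CompactSpace P]
  [ContinuousConstSMul S P] [MulAction S M] [TopologicalSpace M] [CompactSpace M]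
  [ContinuousConstSMul S M] [NormedAddCommGroup V₁] [NormedAddCommGroup V₂]
  [ProperSpace V₁] [ProperSpace V₂] [BorelSpace V₁] [BorelSpace V₂]
  {E : Type} [Group E] [TopologicalSpace E] [IsTopologicalGroup E] [LocallyCompactSpace E]
  [SecondCountableTopology E] [T2Space E]

/-- the uniform contraction in the source group -/
theorem uni_push {ι : S →* E} (hc : Continuous ι) {b : S} {n : V₁ → S}
    (h : ∀ O ∈ 𝓝 (1 : S), ∀ᶠ N : ℕ in atTop, ∀ x ∈ Metric.closedBall (0 : V₁) 1,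
      (b ^ N)⁻¹ * n x * b ^ N ∈ O) :
    ∀ O ∈ 𝓝 (1 : E), ∀ᶠ N : ℕ in atTop, ∀ x ∈ Metric.closedBall (0 : V₁) 1,
      (ι b ^ N)⁻¹ * ι (n x) * ι b ^ N ∈ O := by
  intro O hO
  have h1 : ι ⁻¹' O ∈ 𝓝 (1 : S) := hc.continuousAt.preimage_mem_nhds (by rwa [map_one])
  filter_upwards [h _ h1] with N hN x hx
  have h2 := hN x hx
  rw [Set.mem_preimage, map_mul, map_mul, map_inv, map_pow] at h2
  exact h2

variable [MeasurableSpace E] [BorelSpace E] {ι : S →* E}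
  {Γ : Subgroup E} [DiscreteTopology Γ] [Countable Γ] [MeasurableSpace (E ⧸ Γ)]
  [BorelSpace (E ⧸ Γ)] {ν : Measure (E ⧸ Γ)} [IsProbabilityMeasure ν]
  (hν : ∀ g : E, ν.map (fun x => g • x) = ν)
  {Λ : Type} [Group Λ] [Countable Λ] {α : Γ →* (Ell2 Λ →L[ℂ] Ell2 Λ)} (hα : Frame α)

/-- **One leg, with the relations of higher order.** -/
theorem leg₁W (hG : Geo L) {T : Gau S P M} (hT : GauOk L T) (hO : OvlStmt L T) (h : Adm L ι)
    (f1 : IsFiniteMeasureOnCompacts L.μ₁) (f2 : IsFiniteMeasureOnCompacts L.μ₂)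
    (o1 : L.μ₁.IsOpenPosMeasure)
    (hs : H71.CLO.SprL L) (hu : UniC L) {𝒰 : Ultrafilter ℕ} (h𝒰 : (𝒰 : Filter ℕ) ≤ atTop)
    (hΛ : ∀ g : Λ, g ≠ 1 → Set.Infinite {y : Λ | ∃ h, y = h * g * h⁻¹})
    (g1 : LeviGap (ι L.b1)) (g2 : LeviGap (ι L.b2)) {q : Γ → S} (hq : ∀ γ, ι (q γ) = γ)
    (hW1 : Wal (mpE ν hα) (pic hν hα) (Bd ν hα) (msE hν hα) T q (Om ν Λ) (ι L.b1))
    (hW2 : Wal (mpE ν hα) (pic hν hα) (Bd ν hα) (msE hν hα) T q (Om ν Λ) (ι L.b2)) :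
    HasLegW L T 𝒰 ι (pic hν hα) (lam₁ ν α) (XX ν Λ ∪ Set.range (lam₂ ν α)) (Om ν Λ)
      (mS₁ ν hα) q := by
  haveI := ncE hG h
  have hb : PB L 𝒰 ι (pic hν hα) (lam₁ ν α) (XX ν Λ ∪ Set.range (lam₂ ν α)) (Om ν Λ)
      (mS₁ ν hα) q := pb₁ hν hα hG h f1 f2 hs h𝒰 hΛ g1 g2 hq
  have hp := H805.RowN.picE hν hα hΛ
  have est : st (mpE ν hα) = mS₁ ν hα := H805.RowN.st_eq hα
  have hms : SD.Ms (lam₁ ν α) (XX ν Λ ∪ Set.range (lam₂ ν α)) (Om ν Λ) (st (mpE ν hα)) := by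
    rw [est]; exact hb.ms
  have huc : SD.UC (pic hν hα) (XX ν Λ ∪ Set.range (lam₂ ν α)) (Om ν Λ) (st (mpE ν hα)) := by
    rw [est]; exact hb.uc
  have hL : Leg (mpE ν hα) (fun g => pic hν hα g) (fun γ => lam₁ ν α γ)
      (XX ν Λ ∪ Set.range (lam₂ ν α)) :=
    H76.Dicho.leg_of_pic hp (H805.RowN.mcovE hν hα) (H805.RowN.mWE hν hα)
  obtain ⟨U11, p11, U12, p12, U21, p21, U22, p22, H, F11, F21⟩ := legQE_of (q := q)
    (v0 := Om ν Λ) hG hT hO h h𝒰 (picF_of hb.pic) (msF_of hms) hb.ph hb.fin hb.nis1 hb.nis2 hL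
    (H805.RowN.slowE hν hα) (H805.RowN.locE hν hα) hb.pic.nΩ hW1 hW2
  rw [est] at H
  refine ⟨U11, p11, U12, p12, U21, p21, U22, p22, H.leg hb, fun I _ u v hC => ?_⟩
  have hz0 : ∀ γ, 0 < L.nm (q γ) := fun γ => hG.nm_pos _
  have hz : ∀ γ, ∃ d : ℝ, 1 ≤ d ∧ ∀ y, L.nm (q (γ * y)) ≤ d * L.nm (q y) := fun γ => by
    obtain ⟨C, hC0, hC⟩ := hG.nm_mul
    refine ⟨max 1 (C * L.nm (q γ)), le_max_left _ _, fun y => ?_⟩
    obtain ⟨z, hz, e⟩ := hb.ph γ y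
    rw [e, hG.z_nm z hz]
    refine (hC _ _).trans ?_
    rw [← mul_assoc]
    exact mul_le_mul_of_nonneg_right (le_max_right _ _) (hz0 y).le
  have hnc : Tendsto (fun x : V₁ => ι (L.u1 x)) (𝓝 0) (𝓝 1) := by
    have h1 : Continuous fun x : V₁ => ι (L.u1 x) := h.cι.comp hG.u1c
    have h3 := h1.tendsto 0
    rwa [hG.u10, map_one] at h3
  obtain ⟨ρ1, r1, r1', q1⟩ := hb.orb1
  obtain ⟨ρ2, r2, r2', q2⟩ := hb.orb2'
  have z1 : H790.CTA.SIZEG (ι L.b1) (pic hν hα) (Om ν Λ) (st (mpE ν hα))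
      fun γ => L.nm (q γ) := by rw [est]; exact hb.size1
  have z2 : H790.CTA.SIZEG (ι L.b2) (pic hν hα) (Om ν Λ) (st (mpE ν hα))
      fun γ => L.nm (q γ) := by rw [est]; exact hb.size2
  have s11 := H486.Eng.sysF_cn hW1.s1
  have s21 := H486.Eng.sysF_cn hW2.s1
  have x1 : ∀ (g : S) (x : P), letI := actE h hG.z_P; ι g • x = g • x := actE_ι h hG.z_P
  have x2 : ∀ (g : S) (x : M), letI := actE h hG.z_M; ι g • x = g • x := actE_ι h hG.z_M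
  have t1 : letI := actE h hG.z_P; ∀ z : P, ∃ g : E, g • L.p0 = z := fun z => by
    obtain ⟨l, hl⟩ := hG.ex1 z
    obtain ⟨g, hg, -⟩ := hG.flag z l hl
    exact ⟨ι g, (x1 g _).trans hg⟩
  have t2 : letI := actE h hG.z_M; ∀ z : M, ∃ g : E, g • L.m0 = z := fun z => by
    obtain ⟨x, hx⟩ := hG.ex2 z
    obtain ⟨g, -, hg⟩ := hG.flag x z hx
    exact ⟨ι g, (x2 g _).trans hg⟩
  haveI := hG.tg
  constructor
  · letI := actE h hG.z_P
    letI := actQ hb.ph hG.z_P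
    exact rel_same hp hms huc s11 hL hW1.esc h𝒰 F11 t1 r1 r1' hnc q1 (uni_push h.cι hu.1) hz0 hz
      z1 hC
  · letI := actE h hG.z_M
    letI := actQ hb.ph hG.z_P
    exact rel_same hp hms huc s21 hL hW2.esc h𝒰 F21 t2 r2 r2' hnc q2 (uni_push h.cι hu.2) hz0 hz
      z2 hC

end pb

section ex

variable {S P M V₁ V₂ : Type} [Group S] [MeasurableSpace V₁] [MeasurableSpace V₂]
  {L : Lt S P M V₁ V₂} [TopologicalSpace S] [MulAction S P] [TopologicalSpace P] [CompactSpace P]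
  [ContinuousConstSMul S P] [MulAction S M] [TopologicalSpace M] [CompactSpace M]
  [ContinuousConstSMul S M] [NormedAddCommGroup V₁] [NormedAddCommGroup V₂]
  [ProperSpace V₁] [ProperSpace V₂] [BorelSpace V₁] [BorelSpace V₂]
  {E : Type} [Group E] [TopologicalSpace E] [IsTopologicalGroup E] [LocallyCompactSpace E]
  [SecondCountableTopology E] [T2Space E] {ι : S →* E}

/-- **[H-ENG], one leg.** -/
theorem halfStmtW_of (hG : Geo L) {T : Gau S P M} (hT : GauOk L T) (hO : OvlStmt L T)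
    (h : Adm L ι) (f1 : IsFiniteMeasureOnCompacts L.μ₁) (f2 : IsFiniteMeasureOnCompacts L.μ₂)
    (o1 : L.μ₁.IsOpenPosMeasure) (hs : H71.CLO.SprL L) (hu : UniC L) (g1 : LeviGap L.b1)
    (g2 : LeviGap L.b2) (hW : WalStmt L T ι) : HalfStmtW L T ι := by
  intro _ _ Γ _ _ _ _ ν _ hν hΓ hicc Λ _ _ hΛ α hα
  haveI := hG.tg
  have hq : ∀ γ : Γ, ι (Function.surjInv h.sur (γ : E)) = γ := fun γ =>
    Function.surjInv_eq h.sur _
  obtain ⟨hW1, hW2⟩ := hW hν hα hΛ (fun γ => Function.surjInv h.sur (γ : E)) hq (ph_lift h hq)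
    (fin_lift hG h hq)
  exact ⟨hyperfilter ℕ, _, fun γ => Function.surjInv h.sur (γ : E),
    leg₁W hν hα hG hT hO h f1 f2 o1 hs hu Nat.hyperfilter_le_atTop hΛ
      (H684.Psp.leviGap_proper ι h.cι h.sur g1)
      (H684.Psp.leviGap_proper ι h.cι h.sur g2) hq hW1 hW2, inj_lift hG h hq hicc⟩

/-- **[H-ENG], both legs.** -/
theorem exStmtW_of (hG : Geo L) {T : Gau S P M} (hT : GauOk L T) (hO : OvlStmt L T)
    (h : Adm L ι) (f1 : IsFiniteMeasureOnCompacts L.μ₁) (f2 : IsFiniteMeasureOnCompacts L.μ₂)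
    (o1 : L.μ₁.IsOpenPosMeasure) (hs : H71.CLO.SprL L) (hu : UniC L) (g1 : LeviGap L.b1)
    (g2 : LeviGap L.b2) (hW : WalStmt L T ι) : ExStmtW L T ι :=
  exStmtW_of_half (halfStmtW_of hG hT hO h f1 f2 o1 hs hu g1 g2 hW)

end ex

end Vale.Agent.P092.CL
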