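import Vale.Agent.P092.H325.ClXc
import Vale.Agent.P092.CL.LtO

/-!
P092, TEAM P, stage CL-O (helper387): the cross legs (helper325's `SX.xcF`) for a group `S` with a
homomorphism `φ : S →* FormGroup σ J` whose range contains the Eichler elements, every kind of form.
-/

set_option linter.all false

open scoped InnerProductSpace ENNReal ZeroAtInfty LinearAlgebra.Projectivization
open Filter Topology ContinuousLinearMap MeasureTheory Matrix Module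

namespace Vale.Agent.P092.CL

open Vale.Agent.P092.H303 (FormGroup Idx hyp)
open Vale.Agent.P092.H370.Po
open Vale.Agent.P092.H370.Fo (EU EP ei ei_mem_EU EU_le vecMul_ei Wf Fo)
open Vale.Agent.P092.H714.Cl (hf Frm hf_add_left hf_add_right hf_smul_left hf_smul_right
  hf_zero_right)
open Vale.Agent.P092.H714.Sg (Fm)
open Vale.Agent.P092.RC (Cm GG PG YY)
open Vale.Agent.P092.SN (CY PH nm)
open Vale.Agent.P092.H416.CL (pt rho Je range_pt rho_cor cor roc cor_roc hf_cor)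
open Vale.Agent.P092.H325 (HasE Wi2 goodFr_fm)
open Vale.Agent.P092.H325.CL (fm_re wi2_re)

section good

variable {n : Type} [Fintype n] [DecidableEq n] {k : Type} [NontriviallyNormedField k]
  {σ : k →+* k} {ε : k} {J : Matrix n n k} {N r : ℕ} {S : Type} [Group S]

/-- the Eichler transformations are in the range -/
theorem hasE_phi (e : n ≃ Fin (N + 1)) (hF : Fm σ ε J) {φ : S →* FormGroup σ J}
    (hφ : ∀ g : FormGroup σ J, g.1 ∈ EU σ ε J → ∃ s, φ s = g) {v : Fin (N + 1) → k}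
    (hv : hf σ (Je e J) v v = 0) : HasE σ ε (Je e J) ((rho e σ J).comp φ) v := by
  intro w hw hvw s hs
  obtain ⟨v₀, rfl⟩ : ∃ v₀, cor e v₀ = v := ⟨roc e v, cor_roc e v⟩
  obtain ⟨w₀, rfl⟩ : ∃ w₀, cor e w₀ = w := ⟨roc e w, cor_roc e w⟩
  rw [hf_cor] at hv hw hvw
  have ep : EP σ ε J v₀ (s • w₀) 0 :=
    { uu := hv
      vu := by rw [hf_smul_left, hF.symm0 hvw, mul_zero]
      vv := by rw [hf_smul_left, hf_smul_right, hw]; simp }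
  obtain ⟨t, ht⟩ := hφ ⟨ei σ ε J v₀ (s • w₀) 0, EU_le hF (ei_mem_EU ep)⟩ (ei_mem_EU ep)
  refine ⟨t⁻¹, fun x => ?_⟩
  obtain ⟨y, rfl⟩ : ∃ y, cor e y = x := ⟨roc e x, cor_roc e x⟩
  change (rho e σ J (φ t⁻¹)).1 *ᵥ cor e y = _
  rw [map_inv, ht, rho_cor]
  have e1 : ((⟨ei σ ε J v₀ (s • w₀) 0, EU_le hF (ei_mem_EU ep)⟩ : FormGroup σ J)⁻¹).1⁻¹ =
      ei σ ε J v₀ (s • w₀) 0 := inv_inv _
  rw [e1, vecMul_ei hF ep, hf_smul_right, hs, hf_cor, hf_cor]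
  funext i
  simp only [cor, Pi.add_apply, Pi.sub_apply, Pi.smul_apply, smul_eq_mul]
  ring

theorem wi2_wf (hF : Wf σ ε J r) (hr : 2 ≤ r) : Wi2 σ J := by
  intro x hx0 hx
  obtain ⟨⟨Y, hY, hdY⟩, -⟩ := hF.wi
  have hs : Sing σ J (Submodule.span k {x}) := by
    unfold Sing
    rw [ort_span_left]
    intro y hy
    obtain ⟨a, rfl⟩ := Submodule.mem_span_singleton.1 hy
    rw [hf_smul_right, hx, mul_zero]
  have hd1 : finrank k (Submodule.span k {x}) = 1 := finrank_span_singleton hx0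
  obtain ⟨Z, h1, h2, h3⟩ := H370.Fo.exists_above hF.fo hs hY (j := 2) (by omega) (by omega)
  have h4 : ¬ Z ≤ Submodule.span k {x} := fun h' => by
    have := Submodule.finrank_mono h'
    omega
  obtain ⟨w, hw, hwx⟩ := SetLike.not_le_iff_exists.1 h4
  exact ⟨w, h2.zero hw, h2 x (h1 (Submodule.mem_span_singleton_self x)) w hw, hwx⟩

/-- **good frames** -/
theorem goodFr_phi (e : n ≃ Fin (N + 1)) (hF : Wf σ ε J r) (hr : 2 ≤ r)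
    {φ : S →* FormGroup σ J} (hφ : ∀ g : FormGroup σ J, g.1 ∈ EU σ ε J → ∃ s, φ s = g) :
    H325.SX.GoodFr (pt e : SGr σ J 1 → _) ((rho e σ J).comp φ) :=
  goodFr_fm (K := Je e J) (fm_re e hF.fm) (wi2_re e (wi2_wf hF hr)) _
    (fun v _ hv => hasE_phi e hF.fm hφ hv) (pt e) fun v hv h => (range_pt e hv).2 h

end good

section xc

variable {n : Type} [Fintype n] [DecidableEq n] {k l₁ l₂ : Type} [NontriviallyNormedField k]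
  [NontriviallyNormedField l₁] [ProperSpace l₁] [NontriviallyNormedField l₂] [ProperSpace l₂]
  {σ : k →+* k} {ε : k} {J : Matrix n n k} {N r : ℕ} {S : Type} [Group S]
  {E₀ Γ₁ Γ₂ K : Type} [Group E₀] [TopologicalSpace E₀] [Group Γ₁] [Group Γ₂]
  [NormedAddCommGroup K] [InnerProductSpace ℂ K] [CompleteSpace K]
  {ι : S →* E₀} {π : E₀ →* (K →L[ℂ] K)} {lam₁ : Γ₁ →* (K →L[ℂ] K)}
  {lam₂ : Γ₂ →* (K →L[ℂ] K)} {X : Set (K →L[ℂ] K)} {Ω : K} {q₁ : Γ₁ → GG l₁ N}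
  {q₂ : Γ₂ → GG l₂ N}
  {E₁ : SGr σ J 1 → (CY l₁ N →⋆ₐ[ℂ] (K →L[ℂ] K))} {E₂ : SGr σ J 1 → (CY l₂ N →⋆ₐ[ℂ] (K →L[ℂ] K))}
  {τ₁ : k →+* l₁} {τ₂ : k →+* l₂}
  {Q₁ : C₀(PG l₁ (N + 1), ℂ) →⋆ₙₐ[ℂ] (K →L[ℂ] K)} {Q₂ : C₀(PG l₂ (N + 1), ℂ) →⋆ₙₐ[ℂ] (K →L[ℂ] K)}

/-- **[CLO-XC]** -/
theorem xcP [Countable Γ₁] (e : n ≃ Fin (N + 1)) (hF : Wf σ ε J r) (hr : 2 ≤ r)
    {φ : S →* FormGroup σ J} (hφ : ∀ g : FormGroup σ J, g.1 ∈ EU σ ε J → ∃ s, φ s = g)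
    (hPic : RC.PicX π lam₁ (X ∪ Set.range lam₂) Ω)
    (tv : ∀ Y, Cm (X ∪ Set.range lam₂) Y → (∀ γ, Y * lam₁ γ = lam₁ γ * Y) →
      ∀ h : S, ⟪π (ι h) Ω, Y (π (ι h) Ω)⟫_ℂ = ⟪Ω, Y Ω⟫_ℂ)
    (adj₂ : ∀ γ, adjoint (lam₂ γ) = lam₂ γ⁻¹) (ph₁ : PH q₁) (ph₂ : PH q₂)
    (disc₁ : ∀ C : ℝ, {γ : Γ₁ | nm (q₁ γ) ≤ C}.Finite)
    (h₁ : H325.SX.ClsF (pt e) ((rho e σ J).comp φ) ι π lam₁ (X ∪ Set.range lam₂) q₁ E₁ τ₁ Q₁)
    (h₂ : H325.SX.ClsF (pt e) ((rho e σ J).comp φ) ι π lam₂ (X ∪ Set.range lam₁) q₂ E₂ τ₂ Q₂)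
    (ψ : C₀(PG l₁ (N + 1), ℂ)) (ψ' : C₀(PG l₂ (N + 1), ℂ)) : Commute (Q₁ ψ) (Q₂ ψ') :=
  H325.SX.xcF (goodFr_phi e hF hr hφ) hPic tv adj₂ ph₁ ph₂
    (fun C hC => H325.overlap_disc ph₁ disc₁ hC) h₁ h₂ ψ ψ'

end xc

/-! ### in the letters of the record -/

section rec

variable {n : Type} [Fintype n] [DecidableEq n] {k : Type} [NontriviallyNormedField k]
  {σ : k →+* k} {ε : k} {J : Matrix n n k} {N r : ℕ} {S P M V₁ V₂ : Type} [Group S]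
  [MeasurableSpace V₁] [MeasurableSpace V₂]

/-- the scalars of the record are scalar matrices -/
def ScP (e : n ≃ Fin (N + 1)) (φ : S →* FormGroup σ J) (L : Lt S P M V₁ V₂) : Prop :=
  ∀ z ∈ L.Z, ∃ c : k, (rho e σ J (φ z)).1 = c • (1 : Matrix (Fin (N + 1)) (Fin (N + 1)) k)

/-- the size of the record is at most a function of the size of the columns -/
def NmcP (e : n ≃ Fin (N + 1)) (φ : S →* FormGroup σ J) (L : Lt S P M V₁ V₂) : Prop :=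
  ∀ C : ℝ, ∃ C' : ℝ, ∀ g, nm (rho e σ J (φ g)) ≤ C → L.nm g ≤ C'

theorem ph_rhoP {Γ : Type} [Group Γ] {e : n ≃ Fin (N + 1)} {φ : S →* FormGroup σ J}
    {L : Lt S P M V₁ V₂} (hZ : ScP e φ L) {q : Γ → S} (h : L.PH q) :
    PH fun γ => rho e σ J (φ (q γ)) := by
  intro γ γ'
  obtain ⟨z, hz, h1⟩ := h γ γ'
  obtain ⟨c, hc⟩ := hZ z hz
  refine ⟨c, ?_⟩
  change (rho e σ J (φ (q (γ * γ')))).1 =
    c • (rho e σ J (φ (q γ)) * rho e σ J (φ (q γ'))).1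
  rw [h1, map_mul, map_mul, map_mul, map_mul]
  change (rho e σ J (φ z)).1 * (rho e σ J (φ (q γ)) * rho e σ J (φ (q γ'))).1 = _
  rw [hc, smul_mul_assoc, one_mul]

theorem fin_rhoP {Γ : Type} {e : n ≃ Fin (N + 1)} {φ : S →* FormGroup σ J}
    {L : Lt S P M V₁ V₂} (hN : NmcP e φ L) {q : Γ → S}
    (h : ∀ C : ℝ, {γ | L.nm (q γ) ≤ C}.Finite) (C : ℝ) :
    {γ | nm (rho e σ J (φ (q γ))) ≤ C}.Finite := by
  obtain ⟨C', hC'⟩ := hN C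
  exact (h C').subset fun γ hγ => hC' _ hγ

variable [ProperSpace k] [NormedAddCommGroup V₁] [NormedAddCommGroup V₂] [TopologicalSpace S]
  [TopologicalSpace P] [CompactSpace P] [MulAction S P] [ContinuousConstSMul S P]
  [TopologicalSpace M] [CompactSpace M] [MulAction S M] [ContinuousConstSMul S M]
  {E₀ Γ K : Type} [Group E₀] [TopologicalSpace E₀] [Group Γ] [Countable Γ]
  [NormedAddCommGroup K] [InnerProductSpace ℂ K] [CompleteSpace K]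
  {L : Lt S P M V₁ V₂} {𝒰 : Ultrafilter ℕ}
  {ι : S →* E₀} {π : E₀ →* (K →L[ℂ] K)} {lam₁ lam₂ : Γ →* (K →L[ℂ] K)}
  {X : Set (K →L[ℂ] K)} {Ω : K} {m₁ m₂ : Set Γ → (K →L[ℂ] K)} {q₁ q₂ : Γ → S}
  {E₁ E₂ : SGr σ J 1 → (CY k N →⋆ₐ[ℂ] (K →L[ℂ] K))} {τ₁ τ₂ : k →+* k}
  {Q₁ Q₂ : C₀(PG k (N + 1), ℂ) →⋆ₙₐ[ℂ] (K →L[ℂ] K)}

/-- **[CLO-XC]**, from the two base records -/
theorem xcLP (e : n ≃ Fin (N + 1)) (hF : Wf σ ε J r) (hr : 2 ≤ r)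
    {φ : S →* FormGroup σ J} (hφ : ∀ g : FormGroup σ J, g.1 ∈ EU σ ε J → ∃ s, φ s = g)
    (hZ : ScP e φ L) (hN : NmcP e φ L)
    (b₁ : PB L 𝒰 ι π lam₁ (X ∪ Set.range lam₂) Ω m₁ q₁)
    (b₂ : PB L 𝒰 ι π lam₂ (X ∪ Set.range lam₁) Ω m₂ q₂)
    (t₁ : SN.TVE π lam₁ (X ∪ Set.range lam₂) Ω)
    (h₁ : H325.SX.ClsF (pt e) ((rho e σ J).comp φ) ι π lam₁ (X ∪ Set.range lam₂)
      (fun γ => rho e σ J (φ (q₁ γ))) E₁ τ₁ Q₁)
    (h₂ : H325.SX.ClsF (pt e) ((rho e σ J).comp φ) ι π lam₂ (X ∪ Set.range lam₁)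
      (fun γ => rho e σ J (φ (q₂ γ))) E₂ τ₂ Q₂)
    (ψ ψ' : C₀(PG k (N + 1), ℂ)) : Commute (Q₁ ψ) (Q₂ ψ') :=
  xcP e hF hr hφ b₁.pic (fun Y h1 h2 h => t₁ Y ⟨h1, h2⟩ (ι h)) b₂.pic.adjL (ph_rhoP hZ b₁.ph)
    (ph_rhoP hZ b₂.ph) (fin_rhoP hN b₁.fin) h₁ h₂ ψ ψ'

end rec

end Vale.Agent.P092.CL
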