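import Vale.Agent.P092.CL.Main
import Vale.Agent.P092.CL.XcO

/-!
P092, TEAM P, stage CL-O (helper387): the assembly `coreE_of` of helper142 for a group `S` with a
homomorphism `φ : S →* FormGroup σ J` whose range contains the Eichler elements.
-/

set_option linter.all false

open scoped InnerProductSpace ENNReal LinearAlgebra.Projectivization ZeroAtInfty
open Filter Topology ContinuousLinearMap MeasureTheory TopologicalSpace

namespace Vale.Agent.P092.CL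

open Vale.Agent.P092.RC (Cm TRN Moore GG PG YY)
open Vale.Agent.P092.H35 (sp)
open Vale.Agent.P092.H303 (FormGroup Idx hyp)
open Vale.Agent.P092.H370.Po
open Vale.Agent.P092.H370.Fo (EU Wf)
open Vale.Agent.P092.H714.Cl (hf Frm)
open Vale.Agent.P092.H416.CL (pt rho EP)
open Vale.Agent.P092.H325.SX (ClsF)
open Vale.Agent.P092.SN (TVE CoreE CY)

section stmts

variable {n : Type} [Fintype n] [DecidableEq n] {k : Type} [NontriviallyNormedField k]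
  [ProperSpace k] {σ : k →+* k} [Fact (Continuous σ)] {J : Matrix n n k} {N : ℕ}
  {S M V₁ V₂ : Type} [Group S] [MeasurableSpace V₁] [MeasurableSpace V₂]
  [NormedAddCommGroup V₁] [NormedAddCommGroup V₂] [TopologicalSpace S]
  [MulAction S (SGr σ J 1)] [ContinuousConstSMul S (SGr σ J 1)]
  [TopologicalSpace M] [CompactSpace M] [MulAction S M] [ContinuousConstSMul S M]

/-- **[CLO-CLS]** -/
def ClsStmtP (e : n ≃ Fin (N + 1)) (φ : S →* FormGroup σ J)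
    (L : Lt S (SGr σ J 1) M V₁ V₂) : Prop :=
  ∀ {E Γ K : Type} [Group E] [TopologicalSpace E] [Group Γ] [NormedAddCommGroup K]
    [InnerProductSpace ℂ K] [CompleteSpace K] (𝒰 : Ultrafilter ℕ) (ι : S →* E)
    (π : E →* (K →L[ℂ] K)) (lam : Γ →* (K →L[ℂ] K)) (W : Set (K →L[ℂ] K)) (Ω : K)
    (m : Set Γ → (K →L[ℂ] K)) (q : Γ → S)
    (Ec : SGr σ J 1 → (C(SGr σ J 1, ℂ) →⋆ₐ[ℂ] (K →L[ℂ] K)))
    (F : M → (C(M, ℂ) →⋆ₐ[ℂ] (K →L[ℂ] K))), LegComm L 𝒰 ι π lam W Ω m q Ec F →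
    ∃ (τ : k →+* k) (Q : C₀(PG k (N + 1), ℂ) →⋆ₙₐ[ℂ] (K →L[ℂ] K)),
      ClsF (pt e) ((rho e σ J).comp φ) ι π lam W (fun γ => rho e σ J (φ (q γ))) (EP e Ec) τ Q

end stmts

section main

variable {n : Type} [Fintype n] [DecidableEq n] {k : Type} [NontriviallyNormedField k]
  [ProperSpace k] {σ : k →+* k} [Fact (Continuous σ)] {ε : k} {J : Matrix n n k} {N r : ℕ}
  {S M V₁ V₂ : Type} [Group S] [MeasurableSpace V₁] [MeasurableSpace V₂]
  [NormedAddCommGroup V₁] [NormedAddCommGroup V₂] [TopologicalSpace S]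
  [MulAction S (SGr σ J 1)] [ContinuousConstSMul S (SGr σ J 1)]
  [TopologicalSpace M] [CompactSpace M] [MulAction S M] [ContinuousConstSMul S M]
  {L : Lt S (SGr σ J 1) M V₁ V₂} {φ : S →* FormGroup σ J}

/-- an element which acts trivially on the projective space is a scalar of the record -/
theorem z_of_spP (e : n ≃ Fin (N + 1)) (hG : Geo L)
    (hact : ∀ (g : S) (x : SGr σ J 1), g • x = φ g • x) {g : S}
    (h : sp k (N + 1) (rho e σ J (φ g)) = 1) : g ∈ L.Z := by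
  refine hG.z_of g fun x => ?_
  refine H416.CL.pt_inj e ?_
  rw [hact, H416.CL.pt_smul]
  change sp k (N + 1) (rho e σ J (φ g)) • pt e x = pt e x
  rw [h, one_smul]

theorem cleg_ofP {E Γ K : Type} [Group E] [TopologicalSpace E] [Group Γ] [NormedAddCommGroup K]
    [InnerProductSpace ℂ K] [CompleteSpace K] {ι : S →* E} {π : E →* (K →L[ℂ] K)}
    {lam : Γ →* (K →L[ℂ] K)} {W : Set (K →L[ℂ] K)} {q : Γ → GG k N} {ρ : S →* GG k N}
    {Ec : SGr σ J 1 → (CY k N →⋆ₐ[ℂ] (K →L[ℂ] K))} {τ : k →+* k}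
    {Q : C₀(PG k (N + 1), ℂ) →⋆ₙₐ[ℂ] (K →L[ℂ] K)} (e : n ≃ Fin (N + 1))
    (h : ClsF (pt e) ρ ι π lam W q Ec τ Q) (hs : Function.Surjective ι) (hq : SN.PH q)
    (hi : ∀ γ, sp k (N + 1) (q γ) = 1 → γ = 1)
    (hd : ∀ C : ℝ, {γ : Γ | SN.nm (q γ) ≤ C}.Finite) :
    H264.Cl.CLeg π lam W (SN.qP q hq) Q where
  nd := h.nd
  cm := h.cm
  cov γ ψ ψ' hψ := h.cov γ ψ ψ' hψ
  pcov x ψ := by
    obtain ⟨g, rfl⟩ := hs x
    refine ⟨⟨⟨fun y => ψ (y * sp k (N + 1) (Matrix.SpecialLinearGroup.map τ (ρ g))),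
      by fun_prop⟩, ?_⟩, h.pcov g ψ _ fun y => rfl⟩
    exact ψ.zero_at_infty'.comp (Homeomorph.mulRight _).isClosedEmbedding.tendsto_cocompact
  inj := (injective_iff_map_eq_one _).2 fun γ hγ => hi γ hγ
  disc C hC := by
    have h1 := H35.sp_proper (Nat.succ_ne_zero N) hC hC.isClosed
    obtain ⟨R, hR⟩ := (h1.image (f := fun g : GG k N => SN.nm g) (by
      have h2 : Continuous fun g : GG k N => g.1 := continuous_subtype_val
      exact H35.nmx_cont.comp h2)).bddAbove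
    exact (hd R).subset fun γ hγ => hR ⟨q γ, hγ, rfl⟩

open Vale.Agent.P092.SR Vale.Agent.P092.H160 in
open Vale.Agent.P092.RC (KK pic lam₁ lam₂ XX Om) in
/-- **Assembly.** -/
theorem coreE_ofP {E : Type} [Group E] [TopologicalSpace E] [IsTopologicalGroup E]
    [LocallyCompactSpace E] [SecondCountableTopology E] [T2Space E] {ι : S →* E}
    (e : n ≃ Fin (N + 1)) (hF : Wf σ ε J r) (hr : 2 ≤ r)
    (hφ : ∀ g : FormGroup σ J, g.1 ∈ EU σ ε J → ∃ s, φ s = g)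
    (hact : ∀ (g : S) (x : SGr σ J 1), g • x = φ g • x) (hG : Geo L)
    (hA : Adm L ι) (hZ : ScP e φ L) (hN : NmcP e φ L) (hOne : OneStmt L)
    (hCls : ClsStmtP e φ L) (hEx : ExStmt L ι) : CoreE E := by
  haveI : NoncompactSpace E := nc_E hG hA
  intro Γ hΓ hicc Λ _ _ hΛ α hα
  letI : MeasurableSpace E := borel _
  haveI : BorelSpace E := ⟨rfl⟩
  haveI hd : DiscreteTopology Γ := hΓ.disc
  haveI hc : Countable Γ := H790.countable_of_discrete (E := E) Γ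
  letI : MeasurableSpace (E ⧸ Γ) := borel _
  haveI : BorelSpace (E ⧸ Γ) := ⟨rfl⟩
  obtain ⟨ν, hP', hν⟩ := H515.IsLattice.exists_prob (Λ := Γ) ⟨hΓ.disc, hΓ.covol⟩
  have tv1 : TVE (pic hν hα) (lam₁ ν α) (XX ν Λ ∪ Set.range (lam₂ ν α)) (Om ν Λ) := by
    rintro Y ⟨hY, hY1⟩ h
    exact H103.tv_gen hν hα (fun A hA => hY _ (Or.inl ⟨A, hA, rfl⟩)) hY1
      (fun g => hY _ (Or.inr ⟨g, rfl⟩)) h
  obtain ⟨𝒰, m₁, m₂, q₁, q₂, l1, l2, i1, i2⟩ := hEx (Γ := Γ) hν hΓ hicc hΛ hα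
  obtain ⟨E₁, F₁, c1⟩ := hOne 𝒰 ι _ _ _ _ m₁ q₁ l1
  obtain ⟨E₂, F₂, c2⟩ := hOne 𝒰 ι _ _ _ _ m₂ q₂ l2
  obtain ⟨σ₁, Q₁, hQ1⟩ := hCls 𝒰 ι _ _ _ _ m₁ q₁ E₁ F₁ c1
  obtain ⟨σ₂, Q₂, hQ2⟩ := hCls 𝒰 ι _ _ _ _ m₂ q₂ E₂ F₂ c2
  have hX := xcLP e hF hr hφ hZ hN c1.leg.base c2.leg.base tv1 hQ1 hQ2
  exact H264.Cl.mono_of_legs hν hα
    (cleg_ofP e hQ1 hA.sur (ph_rhoP hZ c1.leg.base.ph) (fun γ h => i1 γ (z_of_spP e hG hact h))
      (fin_rhoP hN c1.leg.base.fin))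
    (cleg_ofP e hQ2 hA.sur (ph_rhoP hZ c2.leg.base.ph) (fun γ h => i2 γ (z_of_spP e hG hact h))
      (fin_rhoP hN c2.leg.base.fin)) hX

end main

/-! ### the orthogonal letters -/

section orth

variable {k : Type} [NontriviallyNormedField k] [MeasurableSpace k] {ι₀ : Type} [Fintype ι₀]
  [DecidableEq ι₀] {s N : ℕ} {J₀ : Matrix ι₀ ι₀ k}

/-- the inclusion of the group of the Eichler elements -/
def phiO (s : ℕ) (J₀ : Matrix ι₀ ι₀ k) : EUF (RingHom.id k) 1 (hyp (s + 2) 1 J₀) →*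
    FormGroup (RingHom.id k) (hyp (s + 2) 1 J₀) := Subgroup.subtype _

theorem hphiO (g : FormGroup (RingHom.id k) (hyp (s + 2) 1 J₀))
    (hg : g.1 ∈ EU (RingHom.id k) 1 (hyp (s + 2) 1 J₀)) : ∃ t, phiO s J₀ t = g :=
  ⟨⟨g, hg⟩, rfl⟩

theorem hactO {j : ℕ} (g : EUF (RingHom.id k) 1 (hyp (s + 2) 1 J₀))
    (x : SGr (RingHom.id k) (hyp (s + 2) 1 J₀) j) : g • x = phiO s J₀ g • x := rfl

theorem scO (e : Idx (s + 2) ι₀ ≃ Fin (N + 1)) (h : OF J₀) {a : k} (ha : a ≠ 0)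
    (μ₁ : Measure k) (μ₂ : Measure (ι₀ → k)) : ScP e (phiO s J₀) (ltO h s ha μ₁ μ₂) := by
  intro z hz
  have h1 : (z.1.1)⁻¹ ∈ scal k (Idx (s + 2) ι₀) :=
    inv_mem (Subgroup.mem_subgroupOf.1 (Subgroup.mem_subgroupOf.1 hz))
  obtain ⟨c, hc⟩ := h1
  refine ⟨c, ?_⟩
  change ((z.1.1⁻¹).1).transpose.submatrix e.symm e.symm = _
  rw [hc, Matrix.transpose_smul, Matrix.transpose_one]
  ext i j
  change c * (1 : Matrix (Idx (s + 2) ι₀) (Idx (s + 2) ι₀) k) (e.symm i) (e.symm j) =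
    c * (1 : Matrix (Fin (N + 1)) (Fin (N + 1)) k) i j
  congr 1
  simp only [Matrix.one_apply, e.symm.injective.eq_iff]

theorem nmcO (e : Idx (s + 2) ι₀ ≃ Fin (N + 1)) (h : OF J₀) {a : k} (ha : a ≠ 0)
    (μ₁ : Measure k) (μ₂ : Measure (ι₀ → k)) : NmcP e (phiO s J₀) (ltO h s ha μ₁ μ₂) := by
  intro C
  refine ⟨C, fun g hg => ?_⟩
  have h0 : 0 ≤ C := (norm_nonneg _).trans hg
  change ‖(fun i j => ta g.1.1 i j : Idx (s + 2) ι₀ → Idx (s + 2) ι₀ → k)‖ ≤ C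
  refine (pi_norm_le_iff_of_nonneg h0).2 fun i => (pi_norm_le_iff_of_nonneg h0).2 fun j => ?_
  have h1 : ‖(rho e (RingHom.id k) _ g.1).1 (e i) (e j)‖ ≤
      SN.nm (rho e (RingHom.id k) _ g.1) :=
    (norm_le_pi_norm (fun j' => (rho e (RingHom.id k) _ g.1).1 (e i) j') (e j)).trans
      (norm_le_pi_norm (fun i' j' => (rho e (RingHom.id k) _ g.1).1 i' j') (e i))
  have h2 : (rho e (RingHom.id k) _ g.1).1 (e i) (e j) = ta g.1.1 i j := by
    change ((g.1.1⁻¹).1).transpose (e.symm (e i)) (e.symm (e j)) = _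
    rw [e.symm_apply_apply, e.symm_apply_apply]
    rfl
  rw [← h2]
  exact h1.trans hg

end orth

end Vale.Agent.P092.CL
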