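import Vale.Agent.P092.CL.TopO
import Vale.Agent.P092.H370.Cg5
import Vale.Agent.P092.H71.P.CLGeo

/-!
P092, TEAM P, stage CL-O (helper387): the rows of the size and of the scalars for the letters `ltO`
(after helper71's CLGeo and helper370's Cg4, Cg5).
-/

set_option linter.all false

open scoped Matrix
open Matrix Module Set MeasureTheory Filter Topology

namespace Vale.Agent.P092.CL

open Vale.Agent.P092.H303 (FormGroup Idx hyp)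
open Vale.Agent.P092.H714.Cl
open Vale.Agent.P092.H370.Po (SGr Inc)
open Vale.Agent.P092.H71.CLG

/-- the size of the inverse, for a form with an inverse matrix -/
theorem inv_leJ {k : Type} [NontriviallyNormedField k] {n : Type} [Fintype n] [DecidableEq n]
    {σ : k →+* k} {J J' : Matrix n n k} (hσ : ∀ x, ‖σ x‖ = ‖x‖) (hJ : J' * J = 1) :
    ∃ C : ℝ, 0 < C ∧ ∀ g : FormGroup σ J, nmM (ta g⁻¹.1) ≤ C * nmM (ta g.1) := by
  refine ⟨Fintype.card n * (nmM J' * Fintype.card n * nmM J) + 1, by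
    have h1 := nmM_nonneg J
    have h2 := nmM_nonneg J'
    positivity, fun g => ?_⟩
  have hg : g.1.1 * J * (g.1.1.map σ)ᵀ = J := g.2
  have h1 : g.1⁻¹.1 * g.1.1 = 1 := congrArg Subtype.val (inv_mul_cancel g.1)
  have h2 : J * (g.1.1.map σ)ᵀ = g.1⁻¹.1 * J := by
    calc J * (g.1.1.map σ)ᵀ = (g.1⁻¹.1 * g.1.1) * (J * (g.1.1.map σ)ᵀ) := by
          rw [h1, Matrix.one_mul]
      _ = g.1⁻¹.1 * (g.1.1 * J * (g.1.1.map σ)ᵀ) := by simp only [Matrix.mul_assoc]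
      _ = g.1⁻¹.1 * J := by rw [hg]
  have h3 : (g.1.1.map σ)ᵀ = J' * (g.1⁻¹.1 * J) := by
    rw [← h2, ← Matrix.mul_assoc, hJ, Matrix.one_mul]
  have h4 : nmM (ta g⁻¹.1) = nmM ((g.1.1.map σ)ᵀ) := by
    change nmM (ta g.1⁻¹) = _
    rw [ta_inv, nmM_T, nmM_T, nmM_map hσ]
  have h5 : nmM g.1⁻¹.1 = nmM (ta g.1) := (nmM_T _).symm
  have e0 := nmM_nonneg (ta g.1)
  have e1 := nmM_nonneg J
  have e2 := nmM_nonneg J'
  rw [h4, h3]
  calc nmM (J' * (g.1⁻¹.1 * J)) ≤ Fintype.card n * (nmM J' * nmM (g.1⁻¹.1 * J)) := nmM_mul _ _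
    _ ≤ Fintype.card n * (nmM J' * (Fintype.card n * (nmM (ta g.1) * nmM J))) := by
        rw [← h5]
        exact mul_le_mul_of_nonneg_left (mul_le_mul_of_nonneg_left (nmM_mul _ _) e2)
          (Nat.cast_nonneg _)
    _ = Fintype.card n * (nmM J' * Fintype.card n * nmM J) * nmM (ta g.1) := by ring
    _ ≤ _ := by nlinarith

section rows

variable {k : Type} [NontriviallyNormedField k] [MeasurableSpace k] {ι : Type} [Fintype ι]
  [DecidableEq ι] {s : ℕ} {J₀ : Matrix ι ι k} (h : OF J₀) {a : k} (ha : a ≠ 0) (μ₁ : Measure k)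
  (μ₂ : Measure (ι → k))

theorem nm_posO (g : EUF (RingHom.id k) 1 (hyp (s + 2) 1 J₀)) : 0 < (ltO h s ha μ₁ μ₂).nm g :=
  nmM_ne (ta_ne g.1.1)

theorem nm_mulO : ∃ C : ℝ, 0 < C ∧ ∀ g g' : EUF (RingHom.id k) 1 (hyp (s + 2) 1 J₀),
    (ltO h s ha μ₁ μ₂).nm (g * g') ≤ C * ((ltO h s ha μ₁ μ₂).nm g * (ltO h s ha μ₁ μ₂).nm g') :=
  ⟨Fintype.card (Idx (s + 2) ι), by exact_mod_cast Fintype.card_pos, fun g g' => by
    change nmM (ta (g.1.1 * g'.1.1)) ≤ _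
    rw [ta_mul]
    exact nmM_mul _ _⟩

theorem nm_invO : ∃ C : ℝ, 0 < C ∧ ∀ g : EUF (RingHom.id k) 1 (hyp (s + 2) 1 J₀),
    (ltO h s ha μ₁ μ₂).nm g⁻¹ ≤ C * (ltO h s ha μ₁ μ₂).nm g := by
  obtain ⟨C, hC, h1⟩ := inv_leJ (σ := RingHom.id k) (fun _ => rfl)
    (mul_eq_one_comm.1 (h.kk s))
  exact ⟨C, hC, fun g => h1 g.1⟩

theorem nm_cptO [ProperSpace k] (C : ℝ) : IsCompact {g : EUF (RingHom.id k) 1
    (hyp (s + 2) 1 J₀) | (ltO h s ha μ₁ μ₂).nm g ≤ C} := by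
  obtain ⟨B, hB, hBi⟩ := nm_invO (s := s) h ha μ₁ μ₂
  have h1 : IsClosedEmbedding (fun g : EUF (RingHom.id k) 1 (hyp (s + 2) 1 J₀) => g.1.1.1) :=
    H303.isClosedEmbedding_val.comp (isClosedEmbedding_EUF h s)
  have h2 : IsCompact {A : Matrix (Idx (s + 2) ι) (Idx (s + 2) ι) k | nmM A ≤ B * C} := by
    have h3 : IsCompact (Metric.closedBall (0 : Idx (s + 2) ι → Idx (s + 2) ι → k) (B * C)) :=
      isCompact_closedBall _ _
    have h4 : Metric.closedBall (0 : Idx (s + 2) ι → Idx (s + 2) ι → k) (B * C) =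
        {A : Idx (s + 2) ι → Idx (s + 2) ι → k | ‖A‖ ≤ B * C} := by
      ext A
      rw [Metric.mem_closedBall, dist_zero_right]
      exact Iff.rfl
    rw [h4] at h3
    exact h3
  refine (h1.isCompact_preimage h2).of_isClosed_subset ?_ ?_
  · exact isClosed_le (nm_cO h s ha μ₁ μ₂) continuous_const
  · intro g hg
    change nmM g.1.1.1 ≤ B * C
    have h3 := hBi g
    have h4 : (ltO h s ha μ₁ μ₂).nm g⁻¹ = nmM g.1.1.1 := by
      change nmM (ta g.1.1⁻¹) = _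
      rw [ta_inv, nmM_T]
    rw [← h4]
    exact h3.trans (mul_le_mul_of_nonneg_left hg hB.le)

theorem norm_sq_lt {a : k} (ha1 : ‖a‖ < 1) : ‖a ^ 2‖ < 1 := by
  rw [norm_pow]
  exact pow_lt_one₀ (norm_nonneg _) ha1 two_ne_zero

theorem nm_b1O (ha1 : ‖a‖ < 1) : Tendsto (fun N : ℕ => (ltO h s ha μ₁ μ₂).nm
    ((ltO h s ha μ₁ μ₂).b1 ^ N)) atTop atTop :=
  nm_tor (σ := RingHom.id k) (ε := 1) (J₀ := J₀) (pow_ne_zero 2 ha) rfl (norm_sq_lt ha1)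
    (l := Pi.single (0 : Fin (s + 2)) 1) (Pi.single_eq_same _ _)

theorem nm_b2O (ha1 : ‖a‖ < 1) : Tendsto (fun N : ℕ => (ltO h s ha μ₁ μ₂).nm
    ((ltO h s ha μ₁ μ₂).b2 ^ N)) atTop atTop :=
  nm_tor (σ := RingHom.id k) (ε := 1) (J₀ := J₀) (pow_ne_zero 2 ha) rfl (norm_sq_lt ha1)
    (l := fun _ => 1) rfl

variable {z : EUF (RingHom.id k) 1 (hyp (s + 2) 1 J₀)} (hz : z ∈ (ltO h s ha μ₁ μ₂).Z)

include hz

theorem z_commO (g : EUF (RingHom.id k) 1 (hyp (s + 2) 1 J₀)) : z * g = g * z :=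
  Subtype.ext (H370.Cg.z_comm' (Subgroup.mem_subgroupOf.1 hz))

theorem z_fixO {j : ℕ} (x : SGr (RingHom.id k) (hyp (s + 2) 1 J₀) j) : z • x = x :=
  H370.Cg.z_fix' (Subgroup.mem_subgroupOf.1 hz) x

theorem z_nmO (g : EUF (RingHom.id k) 1 (hyp (s + 2) 1 J₀)) :
    (ltO h s ha μ₁ μ₂).nm (z * g) = (ltO h s ha μ₁ μ₂).nm g :=
  H370.Cg.z_nm (Subgroup.mem_subgroupOf.1 hz) g.1

theorem z_na1O (g : EUF (RingHom.id k) 1 (hyp (s + 2) 1 J₀)) (R T : ℝ)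
    (A : Set (SGr (RingHom.id k) (hyp (s + 2) 1 J₀) 1)) :
    z * g ∈ (ltO h s ha μ₁ μ₂).NA1 R T A ↔ g ∈ (ltO h s ha μ₁ μ₂).NA1 R T A :=
  H370.Cg.z_na1 (Subgroup.mem_subgroupOf.1 hz) g.1 R T A

theorem z_na2O (g : EUF (RingHom.id k) 1 (hyp (s + 2) 1 J₀)) (R T : ℝ)
    (A : Set (SGr (RingHom.id k) (hyp (s + 2) 1 J₀) (s + 2))) :
    z * g ∈ (ltO h s ha μ₁ μ₂).NA2 R T A ↔ g ∈ (ltO h s ha μ₁ μ₂).NA2 R T A :=
  H370.Cg.z_na2 (Subgroup.mem_subgroupOf.1 hz) g.1 R T A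

end rows

end Vale.Agent.P092.CL
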