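import Vale.Agent.P092.CL.LegE
import Vale.Agent.P092.CL.GeoF
import Vale.Agent.P092.H71.P.CLGeo
import Vale.Agent.P092.H923.PJ9

/-!
P092, Team P, stages 2 and 3 (helper805), [H-ENG]: the uniform contraction of the root group `u1` by
both walls, for the letters `CL.lt`, and `ExStmtW` for the letters `CL.lt`.
-/

set_option linter.all false

open scoped InnerProductSpace ENNReal
open Filter Topology MeasureTheory TopologicalSpace Matrix

namespace Vale.Agent.P092.CL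

open Vale.Agent.P092.H303 (FormGroup Idx hyp)
open Vale.Agent.P092.H714.Cl
open Vale.Agent.P092.H370.Po (SGr Inc Sing WI)
open Vale.Agent.P092.H933 (LeviGap)

/-- the uniform form of `H71.CLG.con_gen` -/
theorem uni_gen {G P : Type} [Group G] [TopologicalSpace G] [NormedAddCommGroup P] {b : G}
    {n : P → G} (hn : Continuous n) (hn0 : n 0 = 1) (φ : P ≃ₜ+ P) {L : ℝ} (hL : 1 < L)
    (hφ : ∀ s, L * ‖s‖ ≤ ‖φ s‖) (hb : ∀ s, b * n s = n (φ s) * b) :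
    ∀ O ∈ 𝓝 (1 : G), ∀ᶠ N : ℕ in atTop, ∀ x ∈ Metric.closedBall (0 : P) 1,
      (b ^ N)⁻¹ * n x * b ^ N ∈ O := by
  intro O hO
  have h2 : ∀ (s : P) (N : ℕ), ‖φ.symm^[N] s‖ ≤ (L⁻¹) ^ N * ‖s‖ := by
    intro s N
    induction N with
    | zero => simp
    | succ N ih =>
      rw [Function.iterate_succ_apply']
      have h3 := hφ (φ.symm (φ.symm^[N] s))
      rw [ContinuousAddEquiv.apply_symm_apply] at h3
      have h4 : ‖φ.symm (φ.symm^[N] s)‖ ≤ L⁻¹ * ‖φ.symm^[N] s‖ := by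
        rw [← div_eq_inv_mul, le_div_iff₀ (by linarith), mul_comm]
        exact h3
      refine h4.trans ?_
      rw [pow_succ', mul_assoc]
      exact mul_le_mul_of_nonneg_left ih (by positivity)
  have h3 : Tendsto n (𝓝 0) (𝓝 1) := by
    have h4 := hn.tendsto 0
    rwa [hn0] at h4
  obtain ⟨δ, hδ, h4⟩ := Metric.eventually_nhds_iff.1 (h3 hO)
  have h5 : Tendsto (fun N : ℕ => (L⁻¹) ^ N) atTop (𝓝 0) :=
    tendsto_pow_atTop_nhds_zero_of_lt_one (by positivity) (inv_lt_one_of_one_lt₀ hL)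
  filter_upwards [h5.eventually (gt_mem_nhds hδ)] with N hN x hx
  rw [mem_closedBall_zero_iff] at hx
  have e1 : ∀ (N : ℕ) (y : P), b ^ N * n y = n (φ^[N] y) * b ^ N := by
    intro N
    induction N with
    | zero => intro y; simp
    | succ N ih =>
      intro y
      rw [pow_succ, mul_assoc, hb, ← mul_assoc, ih, mul_assoc, Function.iterate_succ_apply]
  have e2 : φ^[N] (φ.symm^[N] x) = x :=
    (Function.LeftInverse.iterate (fun y => φ.apply_symm_apply y) N) x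
  have e3 : (b ^ N)⁻¹ * n x * b ^ N = n (φ.symm^[N] x) := by
    have h6 := e1 N (φ.symm^[N] x)
    rw [e2] at h6
    rw [mul_assoc, ← h6, inv_mul_cancel_left]
  rw [e3]
  refine h4 ?_
  rw [dist_zero_right]
  refine (h2 x N).trans_lt ?_
  calc (L⁻¹) ^ N * ‖x‖ ≤ (L⁻¹) ^ N * 1 := by
        have : (0 : ℝ) ≤ (L⁻¹) ^ N := by positivity
        gcongr
    _ < δ := by rw [mul_one]; exact hN

section lt

variable {k : Type} [NontriviallyNormedField k] [ProperSpace k] [MeasurableSpace k]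
  {ι : Type} [Fintype ι] [DecidableEq ι] {s : ℕ} {σ : k →+* k} [Fact (Continuous σ)] {ε : k}
  {J₀ : Matrix ι ι k} {w : k} (hσn : ∀ x, ‖σ x‖ = ‖x‖) (hw : w ≠ 0) (hσ : σ w = w)
  (hw1 : ‖w‖ < 1) (μ₁ : Measure k) (μ₂ : Measure (V2 σ ε))

include hσn hw1

/-- both walls of the letters `lt` contract the root group `u1` uniformly -/
theorem uniC_lt (hF : Frm σ ε (hyp (s + 2) ε J₀)) : UniC (lt hF hw hσ μ₁ μ₂) := by
  have h : (1 : Fin (s + 2)) ≠ 0 := by simp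
  have h1 : ∀ l : Fin (s + 2) → ℤ, 0 < l 0 + l 1 → ∀ O ∈ 𝓝 (1 : FormGroup σ (hyp (s + 2) ε J₀)),
      ∀ᶠ N : ℕ in atTop, ∀ x ∈ Metric.closedBall (0 : k) 1,
        (H71.CLO.toF hw hσ l ^ N)⁻¹ * u1 hF x * H71.CLO.toF hw hσ l ^ N ∈ O := fun l hl =>
    uni_gen (H71.CLG.u1c hF hσn) (H71.CLG.u10 hF)
      (H71.P.dilV (k := k) (H71.CLO.wz hw (l 0 + l 1))) (H71.CLO.wz_lt hw hw1 hl)
      (H71.P.dilV_exp _) (H71.CLG.u1_conj hF hw hσ l)
  refine ⟨h1 (Pi.single (0 : Fin (s + 2)) 1) ?_, h1 (fun _ => 1) (by norm_num)⟩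
  rw [Pi.single_eq_same, Pi.single_eq_of_ne h]
  norm_num

variable [BorelSpace k] [μ₁.IsAddHaarMeasure] [μ₂.IsAddHaarMeasure]
  {E : Type} [Group E] [TopologicalSpace E] [IsTopologicalGroup E]
  [LocallyCompactSpace E] [SecondCountableTopology E] [T2Space E]
  {i : FormGroup σ (hyp (s + 2) ε J₀) →* E}

/-- **[H-ENG]** for the letters `lt` -/
theorem exStmtW_lt (hF : Frm σ ε (hyp (s + 2) ε J₀)) (hW : WI σ (hyp (s + 2) ε J₀) (s + 2))
    (hA : Adm (lt hF hw hσ μ₁ μ₂) i)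
    {T : Gau (FormGroup σ (hyp (s + 2) ε J₀)) (SGr σ (hyp (s + 2) ε J₀) 1)
      (SGr σ (hyp (s + 2) ε J₀) (s + 2))} (hT : GauOk (lt hF hw hσ μ₁ μ₂) T)
    (g1 : LeviGap (lt hF hw hσ μ₁ μ₂).b1) (g2 : LeviGap (lt hF hw hσ μ₁ μ₂).b2)
    (hWl : WalStmt (lt hF hw hσ μ₁ μ₂) T i) : ExStmtW (lt hF hw hσ μ₁ μ₂) T i := by
  haveI := H71.CLG.v2_proper (ε := ε) hσn
  have hG := geo hF hW hσn hw hσ hw1 μ₁ μ₂
  have hO : OvlStmt (lt hF hw hσ μ₁ μ₂) T := H923.CLI.ovlStmt hT hσn hW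
  have f1 : IsFiniteMeasureOnCompacts (lt hF hw hσ μ₁ μ₂).μ₁ :=
    inferInstanceAs (IsFiniteMeasureOnCompacts μ₁)
  have f2 : IsFiniteMeasureOnCompacts (lt hF hw hσ μ₁ μ₂).μ₂ :=
    inferInstanceAs (IsFiniteMeasureOnCompacts μ₂)
  have o1 : (lt hF hw hσ μ₁ μ₂).μ₁.IsOpenPosMeasure := inferInstanceAs μ₁.IsOpenPosMeasure
  have hS := H71.CLG.sprL hF hσn hw hσ hw1 μ₁ μ₂
  have h8 : WalStmt (lt hF hw hσ μ₁ μ₂) T i → ExStmtW (lt hF hw hσ μ₁ μ₂) T i :=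
    exStmtW_of hG hT hO hA f1 f2 o1 hS (uniC_lt hσn hw hσ hw1 μ₁ μ₂ hF) g1 g2
  apply h8
  exact hWl

end lt

end Vale.Agent.P092.CL
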